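import Crest.Agent.N250.GB.Defs
import Mathlib
import Crest.Agent.N222.F.Bump
import Crest.Agent.N222.G.Sim0

-- ▼ part N250/GB/Ix
section

/-!
# Row 250, local Gauss-Bonnet, G4 (helper62): `IxS` from `TopS`, `MorS`, `FrS`, `PcS`
-/

set_option autoImplicit false
open MeasureTheory Set Filter Topology Function
open scoped ContDiff Manifold

noncomputable section

namespace Crest.Agent.N250.GB

open Crest.Agent.N222

namespace Ix

/-- gluing a local inequality between additive functionals by a partition of unity -/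
theorem glue {K : Set ℝ} (hK : IsCompact K) (Q : (ℝ → ℝ) → ℝ) (h0 : Q 0 = 0)
    (hadd : ∀ a b : ℝ → ℝ, Continuous a → HasCompactSupport a → Continuous b →
      HasCompactSupport b → Q (a + b) = Q a + Q b)
    (hloc : ∀ t ∈ K, ∃ δ : ℝ, 0 < δ ∧ ∀ θ : ℝ → ℝ, ContDiff ℝ ∞ θ → (∀ s, 0 ≤ θ s) →
      (∀ s, δ ≤ |s - t| → θ s = 0) → 0 ≤ Q θ)
    {θ : ℝ → ℝ} (hθ : ContDiff ℝ ∞ θ) (hn : ∀ s, 0 ≤ θ s) (hs : ∀ s, s ∉ K → θ s = 0) :
    0 ≤ Q θ := by
  classical
  choose! δ hδ hQ using hloc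
  obtain ⟨T, hT, hc⟩ := hK.elim_nhds_subcover (fun t => Metric.ball t (δ t))
    fun t ht => Metric.ball_mem_nhds t (hδ t ht)
  obtain ⟨ρ, hρ⟩ := SmoothPartitionOfUnity.exists_isSubordinate (I := 𝓘(ℝ, ℝ)) hK.isClosed
    (fun i : T => Metric.ball (i : ℝ) (δ i)) (fun _ => Metric.isOpen_ball)
    (fun s hs => by
      obtain ⟨t, ht, h⟩ := mem_iUnion₂.1 (hc hs)
      exact mem_iUnion.2 ⟨⟨t, ht⟩, h⟩)
  have cs : HasCompactSupport θ := HasCompactSupport.intro hK hs
  have sm : ∀ i : T, ContDiff ℝ ∞ (fun s => ρ i s * θ s) := fun i =>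
    (ρ i).contMDiff.contDiff.mul hθ
  have cs' : ∀ i : T, HasCompactSupport (fun s => ρ i s * θ s) := fun i => cs.mul_left
  have key : ∀ S : Finset T, Continuous (∑ i ∈ S, fun s => ρ i s * θ s) ∧
      HasCompactSupport (∑ i ∈ S, fun s => ρ i s * θ s) ∧
      0 ≤ Q (∑ i ∈ S, fun s => ρ i s * θ s) := by
    intro S
    induction S using Finset.induction_on with
    | empty =>
      simp only [Finset.sum_empty, h0, le_refl, and_true]
      exact ⟨continuous_const, HasCompactSupport.zero⟩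
    | insert i S hi ih =>
      rw [Finset.sum_insert hi]
      refine ⟨(sm i).continuous.add ih.1, (cs' i).add ih.2.1, ?_⟩
      rw [hadd _ _ (sm i).continuous (cs' i) ih.1 ih.2.1]
      refine add_nonneg (hQ i (hT i i.2) _ (sm i) (fun s => mul_nonneg (ρ.nonneg i s) (hn s))
        fun s h => ?_) ih.2.2
      have : ρ i s = 0 := by
        by_contra h'
        have := hρ i (subset_tsupport _ h')
        rw [Metric.mem_ball, Real.dist_eq] at this
        linarith
      rw [this, zero_mul]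
  have e : (∑ i : T, fun s => ρ i s * θ s) = θ := by
    funext s
    rw [Finset.sum_apply, ← Finset.sum_mul]
    by_cases h : s ∈ K
    · have := ρ.sum_eq_one h
      rw [finsum_eq_sum_of_fintype] at this
      rw [this, one_mul]
    · rw [hs s h, mul_zero]
  exact e ▸ (key Finset.univ).2.2

/-- the cut-off -/
def cut {X : Type} (f : X → ℝ) (C : Finset X) (B : ℝ) (n : ℕ) (s : ℝ) : ℝ :=
  Real.smoothTransition (B + 1 - s) * ∏ p ∈ C, Real.smoothTransition (n * (s - f p) ^ 2 - 1)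

theorem cut_sm {X : Type} (f : X → ℝ) (C : Finset X) (B : ℝ) (n : ℕ) :
    ContDiff ℝ ∞ (cut f C B n) := by
  refine (Real.smoothTransition.contDiff.comp (by fun_prop)).mul
    (contDiff_prod fun p _ => Real.smoothTransition.contDiff.comp (by fun_prop))

theorem cut_nonneg {X : Type} (f : X → ℝ) (C : Finset X) (B : ℝ) (n : ℕ) (s : ℝ) :
    0 ≤ cut f C B n s :=
  mul_nonneg (Real.smoothTransition.nonneg _)
    (Finset.prod_nonneg fun _ _ => Real.smoothTransition.nonneg _)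

theorem cut_le {X : Type} (f : X → ℝ) (C : Finset X) (B : ℝ) (n : ℕ) (s : ℝ) :
    cut f C B n s ≤ 1 :=
  mul_le_one₀ (Real.smoothTransition.le_one _)
    (Finset.prod_nonneg fun _ _ => Real.smoothTransition.nonneg _)
    (Finset.prod_le_one (fun _ _ => Real.smoothTransition.nonneg _)
      fun _ _ => Real.smoothTransition.le_one _)

theorem cut_lim {X : Type} (f : X → ℝ) (C : Finset X) (B : ℝ) {s : ℝ} (hB : s ≤ B)
    (hs : ∀ p ∈ C, s ≠ f p) : ∀ᶠ n in atTop, cut f C B n s = 1 := by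
  have h : ∀ᶠ n : ℕ in atTop, ∀ p ∈ C, 2 ≤ n * (s - f p) ^ 2 := by
    refine (eventually_all_finset C).2 fun p hp => ?_
    have h1 : 0 < (s - f p) ^ 2 := pow_pos (abs_pos.2 (sub_ne_zero.2 (hs p hp))) 2 |>.trans_eq
      (sq_abs _)
    exact (tendsto_natCast_atTop_atTop.atTop_mul_const h1).eventually_ge_atTop 2
  filter_upwards [h] with n hn
  rw [cut, Real.smoothTransition.one_of_one_le (by linarith), one_mul]
  exact Finset.prod_eq_one fun p hp =>
    Real.smoothTransition.one_of_one_le (by linarith [hn p hp])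

/-- the measure-theoretic globalisation -/
theorem glob {X : Type} [TopologicalSpace X] [CompactSpace X] [MeasurableSpace X] [BorelSpace X]
    (μ : Measure X) [IsFiniteMeasureOnCompacts μ] {f G : X → ℝ} (hf : Continuous f)
    (hG : Continuous G) (hG0 : ∀ p, 0 ≤ G p) (C : Finset X) (σ : X → ℝ) {c : ℝ} (hc : 0 ≤ c)
    (hloc : ∀ t : ℝ, (∀ p ∈ C, f p ≠ t) → (∃ p, f p < t) → ∃ δ : ℝ, 0 < δ ∧
      (∀ p ∈ C, δ ≤ |f p - t|) ∧ ∀ θ : ℝ → ℝ, ContDiff ℝ ∞ θ → (∀ s, 0 ≤ θ s) →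
      (∀ s, δ ≤ |s - t| → θ s = 0) →
      (∑ p ∈ C with t < f p, σ p) * ∫ s, θ s ≤ c * ∫ p, θ (f p) * G p ∂μ)
    {ψ : ℝ → ℝ} (hψ : ContDiff ℝ ∞ ψ) (hd : ∀ s, 0 ≤ deriv ψ s)
    (h0 : ∃ p, ∃ t, f p < t ∧ ∀ s ≤ t, ψ s = 0) :
    ∑ p ∈ C, σ p * ψ (f p) ≤ c * ∫ p, deriv ψ (f p) * G p ∂μ := by
  classical
  obtain ⟨p0, t0, hp0, ht0⟩ := h0
  obtain ⟨B, hB⟩ : ∃ B, ∀ p, f p ≤ B := by
    obtain ⟨B, hB⟩ := (isCompact_range hf).bddAbove
    exact ⟨B, fun p => hB ⟨p, rfl⟩⟩
  have hψ' : ContDiff ℝ ∞ (deriv ψ) := (contDiff_infty_iff_deriv.1 hψ).2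
  have hz : ∀ s < t0, deriv ψ s = 0 := fun s hs => by
    have : ψ =ᶠ[𝓝 s] fun _ => 0 := by
      filter_upwards [Iio_mem_nhds hs] with r hr using ht0 r (le_of_lt hr)
    rw [this.deriv_eq, deriv_const]
  have ig : ∀ θ : ℝ → ℝ, Continuous θ → Integrable (fun p => θ (f p) * G p) μ := fun θ hθ =>
    ((hθ.comp hf).mul hG).integrable_of_hasCompactSupport (HasCompactSupport.of_compactSpace _)
  have iψ : ∀ a, IntegrableOn (deriv ψ) (Iic a) := fun a =>
    (hψ'.continuous.integrableOn_Icc (a := t0) (b := a)).of_forall_sdiff_eq_zero measurableSet_Iic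
      fun s hs => hz s (by
        by_contra h
        exact hs.2 ⟨not_lt.1 h, hs.1⟩)
  have eψ : ∀ a, ∫ s in Iic a, deriv ψ s = ψ a := fun a => by
    rw [integral_Iic_of_hasDerivAt_of_tendsto' (f := ψ) (m := 0)
      (fun s _ => (hψ.differentiable (by simp) s).hasDerivAt) (iψ a), sub_zero]
    refine tendsto_const_nhds.congr' ?_
    filter_upwards [eventually_le_atBot t0] with s hs using (ht0 s hs).symm
  have step : ∀ n : ℕ, ∑ p ∈ C, σ p * ∫ s in Iic (f p), cut f C B n s * deriv ψ s ≤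
      c * ∫ p, deriv ψ (f p) * G p ∂μ := by
    intro n
    have hK : IsCompact (Icc t0 (B + 1) ∩ ⋂ p ∈ C, {s : ℝ | 1 ≤ n * (s - f p) ^ 2}) :=
      isCompact_Icc.inter_right (isClosed_biInter fun p _ =>
        isClosed_le continuous_const (by fun_prop))
    have := glue hK (fun θ => c * ∫ p, θ (f p) * G p ∂μ - ∑ p ∈ C, σ p * ∫ s in Iic (f p), θ s)
      (by simp) ?_ ?_ ((cut_sm f C B n).mul hψ')
      (fun s => mul_nonneg (cut_nonneg f C B n s) (hd s)) ?_
    · refine (sub_nonneg.1 this).trans (mul_le_mul_of_nonneg_left (integral_mono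
        (ig _ ((cut_sm f C B n).mul hψ').continuous) (ig _ hψ'.continuous) fun p => ?_) hc)
      exact mul_le_mul_of_nonneg_right
        (mul_le_of_le_one_left (hd _) (cut_le f C B n _)) (hG0 p)
    · intro a b ha ha' hb hb'
      have e1 : ∫ p, (a + b) (f p) * G p ∂μ =
          (∫ p, a (f p) * G p ∂μ) + ∫ p, b (f p) * G p ∂μ := by
        rw [← integral_add (ig a ha) (ig b hb)]
        simp only [Pi.add_apply, add_mul]
      have e2 : ∀ p, ∫ s in Iic (f p), (a + b) s =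
          (∫ s in Iic (f p), a s) + ∫ s in Iic (f p), b s := fun p =>
        integral_add (ha.integrable_of_hasCompactSupport ha').integrableOn
          (hb.integrable_of_hasCompactSupport hb').integrableOn
      simp only [e1, e2, mul_add, Finset.sum_add_distrib]
      ring
    · rintro t ⟨ht1, ht2⟩
      simp only [mem_iInter, mem_ofPred_eq] at ht2
      obtain ⟨δ, hδ, hδC, h⟩ := hloc t (fun p hp e => by
        have := ht2 p hp
        rw [e, sub_self] at this
        norm_num at this) ⟨p0, hp0.trans_le ht1.1⟩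
      refine ⟨δ, hδ, fun θ hθ hn hs => sub_nonneg.2 (le_trans (le_of_eq ?_) (h θ hθ hn hs))⟩
      rw [Finset.sum_mul, Finset.sum_filter]
      refine Finset.sum_congr rfl fun p hp => ?_
      have h1 := hδC p hp
      split_ifs with h2
      · rw [setIntegral_eq_integral_of_forall_compl_eq_zero]
        intro s hs'
        rw [mem_Iic, not_le] at hs'
        rw [abs_of_pos (by linarith)] at h1
        exact hs s (by rw [abs_of_pos (by linarith)]; linarith)
      · rw [setIntegral_eq_zero_of_forall_eq_zero, mul_zero]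
        intro s hs'
        rw [mem_Iic] at hs'
        rw [abs_of_nonpos (by linarith)] at h1
        exact hs s (by rw [abs_of_nonpos (by linarith)]; linarith)
    · intro s hs
      simp only [mem_inter_iff, mem_Icc, mem_iInter, mem_ofPred_eq, not_and_or, not_forall,
        not_le] at hs
      rcases hs with (hs | hs) | ⟨p, hp, hs⟩
      · rw [hz s hs, mul_zero]
      · rw [cut, Real.smoothTransition.zero_of_nonpos (by linarith), zero_mul, zero_mul]
      · rw [cut, Finset.prod_eq_zero hp (Real.smoothTransition.zero_of_nonpos (by linarith)),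
          mul_zero, zero_mul]
  refine le_of_tendsto' (x := atTop) ?_ step
  refine tendsto_finsetSum _ fun p _ => Tendsto.const_mul _ ?_
  rw [← eψ]
  refine tendsto_integral_of_dominated_convergence (deriv ψ)
    (fun n => ((cut_sm f C B n).mul hψ').continuous.aestronglyMeasurable) (iψ _)
    (fun n => Eventually.of_forall fun s => ?_) ?_
  · rw [Real.norm_eq_abs, abs_of_nonneg (mul_nonneg (cut_nonneg f C B n s) (hd s))]
    exact mul_le_of_le_one_left (hd _) (cut_le f C B n _)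
  · have h1 : ∀ᵐ s ∂(volume : Measure ℝ), s ∉ ((C.image f : Finset ℝ) : Set ℝ) :=
      (C.image f).finite_toSet.countable.ae_notMem _
    filter_upwards [ae_restrict_of_ae h1, ae_restrict_mem measurableSet_Iic] with s hs hs'
    refine tendsto_const_nhds.congr' ?_
    filter_upwards [cut_lim f C B (le_trans hs' (hB p)) fun q hq e =>
      hs (Finset.mem_coe.2 (Finset.mem_image.2 ⟨q, hq, e.symm⟩))] with n hn
    rw [hn, one_mul]

/-- transfer of a normal form through a chart -/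
theorem nf_chart {X Y : Type} [TopologicalSpace X] [TopologicalSpace Y] {f : X → ℝ} {p : X}
    {k : Fin 4} (e : OpenPartialHomeomorph X Y) (hp : p ∈ e.source)
    (h : NF (f ∘ e.symm) (e p) k) : NF f p k := by
  obtain ⟨e', h1, h2, h3⟩ := h
  refine ⟨e.trans e', ⟨hp, h1⟩, h2, fun q hq => ?_⟩
  have := h3 (e q) hq.2
  simp only [comp_apply, e.left_inv hq.1, e.left_inv hp] at this
  exact this

section

variable {X : Type} [TopologicalSpace X] [T2Space X] [CompactSpace X] [SecondCountableTopology X]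
  [MeasurableSpace X] [BorelSpace X] (M : Imm 2 (Fin 3) X)

/-- normal forms of a Morse function -/
theorem nf_morse (hM : MorS) (hF : FrS) {f : X → ℝ} {C : Finset X} (h : Morse M f C) (p : X) :
    ∃ k : Fin 4, NF f p k ∧ (p ∈ C ↔ k ≠ 0) ∧ (p ∈ C → ind k = sg M f p) := by
  have hs : ContDiffAt ℝ ∞ (f ∘ (M.ch p).symm) (M.ch p p) :=
    (h.sm p).contDiffAt ((M.ch p).open_target.mem_nhds ((M.ch p).map_source (M.mem p)))
  obtain ⟨m1, m2⟩ := hM _ _ hs
  by_cases hp : p ∈ C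
  · have g0 := (h.crit p).1 hp
    have t0 : M.td f p = 0 := by rw [← norm_eq_zero, Imm.norm_td, g0, norm_zero]
    have f0 : fderiv ℝ (f ∘ (M.ch p).symm) (M.ch p p) = 0 := by
      rw [Imm.fderiv_chart f (M.isChart p) (M.mem p), t0, ContinuousLinearMap.zero_comp]
    obtain ⟨a1, a2⟩ := m2 f0 _ rfl
    have e := (hF X M p).2 f h.sm g0 _ rfl _ rfl
    have jp : 0 < jac (M.J p) ^ 2 := pow_pos (jac_pos (M.J_inj p)) 2
    by_cases hd : 0 < dS M f p
    · have := mul_pos hd jp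
      rcases a1 (by linarith) with a | a
      · exact ⟨1, nf_chart _ (M.mem p) a, by simp [hp], fun _ => by simp [ind, sg, hd]⟩
      · exact ⟨2, nf_chart _ (M.mem p) a, by simp [hp], fun _ => by simp [ind, sg, hd]⟩
    · have := mul_neg_of_neg_of_pos (lt_of_le_of_ne (not_lt.1 hd) (h.nd p hp)) jp
      exact ⟨3, nf_chart _ (M.mem p) (a2 (by linarith)), by simp [hp],
        fun _ => by simp [ind, sg, hd]⟩
  · refine ⟨0, nf_chart _ (M.mem p) (m1 fun f0 => hp ((h.crit p).2 ?_)), by simp [hp],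
      fun h' => absurd h' hp⟩
    rw [← norm_eq_zero, ← Imm.norm_td, Imm.td, f0, ContinuousLinearMap.zero_comp, norm_zero]

omit [T2Space X] [CompactSpace X] [SecondCountableTopology X] [MeasurableSpace X]
  [BorelSpace X] in
theorem gf_cont {f : X → ℝ} (hf : M.Sm f) : Continuous (Gf M f) := by
  refine Continuous.add (Continuous.sqrt ?_) ((Continuous.sqrt ?_).mul hf.grad.continuous.norm)
  · exact continuous_finsetSum _ fun a _ => continuous_finsetSum _ fun b _ =>
      (hf.hess a b).continuous.pow 2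
  · exact continuous_finsetSum _ fun a _ => continuous_finsetSum _ fun b _ =>
      continuous_finsetSum _ fun c _ => (M.sm_II a b c).continuous.pow 2

omit [T2Space X] [CompactSpace X] [SecondCountableTopology X] [MeasurableSpace X]
  [BorelSpace X] in
theorem gf_nonneg (f : X → ℝ) (p : X) : 0 ≤ Gf M f p :=
  add_nonneg (Real.sqrt_nonneg _) (mul_nonneg (Real.sqrt_nonneg _) (norm_nonneg _))

end

end Ix

theorem ixS_of (hT : TopS) (hM : MorS) (hF : FrS) (hP : PcS) : IxS := by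
  classical
  obtain ⟨c, hc, hP⟩ := hP
  refine ⟨c, hc, fun X _ _ _ _ _ _ M hX f C h hi ψ hψ hd h0 => ?_⟩
  choose ty h1 h2 h3 using Ix.nf_morse M hM hF h
  have fc : Continuous f := h.sm.continuous
  have gc := Ix.gf_cont M h.sm
  refine Ix.glob M.mu fc gc (Ix.gf_nonneg M f) C (sg M f) hc.le (fun t ht ht' => ?_) hψ hd h0
  obtain ⟨δ, k, U, hδ, hδC, hU, hdj, hcov, hq, hk⟩ := hT X f ty C fc h1 h2 hi t ht ht'
  choose q hqU hqt using hq
  have := fun i => hP X M f h.sm (q i) (fun e => ht _ ((h.crit _).2 e) (hqt i)) (U i) δ (hU i)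
    (hqU i) hδ fun p hp hp' => by
      rw [hqt i] at hp'
      obtain ⟨j, hj⟩ := hcov p (by linarith [(abs_lt.1 hp').1])
      by_cases e : j = i
      · exact e ▸ hj
      · obtain ⟨r, hr⟩ := mem_closure_iff.1 hp _ (hU j) hj
        exact absurd hr.2 (disjoint_left.1 (hdj e) hr.1)
  choose δ' hδ' hθ using this
  obtain ⟨ε, hε, hε1, hε2⟩ : ∃ ε : ℝ, 0 < ε ∧ ε ≤ δ ∧ ∀ i, ε ≤ δ' i := by
    have e1 : ∀ᶠ ε in 𝓝[>] (0 : ℝ), ε ≤ δ ∧ ∀ i, ε ≤ δ' i :=
      ((eventually_le_nhds hδ).and (eventually_all.2 fun i => eventually_le_nhds (hδ' i))).filter_mono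
        nhdsWithin_le_nhds
    obtain ⟨ε, h1, h2⟩ := (e1.and self_mem_nhdsWithin).exists
    exact ⟨ε, h2, h1⟩
  refine ⟨ε, hε, fun p hp => hε1.trans (hδC p hp).le, fun θ hθ1 hθ2 hθ3 => ?_⟩
  have ig : Integrable (fun p => θ (f p) * Gf M f p) M.mu :=
    ((hθ1.continuous.comp fc).mul gc).integrable_of_hasCompactSupport
      (HasCompactSupport.of_compactSpace _)
  have e : ∑ p ∈ C with t < f p, sg M f p = ∑ p ∈ C with t < f p, ind (ty p) :=
    Finset.sum_congr rfl fun p hp => (h3 p (Finset.mem_filter.1 hp).1).symm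
  calc (∑ p ∈ C with t < f p, sg M f p) * ∫ s, θ s ≤ k * ∫ s, θ s :=
        mul_le_mul_of_nonneg_right (e ▸ hk) (integral_nonneg hθ2)
    _ = ∑ _i : Fin k, ∫ s, θ s := by simp
    _ ≤ ∑ i : Fin k, c * ∫ p in U i, θ (f p) * Gf M f p ∂M.mu :=
        Finset.sum_le_sum fun i _ => hθ i θ hθ1 hθ2 fun s hs =>
          hθ3 s ((hε2 i).trans (hqt i ▸ hs))
    _ = c * ∫ p in ⋃ i, U i, θ (f p) * Gf M f p ∂M.mu := by
        rw [integral_iUnion_fintype (fun i => (hU i).measurableSet) hdj fun i => ig.integrableOn,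
          Finset.mul_sum]
    _ ≤ c * ∫ p, θ (f p) * Gf M f p ∂M.mu :=
        mul_le_mul_of_nonneg_left (setIntegral_le_integral ig
          (Eventually.of_forall fun p => mul_nonneg (hθ2 _) (Ix.gf_nonneg M f p))) hc.le

end Crest.Agent.N250.GB

end
end

-- ▼ part N250/GB/Mor
section

/-!
# Row 250 (helper83): the two-dimensional Morse lemma (topological charts)
-/

set_option autoImplicit false
set_option linter.unusedSectionVars false

open Topology Filter Set

noncomputable section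

namespace Crest.Agent.N250.Mor

variable {E : Type*} [NormedAddCommGroup E] [NormedSpace ℝ E]

/-- Hadamard: `g (p + v) = g p + A v v v` with `A` Lipschitz near `0`, `A 0 = D²g(p)/2` (scalar form). -/
theorem had {g : E → ℝ} {p : E} (hg : ContDiffAt ℝ 3 g p) (h0 : fderiv ℝ g p = 0) :
    ∃ (A : E → E → E → ℝ) (r : ℝ), 0 < r ∧ (∀ u w, ∃ K, LipschitzOnWith K (fun v => A v u w) (Metric.ball 0 r)) ∧
      (∀ u w, A 0 u w = fderiv ℝ (fderiv ℝ g) p u w / 2) ∧ ∀ (u w : E) (x y : ℝ), x • u + y • w ∈ Metric.ball (0 : E) r →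
        g (p + (x • u + y • w)) = g p + (A (x • u + y • w) u u * x ^ 2 +
          (A (x • u + y • w) u w + A (x • u + y • w) w u) * (x * y) + A (x • u + y • w) w w * y ^ 2) := by
  have h1 : ContDiffAt ℝ 2 (fderiv ℝ g) p := hg.fderiv_right (by norm_num)
  have h2 : ContDiffAt ℝ 1 (fderiv ℝ (fderiv ℝ g)) p := h1.fderiv_right (by norm_num)
  obtain ⟨K, t, ht, hK⟩ := h2.exists_lipschitzOnWith
  have e1 : ∀ᶠ x in 𝓝 p, DifferentiableAt ℝ g x :=
    (hg.eventually (by simp)).mono fun x hx => hx.differentiableAt (by norm_num)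
  have e2 : ∀ᶠ x in 𝓝 p, DifferentiableAt ℝ (fderiv ℝ g) x :=
    (h1.eventually (by simp)).mono fun x hx => hx.differentiableAt (by norm_num)
  obtain ⟨r, r0, hr⟩ := Metric.mem_nhds_iff.1 (Filter.inter_mem ht (Filter.inter_mem e1 e2))
  have hm : ∀ v ∈ Metric.ball (0 : E) r, ∀ s ∈ Icc (0 : ℝ) 1, p + s • v ∈ Metric.ball p r := by
    intro v hv s hs
    rw [mem_ball_iff_norm, add_sub_cancel_left, norm_smul, Real.norm_of_nonneg hs.1]
    rw [mem_ball_zero_iff] at hv
    nlinarith [norm_nonneg v, hs.1, hs.2]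
  obtain ⟨D, hD⟩ : ∃ D, D = fderiv ℝ (fderiv ℝ g) := ⟨_, rfl⟩
  rw [← hD] at hK ⊢
  have hc : ∀ v ∈ Metric.ball (0 : E) r, ∀ u w : E,
      IntervalIntegrable (fun s : ℝ => (1 - s) * D (p + s • v) u w) MeasureTheory.volume 0 1 := by
    intro v hv u w
    refine ContinuousOn.intervalIntegrable ?_
    rw [uIcc_of_le zero_le_one]
    refine (continuousOn_const.sub continuousOn_id).mul ?_
    have : ContinuousOn (fun s : ℝ => D (p + s • v)) (Icc 0 1) :=
      hK.continuousOn.comp (by fun_prop) fun s hs => (hr (hm v hv s hs)).1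
    exact (this.clm_apply continuousOn_const).clm_apply continuousOn_const
  refine ⟨fun v u w => ∫ s in (0 : ℝ)..1, (1 - s) * D (p + s • v) u w, r, r0,
    fun u w => ⟨K * ‖u‖₊ * ‖w‖₊, ?_⟩, fun u w => ?_, fun u w x y hv => ?_⟩
  · refine LipschitzOnWith.of_dist_le_mul fun v hv v' hw => ?_
    rw [dist_eq_norm, ← intervalIntegral.integral_sub (hc v hv u w) (hc v' hw u w)]
    refine (intervalIntegral.norm_integral_le_of_norm_le_const (C := K * dist v v' * ‖u‖ * ‖w‖)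
      fun s hs => ?_).trans (by simp; ring_nf; rfl)
    rw [uIoc_of_le zero_le_one] at hs
    have hs' : s ∈ Icc (0 : ℝ) 1 := ⟨hs.1.le, hs.2⟩
    have a := hK.dist_le_mul _ (hr (hm v hv s hs')).1 _ (hr (hm v' hw s hs')).1
    rw [dist_add_left, dist_smul₀, Real.norm_of_nonneg hs'.1, dist_eq_norm] at a
    have b : (0 : ℝ) ≤ K * dist v v' := by positivity
    have c : (K : ℝ) * (s * dist v v') ≤ K * dist v v' := by nlinarith [hs.1, hs.2]
    have d := ((D (p + s • v) - D (p + s • v')) u).le_of_opNorm_le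
      ((D (p + s • v) - D (p + s • v')).le_of_opNorm_le (a.trans c) u) w
    rw [← mul_sub, norm_mul, Real.norm_of_nonneg (by linarith [hs.2])]
    have e : D (p + s • v) u w - D (p + s • v') u w = (D (p + s • v) - D (p + s • v')) u w := rfl
    rw [e]
    nlinarith [norm_nonneg ((D (p + s • v) - D (p + s • v')) u w), hs.1, hs.2]
  · simp only [smul_zero, add_zero]
    rw [intervalIntegral.integral_mul_const, intervalIntegral.integral_sub (by simp) (by simp)]
    simp; ring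
  · obtain ⟨v, hvv⟩ : ∃ v, v = x • u + y • w := ⟨_, rfl⟩
    rw [← hvv] at hv ⊢
    have hl : ∀ s : ℝ, HasDerivAt (fun s : ℝ => p + s • v) v s := fun s => by
      simpa using ((hasDerivAt_id s).smul_const v).const_add p
    have key : ∀ s ∈ uIcc (0 : ℝ) 1, HasDerivAt (fun s : ℝ => g (p + s • v) + (1 - s) * fderiv ℝ g (p + s • v) v)
        ((1 - s) * D (p + s • v) v v) s := by
      intro s hs
      rw [uIcc_of_le zero_le_one] at hs
      obtain ⟨-, a1, a2⟩ := hr (hm v hv s hs)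
      have b1 : HasDerivAt (fun s : ℝ => g (p + s • v)) (fderiv ℝ g (p + s • v) v) s :=
        HasFDerivAt.comp_hasDerivAt s (DifferentiableAt.hasFDerivAt a1) (hl s)
      have b0 : HasDerivAt (fun s : ℝ => fderiv ℝ g (p + s • v)) (D (p + s • v) v) s := by
        rw [hD]; exact HasFDerivAt.comp_hasDerivAt s (DifferentiableAt.hasFDerivAt a2) (hl s)
      have b2 : HasDerivAt (fun s : ℝ => fderiv ℝ g (p + s • v) v) (D (p + s • v) v v) s := by
        simpa using b0.clm_apply (hasDerivAt_const s v)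
      have b3 := b1.add (((hasDerivAt_id s).const_sub 1).mul b2)
      refine b3.congr_deriv ?_
      simp
    have := intervalIntegral.integral_eq_sub_of_hasDerivAt key (hc v hv v v)
    simp only [one_smul, sub_self, zero_mul, add_zero, zero_smul, h0, zero_apply,
      mul_zero] at this
    have e : ∀ s : ℝ, (1 - s) * D (p + s • v) v v = (1 - s) * D (p + s • v) u u * x ^ 2 +
        ((1 - s) * D (p + s • v) u w + (1 - s) * D (p + s • v) w u) * (x * y) +
        (1 - s) * D (p + s • v) w w * y ^ 2 := by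
      intro s
      obtain ⟨M, hM⟩ : ∃ M, M = D (p + s • v) := ⟨_, rfl⟩
      rw [← hM, hvv]
      simp only [map_add, map_smul, add_apply, smul_apply, smul_eq_mul]
      ring
    simp only [e] at this
    rw [intervalIntegral.integral_add (((hc v hv u u).mul_const _).add
      (((hc v hv u w).add (hc v hv w u)).mul_const _)) ((hc v hv w w).mul_const _),
      intervalIntegral.integral_add ((hc v hv u u).mul_const _) (((hc v hv u w).add (hc v hv w u)).mul_const _),
      intervalIntegral.integral_mul_const, intervalIntegral.integral_mul_const,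
      intervalIntegral.integral_mul_const, intervalIntegral.integral_add (hc v hv u w) (hc v hv w u)] at this
    simp only []
    linarith

/-- Lipschitz near `0` -/
def Lp {F : Type*} [NormedAddCommGroup F] (f : E → F) : Prop := ∃ K, ∃ t ∈ 𝓝 (0 : E), LipschitzOnWith K f t

theorem Lp.cont {F : Type*} [NormedAddCommGroup F] {f : E → F} (h : Lp f) : ContinuousAt f 0 := by
  obtain ⟨K, t, ht, h⟩ := h
  exact h.continuousOn.continuousAt ht

theorem Lp.prod {F G : Type*} [NormedAddCommGroup F] [NormedAddCommGroup G] {f : E → F} {g : E → G}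
    (hf : Lp f) (hg : Lp g) : Lp fun v => (f v, g v) := by
  obtain ⟨K, t, ht, h⟩ := hf
  obtain ⟨K', t', ht', h'⟩ := hg
  exact ⟨_, t ∩ t', inter_mem ht ht', (h.mono inter_subset_left).prodMk (h'.mono inter_subset_right)⟩

theorem Lp.comp {F G : Type*} [NormedAddCommGroup F] [NormedSpace ℝ F] [NormedAddCommGroup G] [NormedSpace ℝ G]
    {f : E → F} {β : F → G} (hf : Lp f) (hβ : ContDiffAt ℝ 1 β (f 0)) : Lp fun v => β (f v) := by
  obtain ⟨K', t', ht', h'⟩ := hβ.exists_lipschitzOnWith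
  have := hf.cont ht'
  obtain ⟨K, t, ht, h⟩ := hf
  exact ⟨_, t ∩ f ⁻¹' t', inter_mem ht this, h'.comp (h.mono inter_subset_left) fun x hx => hx.2⟩

/-- a Lipschitz coefficient times a linear form is strictly differentiable at `0` -/
theorem strict {α : E → ℝ} (hα : Lp α) (l : E →L[ℝ] ℝ) : HasStrictFDerivAt (fun v => α v * l v) (α 0 • l) 0 := by
  obtain ⟨K, t, ht, hB⟩ := hα
  rw [hasStrictFDerivAt_iff_isLittleO, Asymptotics.isLittleO_iff]
  intro c c0
  have h0 : (0 : E) ∈ t := mem_of_mem_nhds ht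
  have hs : ∀ᶠ v : E in 𝓝 0, v ∈ t ∧ (K : ℝ) * ‖v‖ * ‖l‖ ≤ c / 2 := by
    refine Filter.Eventually.and ht ?_
    have : Tendsto (fun v : E => (K : ℝ) * ‖v‖ * ‖l‖) (𝓝 0) (𝓝 0) := by
      have : Continuous fun v : E => (K : ℝ) * ‖v‖ * ‖l‖ := by fun_prop
      simpa using this.tendsto 0
    exact this.eventually (ge_mem_nhds (by positivity))
  rw [nhds_prod_eq]
  filter_upwards [hs.prod_mk hs] with q hq
  obtain ⟨⟨a1, a2⟩, b1, b2⟩ := hq
  have e : α q.1 * l q.1 - α q.2 * l q.2 - (α 0 • l) (q.1 - q.2) =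
      (α q.1 - α 0) * l (q.1 - q.2) + (α q.1 - α q.2) * l q.2 := by
    simp only [smul_apply, map_sub, smul_eq_mul]; ring
  rw [e]
  have c1 := hB.dist_le_mul _ a1 _ h0
  have c2 := hB.dist_le_mul _ a1 _ b1
  rw [dist_eq_norm, dist_zero_right] at c1
  rw [dist_eq_norm, dist_eq_norm] at c2
  have d1 := mul_le_mul c1 (l.le_opNorm (q.1 - q.2)) (norm_nonneg _) (by positivity)
  have d2 := mul_le_mul c2 (l.le_opNorm q.2) (norm_nonneg _) (by positivity)
  refine (norm_add_le _ _).trans ?_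
  rw [norm_mul, norm_mul]
  nlinarith [norm_nonneg (q.1 - q.2), mul_le_mul_of_nonneg_right a2 (norm_nonneg (q.1 - q.2)),
    mul_le_mul_of_nonneg_right b2 (norm_nonneg (q.1 - q.2))]

/-- completing the squares -/
theorem core {a b c G : ℝ × ℝ → ℝ} (ha : Lp a) (hb : Lp b) (hc : Lp c) {ε η : ℝ} (hε : ε ^ 2 = 1) (hη : η ^ 2 = 1)
    (a0 : 0 < ε * a 0) (b0 : b 0 = 0) (c0 : 0 < η * c 0)
    (hG : ∀ᶠ q in 𝓝 (0 : ℝ × ℝ), G q = a q * q.1 ^ 2 + b q * (q.1 * q.2) + c q * q.2 ^ 2) :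
    ∃ e : OpenPartialHomeomorph (ℝ × ℝ) (ℝ × ℝ), 0 ∈ e.source ∧ e 0 = 0 ∧
      ∀ q ∈ e.source, G q = ε * (e q).1 ^ 2 + η * (e q).2 ^ 2 := by
  have an : a 0 ≠ 0 := by rintro h; simp [h] at a0
  have hΦ := ha.prod (hb.prod hc)
  have k1 : ContDiffAt ℝ 1 (fun z : ℝ × ℝ × ℝ => √(ε * z.1)) (a 0, b 0, c 0) :=
    ContDiffAt.sqrt (by fun_prop) a0.ne'
  have k0 : ContDiffAt ℝ 1 (fun z : ℝ × ℝ × ℝ => z.2.1 / (2 * z.1)) (a 0, b 0, c 0) :=
    ContDiffAt.div (by fun_prop) (by fun_prop) (by simpa using an)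
  have k3 : ContDiffAt ℝ 1 (fun z : ℝ × ℝ × ℝ => √(η * (z.2.2 - z.2.1 * (z.2.1 / (2 * z.1)) / 2))) (a 0, b 0, c 0) :=
    ContDiffAt.sqrt (contDiffAt_const.mul ((by fun_prop : ContDiffAt ℝ 1 (fun z : ℝ × ℝ × ℝ => z.2.2) _).sub
      (((by fun_prop : ContDiffAt ℝ 1 (fun z : ℝ × ℝ × ℝ => z.2.1) _).mul k0).div_const 2))) (by simpa [b0] using c0.ne')
  have l1 := strict (hΦ.comp k1) (ContinuousLinearMap.fst ℝ ℝ ℝ)
  have l2 := strict (hΦ.comp (k1.mul k0)) (ContinuousLinearMap.snd ℝ ℝ ℝ)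
  have l3 := strict (hΦ.comp k3) (ContinuousLinearMap.snd ℝ ℝ ℝ)
  have s1 : √(ε * a 0) ≠ 0 := (Real.sqrt_pos.2 a0).ne'
  have s2 : √(η * c 0) ≠ 0 := (Real.sqrt_pos.2 c0).ne'
  let L : (ℝ × ℝ) ≃L[ℝ] (ℝ × ℝ) := (ContinuousLinearEquiv.unitsEquivAut ℝ (Units.mk0 _ s1)).prodCongr
    (ContinuousLinearEquiv.unitsEquivAut ℝ (Units.mk0 _ s2))
  have hF := (l1.add l2).prodMk l3
  have hF' : HasStrictFDerivAt (fun q : ℝ × ℝ => (√(ε * a q) * q.1 + √(ε * a q) * (b q / (2 * a q)) * q.2,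
      √(η * (c q - b q * (b q / (2 * a q)) / 2)) * q.2)) (L : (ℝ × ℝ) →L[ℝ] (ℝ × ℝ)) 0 := by
    refine hF.congr_fderiv ?_
    ext <;> simp [L, b0]
  have p1 : ∀ᶠ q in 𝓝 (0 : ℝ × ℝ), 0 < ε * a q :=
    (continuousAt_const.mul ha.cont).eventually (lt_mem_nhds a0)
  have p2 : ∀ᶠ q in 𝓝 (0 : ℝ × ℝ), 0 < η * (c q - b q * (b q / (2 * a q)) / 2) := by
    have : ContinuousAt (fun q => η * (c q - b q * (b q / (2 * a q)) / 2)) 0 :=
      continuousAt_const.mul (hc.cont.sub ((hb.cont.mul (hb.cont.div (continuousAt_const.mul ha.cont)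
        (by simpa using an))).div_const 2))
    exact this.eventually (lt_mem_nhds (by simpa [b0] using c0))
  obtain ⟨U, hU, Uo, U0⟩ := mem_nhds_iff.1 (hG.and (p1.and p2))
  refine ⟨(hF'.toOpenPartialHomeomorph _).restrOpen U Uo, ⟨hF'.mem_toOpenPartialHomeomorph_source, U0⟩, ?_,
    fun q hq => ?_⟩
  · simp
  · obtain ⟨h1, h2, h3⟩ := hU hq.2
    have aq : a q ≠ 0 := by rintro h; simp [h] at h2
    simp only [OpenPartialHomeomorph.coe_restrOpen, HasStrictFDerivAt.toOpenPartialHomeomorph_coe]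
    rw [h1, mul_assoc, ← mul_add, mul_pow, mul_pow, Real.sq_sqrt h2.le, Real.sq_sqrt h3.le]
    have : ε * (ε * a q * (q.1 + b q / (2 * a q) * q.2) ^ 2) +
        η * (η * (c q - b q * (b q / (2 * a q)) / 2) * q.2 ^ 2) = ε ^ 2 * (a q * (q.1 + b q / (2 * a q) * q.2) ^ 2) +
        η ^ 2 * ((c q - b q * (b q / (2 * a q)) / 2) * q.2 ^ 2) := by ring
    rw [this, hε, hη]
    field_simp
    ring

/-- an `H`-orthogonal basis for a nondegenerate symmetric form on a plane -/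
theorem diag [FiniteDimensional ℝ E] (hE : Module.finrank ℝ E = 2) (H : E →L[ℝ] E →L[ℝ] ℝ)
    (hs : ∀ u w, H u w = H w u) (hn : ∀ v, (∀ w, H v w = 0) → v = 0) :
    ∃ (u w : E) (L : (ℝ × ℝ) ≃L[ℝ] E), (∀ q, L q = q.1 • u + q.2 • w) ∧ H u u ≠ 0 ∧ H u w = 0 ∧ H w w ≠ 0 := by
  have nt : Nontrivial E := Module.nontrivial_of_finrank_pos (R := ℝ) (by omega)
  obtain ⟨u, hu⟩ : ∃ u, H u u ≠ 0 := by
    by_contra h
    push Not at h
    obtain ⟨v, hv⟩ := exists_ne (0 : E)
    refine hv (hn v fun w => ?_)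
    have := h (v + w)
    simp only [map_add, add_apply, h v, h w, hs w v] at this
    linarith
  obtain ⟨w, hw, w0⟩ : ∃ w, H u w = 0 ∧ w ≠ 0 := by
    have : LinearMap.ker (H u : E →ₗ[ℝ] ℝ) ≠ ⊥ :=
      LinearMap.ker_ne_bot_of_finrank_lt (by simp [hE])
    obtain ⟨w, h1, h2⟩ := Submodule.exists_mem_ne_zero_of_ne_bot this
    exact ⟨w, h1, h2⟩
  let T : (ℝ × ℝ) →ₗ[ℝ] E := (LinearMap.fst ℝ ℝ ℝ).smulRight u + (LinearMap.snd ℝ ℝ ℝ).smulRight w
  have hT : ∀ q, T q = q.1 • u + q.2 • w := fun q => rfl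
  have inj : Function.Injective T := by
    rw [injective_iff_map_eq_zero]
    intro q hq
    rw [hT] at hq
    have := congrArg (H u) hq
    simp only [map_add, map_smul, hw, smul_eq_mul, mul_zero, add_zero, map_zero, mul_eq_zero, hu, or_false] at this
    rw [this, zero_smul, zero_add, smul_eq_zero] at hq
    exact Prod.ext this (hq.resolve_right w0)
  let L := (T.linearEquivOfInjective inj (by simp [hE])).toContinuousLinearEquiv
  have hL : ∀ q, L q = q.1 • u + q.2 • w := fun q => rfl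
  refine ⟨u, w, L, hL, hu, hw, fun h => w0 (hn w fun v => ?_)⟩
  obtain ⟨q, rfl⟩ := L.surjective v
  rw [hL]
  simp [h, hs w u, hw]

/-- **Morse lemma in dimension two**: the chart and the type of the critical point. -/
theorem morse [FiniteDimensional ℝ E] (hE : Module.finrank ℝ E = 2) {g : E → ℝ} {p : E}
    (hg : ContDiffAt ℝ 3 g p) (h0 : fderiv ℝ g p = 0)
    (hn : ∀ v, (∀ w, fderiv ℝ (fderiv ℝ g) p v w = 0) → v = 0) :
    ∃ e : OpenPartialHomeomorph E (ℝ × ℝ), p ∈ e.source ∧ e p = 0 ∧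
      (((∀ v, v ≠ 0 → 0 < fderiv ℝ (fderiv ℝ g) p v v) ∧ ∀ x ∈ e.source, g x = g p + ((e x).1 ^ 2 + (e x).2 ^ 2)) ∨
       ((∀ v, v ≠ 0 → fderiv ℝ (fderiv ℝ g) p v v < 0) ∧ ∀ x ∈ e.source, g x = g p - ((e x).1 ^ 2 + (e x).2 ^ 2)) ∨
       ((∃ u w, 0 < fderiv ℝ (fderiv ℝ g) p u u ∧ fderiv ℝ (fderiv ℝ g) p w w < 0) ∧
         ∀ x ∈ e.source, g x = g p + (e x).1 * (e x).2)) := by
  have hs : ∀ u w, fderiv ℝ (fderiv ℝ g) p u w = fderiv ℝ (fderiv ℝ g) p w u :=
    (hg.isSymmSndFDerivAt (by simp; norm_num)).eq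
  obtain ⟨A, r, r0, hA, A0, hA'⟩ := had hg h0
  obtain ⟨H, hH⟩ : ∃ H, H = fderiv ℝ (fderiv ℝ g) p := ⟨_, rfl⟩
  rw [← hH] at hs hn A0 ⊢
  obtain ⟨u, w, L, hL, hu, huw, hw⟩ := diag hE H hs hn
  have hb : ∀ᶠ q in 𝓝 (0 : ℝ × ℝ), L q ∈ Metric.ball (0 : E) r :=
    L.continuous.continuousAt.eventually (by rw [map_zero]; exact Metric.ball_mem_nhds _ r0)
  have lp : ∀ x y, Lp fun q : ℝ × ℝ => A (L q) x y := fun x y => by
    obtain ⟨K, hK⟩ := hA x y
    exact ⟨_, _, hb, hK.comp L.lipschitz.lipschitzOnWith fun q hq => hq⟩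
  have lb : Lp fun q : ℝ × ℝ => A (L q) u w + A (L q) w u :=
    ((lp u w).prod (lp w u)).comp (β := fun z : ℝ × ℝ => z.1 + z.2) (by fun_prop)
  have main : ∀ ε η : ℝ, ε ^ 2 = 1 → η ^ 2 = 1 → 0 < ε * H u u → 0 < η * H w w →
      ∃ e : OpenPartialHomeomorph E (ℝ × ℝ), p ∈ e.source ∧ e p = 0 ∧
        ∀ x ∈ e.source, g x = g p + (ε * (e x).1 ^ 2 + η * (e x).2 ^ 2) := by
    intro ε η hε hη a0 c0
    obtain ⟨e, e0, e1, he⟩ := core (G := fun q => g (p + L q) - g p) (lp u u) lb (lp w w) hε hη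
      (by simp only [map_zero, A0]; linarith) (by simp [A0, huw, hs w u]) (by simp only [map_zero, A0]; linarith)
      (hb.mono fun q hq => by rw [hL] at hq ⊢; simp only [hA' u w _ _ hq]; ring)
    let τ : E ≃ₜ (ℝ × ℝ) := (Homeomorph.subRight p).trans L.symm.toHomeomorph
    have hτ : ∀ x, p + L (τ x) = x := fun x => by simp [τ]
    have τp : τ p = 0 := by simp [τ]
    refine ⟨τ.toOpenPartialHomeomorph.trans e, ⟨mem_univ _, by simpa [τp] using e0⟩, by simpa [τp] using e1,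
      fun x hx => ?_⟩
    have := he (τ x) hx.2
    simp only [hτ] at this
    simp only [OpenPartialHomeomorph.coe_trans, Function.comp, Homeomorph.toOpenPartialHomeomorph_apply]
    linarith
  have hq : ∀ v, v ≠ 0 → ∃ x y : ℝ, 0 < x ^ 2 + y ^ 2 ∧ H v v = x ^ 2 * H u u + y ^ 2 * H w w := by
    intro v hv
    obtain ⟨q, rfl⟩ := L.surjective v
    refine ⟨q.1, q.2, ?_, ?_⟩
    · by_contra h
      have h1 : q.1 = 0 := by nlinarith [sq_nonneg q.1, sq_nonneg q.2]
      have h2 : q.2 = 0 := by nlinarith [sq_nonneg q.1, sq_nonneg q.2]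
      exact hv (by rw [hL, h1, h2]; simp)
    · rw [hL]
      simp only [map_add, map_smul, add_apply, smul_apply, smul_eq_mul, huw, hs w u]
      ring
  let σ : (ℝ × ℝ) ≃ₜ (ℝ × ℝ) :=
    { toFun := fun q => (q.1 - q.2, q.1 + q.2)
      invFun := fun q => ((q.1 + q.2) / 2, (q.2 - q.1) / 2)
      left_inv := fun q => by ext <;> simp
      right_inv := fun q => by ext <;> simp <;> ring }
  let σ' : (ℝ × ℝ) ≃ₜ (ℝ × ℝ) := (Homeomorph.prodComm ℝ ℝ).trans σ
  rcases hu.lt_or_gt with a | a <;> rcases hw.lt_or_gt with c | c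
  · obtain ⟨e, e0, e1, he⟩ := main (-1) (-1) (by norm_num) (by norm_num) (by linarith) (by linarith)
    refine ⟨e, e0, e1, Or.inr (Or.inl ⟨fun v hv => ?_, fun x hx => by rw [he x hx]; ring⟩)⟩
    obtain ⟨x, y, h1, h2⟩ := hq v hv
    rw [h2]
    rcases le_total (H u u) (H w w) with l | l <;> nlinarith [sq_nonneg x, sq_nonneg y]
  · obtain ⟨e, e0, e1, he⟩ := main (-1) 1 (by norm_num) (by norm_num) (by linarith) (by linarith)
    refine ⟨e.trans σ'.toOpenPartialHomeomorph, ⟨e0, mem_univ _⟩, by simp [e1, σ', σ],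
      Or.inr (Or.inr ⟨⟨w, u, c, a⟩, fun x hx => ?_⟩)⟩
    rw [he x hx.1]
    simp [σ', σ]; ring
  · obtain ⟨e, e0, e1, he⟩ := main 1 (-1) (by norm_num) (by norm_num) (by linarith) (by linarith)
    refine ⟨e.trans σ.toOpenPartialHomeomorph, ⟨e0, mem_univ _⟩, by simp [e1, σ],
      Or.inr (Or.inr ⟨⟨u, w, a, c⟩, fun x hx => ?_⟩)⟩
    rw [he x hx.1]
    simp [σ]; ring
  · obtain ⟨e, e0, e1, he⟩ := main 1 1 (by norm_num) (by norm_num) (by linarith) (by linarith)
    refine ⟨e, e0, e1, Or.inl ⟨fun v hv => ?_, fun x hx => by rw [he x hx]; ring⟩⟩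
    obtain ⟨x, y, h1, h2⟩ := hq v hv
    rw [h2]
    rcases le_total (H u u) (H w w) with l | l <;> nlinarith [sq_nonneg x, sq_nonneg y]

/-- the chart at a regular point -/
theorem regular [FiniteDimensional ℝ E] (hE : Module.finrank ℝ E = 2) {g : E → ℝ} {p : E}
    (hg : ContDiffAt ℝ 1 g p) (h0 : fderiv ℝ g p ≠ 0) :
    ∃ e : OpenPartialHomeomorph E (ℝ × ℝ), p ∈ e.source ∧ e p = 0 ∧ ∀ x, g x = g p + (e x).2 := by
  have : CompleteSpace E := FiniteDimensional.complete ℝ E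
  have hd := hg.hasStrictFDerivAt (by norm_num)
  obtain ⟨l, hl⟩ : ∃ l, l = fderiv ℝ g p := ⟨_, rfl⟩
  rw [← hl] at hd h0
  obtain ⟨w, hw⟩ : ∃ w, l w ≠ 0 := by
    by_contra h
    push Not at h
    exact h0 (ContinuousLinearMap.ext h)
  obtain ⟨u, hu, u0⟩ : ∃ u, l u = 0 ∧ u ≠ 0 := by
    have : LinearMap.ker (l : E →ₗ[ℝ] ℝ) ≠ ⊥ := LinearMap.ker_ne_bot_of_finrank_lt (by simp [hE])
    obtain ⟨w, h1, h2⟩ := Submodule.exists_mem_ne_zero_of_ne_bot this
    exact ⟨w, h1, h2⟩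
  let T : (ℝ × ℝ) →ₗ[ℝ] E := (LinearMap.fst ℝ ℝ ℝ).smulRight u + (LinearMap.snd ℝ ℝ ℝ).smulRight ((l w)⁻¹ • w)
  have hT : ∀ q, T q = q.1 • u + q.2 • (l w)⁻¹ • w := fun q => rfl
  have lT : ∀ q, l (T q) = q.2 := fun q => by rw [hT]; simp [hu, hw]
  have inj : Function.Injective T := by
    rw [injective_iff_map_eq_zero]
    intro q hq
    have h2 : q.2 = 0 := by rw [← lT, hq, map_zero]
    rw [hT, h2, zero_smul, add_zero, smul_eq_zero] at hq
    exact Prod.ext (hq.resolve_right u0) h2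
  let L := (T.linearEquivOfInjective inj (by simp [hE])).toContinuousLinearEquiv
  have lL : ∀ v, l v = (L.symm v).2 := fun v => by
    rw [← lT]; exact congrArg l (L.apply_symm_apply v).symm
  have h1 : HasStrictFDerivAt (fun x => (L.symm (x - p)).1)
      ((ContinuousLinearMap.fst ℝ ℝ ℝ).comp (L.symm : E →L[ℝ] ℝ × ℝ)) p := by
    have := ((ContinuousLinearMap.fst ℝ ℝ ℝ).comp (L.symm : E →L[ℝ] ℝ × ℝ)).hasStrictFDerivAt.comp p
      ((hasStrictFDerivAt_id p).sub_const p)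
    simpa using this
  have hF : HasStrictFDerivAt (fun x => ((L.symm (x - p)).1, g x - g p)) (L.symm : E →L[ℝ] ℝ × ℝ) p := by
    refine (h1.prodMk (hd.sub_const _)).congr_fderiv ?_
    ext v <;> simp [lL]
  exact ⟨hF.toOpenPartialHomeomorph _, hF.mem_toOpenPartialHomeomorph_source, by simp, fun x => by simp⟩

end Crest.Agent.N250.Mor
end
end

-- ▼ part N250/GB/MorS
section

/-!
# Row 250 (helper83): `MorS`
-/

set_option autoImplicit false

open Topology Filter Set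
open scoped ContDiff

noncomputable section

namespace Crest.Agent.N250.GB

open Crest.Agent.N222

theorem mor_dec (v : E (Fin 2)) : v = v 0 • ee 0 + v 1 • ee 1 := by
  ext i; fin_cases i <;> simp [ee]

theorem morS : MorS := by
  intro g z hg
  have hE : Module.finrank ℝ (E (Fin 2)) = 2 := by simp
  refine ⟨fun h => ?_, fun h D hD => ?_⟩
  · obtain ⟨e, a, b, c⟩ := Mor.regular hE (hg.of_le (by exact_mod_cast le_top)) h
    exact ⟨e, a, b, fun q _ => by simpa [model] using c q⟩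
  have h3 : ContDiffAt ℝ 3 g z := hg.of_le (ENat.natCast_le_of_coe_top_le_withTop le_rfl 3)
  have hs : ∀ u w, fderiv ℝ (fderiv ℝ g) z u w = fderiv ℝ (fderiv ℝ g) z w u :=
    (h3.isSymmSndFDerivAt (by simp; norm_num)).eq
  have key := Mor.morse hE h3 h
  obtain ⟨H, hH⟩ : ∃ H, H = fderiv ℝ (fderiv ℝ g) z := ⟨_, rfl⟩
  rw [← hH] at hs hD key
  have ex : ∀ (x y x' y' : ℝ), H (x • ee 0 + y • ee 1) (x' • ee 0 + y' • ee 1) =
      x * x' * H (ee 0) (ee 0) + (x * y' + y * x') * H (ee 0) (ee 1) + y * y' * H (ee 1) (ee 1) := by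
    intro x y x' y'
    simp only [map_add, map_smul, add_apply, smul_apply, smul_eq_mul, hs (ee 1) (ee 0)]
    ring
  have hn : D ≠ 0 → ∀ v, (∀ w, H v w = 0) → v = 0 := by
    intro D0 v hv
    have a := hv ((1 : ℝ) • ee 0 + (0 : ℝ) • ee 1)
    have b := hv ((0 : ℝ) • ee 0 + (1 : ℝ) • ee 1)
    rw [mor_dec v, ex] at a b
    have c : v 0 * D = 0 := by rw [hD]; linear_combination H (ee 1) (ee 1) * a - H (ee 0) (ee 1) * b
    have d : v 1 * D = 0 := by rw [hD]; linear_combination H (ee 0) (ee 0) * b - H (ee 0) (ee 1) * a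
    rw [mor_dec v, (mul_eq_zero.1 c).resolve_right D0, (mul_eq_zero.1 d).resolve_right D0]
    simp
  have ne : ∀ x y : ℝ, y ≠ 0 → x • ee 0 + y • (ee 1 : E (Fin 2)) ≠ 0 := fun x y y0 h => y0 (by
    simpa [ee] using congrArg (fun v : E (Fin 2) => v 1) h)
  have n0 : (ee 0 : E (Fin 2)) ≠ 0 := fun h => by simpa [ee] using congrArg (fun v : E (Fin 2) => v 0) h
  refine ⟨fun D0 => ?_, fun D0 => ?_⟩
  · obtain ⟨e, a, b, c | c | c⟩ := key (hn D0.ne')
    · exact Or.inr ⟨e, a, b, fun q hq => by simpa [model] using c.2 q hq⟩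
    · exact Or.inl ⟨e, a, b, fun q hq => by rw [c.2 q hq]; simp [model]; ring⟩
    · exfalso
      obtain ⟨⟨u, w, h1, h2⟩, -⟩ := c
      rw [mor_dec u, ex] at h1
      rw [mor_dec w, ex] at h2
      obtain ⟨p, hp⟩ : ∃ p, p = H (ee 0) (ee 0) := ⟨_, rfl⟩
      obtain ⟨q, hq⟩ : ∃ q, q = H (ee 0) (ee 1) := ⟨_, rfl⟩
      obtain ⟨r, hr⟩ : ∃ r, r = H (ee 1) (ee 1) := ⟨_, rfl⟩
      rw [← hp, ← hq, ← hr] at h1 h2 hD
      have e : ∀ x y : ℝ, p * (x * x * p + (x * y + y * x) * q + y * y * r) = (p * x + q * y) ^ 2 + D * y ^ 2 := by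
        intro x y; rw [hD]; ring
      rcases lt_trichotomy p 0 with l | l | l
      · nlinarith [e (u 0) (u 1), sq_nonneg (p * u 0 + q * u 1), mul_nonneg D0.le (sq_nonneg (u 1))]
      · rw [l] at hD; nlinarith [sq_nonneg q]
      · nlinarith [e (w 0) (w 1), sq_nonneg (p * w 0 + q * w 1), mul_nonneg D0.le (sq_nonneg (w 1))]
  · obtain ⟨e, a, b, c | c | c⟩ := key (hn D0.ne)
    · exfalso
      have p0 := c.1 _ n0
      have := c.1 _ (ne (-H (ee 0) (ee 1)) _ p0.ne')
      rw [ex] at this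
      nlinarith
    · exfalso
      have p0 := c.1 _ n0
      have := c.1 _ (ne (-H (ee 0) (ee 1)) _ p0.ne)
      rw [ex] at this
      nlinarith
    · exact ⟨e, a, b, fun q hq => by simpa [model] using c.2 q hq⟩

end Crest.Agent.N250.GB
end
end

-- ▼ part N250/GB/Sep
section

/-!
# Row 250, local Gauss-Bonnet, G6c (helper62): separating the critical values
-/

set_option autoImplicit false
set_option linter.unusedSectionVars false
open MeasureTheory Set Filter Topology Function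
open scoped ContDiff

noncomputable section

namespace Crest.Agent.N250.GB

open Crest.Agent.N222

namespace Sep

variable {X : Type} [TopologicalSpace X] [T2Space X] [CompactSpace X] [SecondCountableTopology X]
  [MeasurableSpace X] [BorelSpace X] {M : Imm 2 (Fin 3) X} {f h : X → ℝ}

theorem exists_h (M : Imm 2 (Fin 3) X) (C : Finset X) :
    ∃ h : X → ℝ, M.Sm h ∧ InjOn h C ∧ ∀ p ∈ C, h =ᶠ[𝓝 p] fun _ => h p := by
  classical
  have hb := fun p : X => M.exists_bump (K := {p}) (U := ((C.erase p : Finset X) : Set X)ᶜ)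
    isCompact_singleton (C.erase p).finite_toSet.isClosed.isOpen_compl (by simp)
  choose χ h1 h2 _ h4 using hb
  let n : X → ℝ := fun p => if hp : p ∈ C then ((C.equivFin ⟨p, hp⟩ : ℕ) : ℝ) else 0
  have key : ∀ p ∈ C, (fun q => ∑ r ∈ C, n r * χ r q) =ᶠ[𝓝 p] fun _ => n p := by
    intro p hp
    have e1 : ∀ᶠ q in 𝓝 p, ∀ r ∈ C.erase p, χ r q = 0 := by
      refine (eventually_all_finset _).2 fun r hr => ?_
      refine notMem_tsupport_iff_eventuallyEq.1 fun h' => h2 r h' ?_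
      exact Finset.mem_coe.2 (Finset.mem_erase.2 ⟨(Finset.mem_erase.1 hr).1.symm, hp⟩)
    have e2 : ∀ᶠ q in 𝓝 p, χ p q = 1 := by simpa only [nhdsSet_singleton] using h4 p
    filter_upwards [e1, e2] with q q1 q2
    rw [← Finset.add_sum_erase C _ hp, q2, mul_one,
      Finset.sum_eq_zero fun r hr => by rw [q1 r hr, mul_zero], add_zero]
  refine ⟨fun q => ∑ r ∈ C, n r * χ r q,
    Imm.sm_sum C fun r _ => (Imm.sm_const _).mul (h1 r).sm, fun p hp q hq e => ?_,
    fun p hp => ?_⟩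
  · have hp' : p ∈ C := hp
    have hq' : q ∈ C := hq
    have e' : n p = n q := ((key p hp').self_of_nhds.symm.trans e).trans (key q hq').self_of_nhds
    simp only [n, dif_pos hp', dif_pos hq', Nat.cast_inj] at e'
    exact congrArg Subtype.val (C.equivFin.injective (Fin.ext e'))
  · have := (key p hp).self_of_nhds
    simp only at this
    simp only [this]
    exact key p hp

theorem D_lin (hf : M.Sm f) (hh : M.Sm h) (s : ℝ) (a : Fin 3) :
    M.pre.D a (fun q => f q + s * h q) = fun q => M.pre.D a f q + s * M.pre.D a h q := by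
  funext q
  rw [Imm.D_add (hf.diffAt q) (((Imm.sm_const s).mul hh).diffAt q),
    Imm.D_const_mul s (hh.diffAt q)]

theorem grad_lin (hf : M.Sm f) (hh : M.Sm h) (s : ℝ) (p : X) :
    M.grad (fun q => f q + s * h q) p = M.grad f p + s • M.grad h p := by
  ext a
  simp [Imm.grad, D_lin hf hh]

theorem hess_lin (hf : M.Sm f) (hh : M.Sm h) (s : ℝ) (a b : Fin 3) (p : X) :
    M.pre.hess (fun q => f q + s * h q) a b p =
      M.pre.hess f a b p + s * M.pre.hess h a b p := by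
  simp only [Imm.hess_apply, D_lin hf hh, D_lin (hf.D _) (hh.D _), Finset.mul_sum,
    ← Finset.sum_add_distrib]
  exact Finset.sum_congr rfl fun c _ => by ring

theorem hess_const (c : ℝ) (a b : Fin 3) (p : X) : M.pre.hess (fun _ => c) a b p = 0 := by
  rw [Imm.hess_apply]
  refine Finset.sum_eq_zero fun e _ => ?_
  rw [(Imm.D_congr (.of_forall fun q => Imm.D_const c e q) a).trans (Imm.D_const 0 a p), mul_zero]

theorem nS_eq (f : X → ℝ) (p : X) : nS M f p =
    ‖(WithLp.toLp 2 fun ab : Fin 3 × Fin 3 => M.pre.hess f ab.1 ab.2 p :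
      EuclideanSpace ℝ (Fin 3 × Fin 3))‖ := by
  rw [EuclideanSpace.norm_eq, nS, Fintype.sum_prod_type]
  simp only [Real.norm_eq_abs, sq_abs]

theorem nS_lin (hf : M.Sm f) (hh : M.Sm h) (s : ℝ) (p : X) :
    nS M (fun q => f q + s * h q) p ≤ nS M f p + |s| * nS M h p := by
  rw [nS_eq, nS_eq, nS_eq, ← Real.norm_eq_abs, ← norm_smul]
  refine le_trans (le_of_eq (congrArg _ ?_)) (norm_add_le _ _)
  ext ab
  simp [hess_lin hf hh]

theorem cont_nS (hf : M.Sm f) : Continuous (nS M f) :=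
  (continuous_finsetSum _ fun a _ => continuous_finsetSum _ fun b _ =>
    (hf.hess a b).continuous.pow 2).sqrt

end Sep

open Crest.Agent.N250.GB.Sep in
theorem sepS : SepS := by
  classical
  intro X _ _ _ _ _ _ M f C hM η hη
  obtain ⟨h, hh, hi, hc⟩ := exists_h M C
  have hf := hM.sm
  have gz : ∀ p ∈ C, p ∉ tsupport (M.grad h) := fun p hp => by
    refine notMem_tsupport_iff_eventuallyEq.2 ?_
    filter_upwards [(hc p hp).eventuallyEq_nhds] with q hq
    ext a
    simp [Imm.grad, Imm.D_congr hq, Imm.D_const]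
  obtain ⟨m, hm, hm'⟩ := (isClosed_tsupport (M.grad h)).isCompact.exists_forall_le'
    (f := fun p => ‖M.grad f p‖) hf.grad.continuous.norm.continuousOn (a := 0)
    fun p hp => norm_pos_iff.2 fun e => gz p ((hM.crit p).2 e) hp
  obtain ⟨B, hB⟩ : ∃ B, ∀ p, |h p| + ‖M.grad h p‖ + nS M h p ≤ B := by
    obtain ⟨B, hB⟩ := (isCompact_range ((hh.continuous.abs.add hh.grad.continuous.norm).add
      (cont_nS hh))).bddAbove
    exact ⟨B, fun p => hB ⟨p, rfl⟩⟩
  have hpos : 0 < min η m / (|B| + 1) := div_pos (lt_min hη hm) (by positivity)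
  obtain ⟨s, ⟨hs0, hs1⟩, hs2⟩ := (Ioo_infinite hpos).exists_notMem_finset
    ((C ×ˢ C).image fun pq => (f pq.2 - f pq.1) / (h pq.1 - h pq.2))
  have sm : ∀ y, 0 ≤ y → y ≤ B → s * y < min η m := fun y h0 h1 => by
    rw [lt_div_iff₀ (by positivity)] at hs1
    have : s * y ≤ s * (|B| + 1) :=
      mul_le_mul_of_nonneg_left (by linarith [le_abs_self B]) hs0.le
    linarith
  have n0 : ∀ p, 0 ≤ nS M h p := fun p => Real.sqrt_nonneg _
  have b1 : ∀ p, s * |h p| < min η m := fun p =>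
    sm _ (abs_nonneg _) (by linarith [hB p, n0 p, norm_nonneg (M.grad h p)])
  have b2 : ∀ p, s * ‖M.grad h p‖ < min η m := fun p =>
    sm _ (norm_nonneg _) (by linarith [hB p, n0 p, abs_nonneg (h p)])
  have b3 : ∀ p, s * nS M h p < min η m := fun p =>
    sm _ (n0 p) (by linarith [hB p, norm_nonneg (M.grad h p), abs_nonneg (h p)])
  refine ⟨fun q => f q + s * h q, ⟨hf.add ((Imm.sm_const s).mul hh), fun p => ?_, fun p hp => ?_⟩,
    fun p hp q hq e => ?_, fun p => ⟨?_, ?_, ?_⟩⟩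
  · rw [grad_lin hf hh]
    by_cases hp : p ∈ tsupport (M.grad h)
    · refine ⟨fun h' => absurd hp (gz p h'), fun e => ?_⟩
      have e1 : ‖M.grad f p‖ = s * ‖M.grad h p‖ := by
        rw [eq_neg_of_add_eq_zero_left e, norm_neg, norm_smul, Real.norm_eq_abs, abs_of_pos hs0]
      linarith [hm' p hp, b2 p, min_le_right η m]
    · rw [image_eq_zero_of_notMem_tsupport hp, smul_zero, add_zero]
      exact hM.crit p
  · have e1 : M.pre.lap (fun q => f q + s * h q) p = M.pre.lap f p := by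
      rw [Imm.lap_add hf ((Imm.sm_const s).mul hh), Imm.lap_const_mul s hh,
        Imm.lap_congr (hc p hp), Imm.lap_const, mul_zero, add_zero]
    have e2 : ∀ a b, M.pre.hess (fun q => f q + s * h q) a b p = M.pre.hess f a b p :=
      fun a b => by
        rw [hess_lin hf hh, Imm.hess_congr (hc p hp), hess_const, mul_zero, add_zero]
    simpa only [dS, e1, e2] using hM.nd p hp
  · by_contra hne
    have h1 : h p - h q ≠ 0 := sub_ne_zero.2 fun e' => hne (hi hp hq e')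
    refine hs2 (Finset.mem_image.2 ⟨(p, q), Finset.mem_product.2 ⟨hp, hq⟩, ?_⟩)
    simp only at e ⊢
    rw [div_eq_iff h1]
    linarith
  · rw [add_sub_cancel_left, abs_mul, abs_of_pos hs0]
    exact (b1 p).le.trans (min_le_left _ _)
  · rw [grad_lin hf hh]
    refine (norm_add_le _ _).trans ?_
    rw [norm_smul, Real.norm_eq_abs, abs_of_pos hs0]
    linarith [b2 p, min_le_left η m]
  · refine (nS_lin hf hh s p).trans ?_
    rw [abs_of_pos hs0]
    linarith [b3 p, min_le_left η m]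

end Crest.Agent.N250.GB

end
end

-- ▼ part N250/GB/Pc
section

/-!
# Row 250, local Gauss-Bonnet: a compact piece of a thin band has total curvature (helper69)

Divergence theorem for `θ(f) 1_U T Z`, `T = (|V|² P - V Vᵀ) / √(|V|² + k²)`, `V = ∇f`,
`Z = (x - y) / √(|x - y|² + ε²)`.
-/

set_option autoImplicit false
set_option linter.unusedSectionVars false
open MeasureTheory Set Filter Topology Function
open scoped ContDiff

noncomputable section

namespace Crest.Agent.N250.GB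

open Crest.Agent.N222

namespace Pc

variable {X : Type} [TopologicalSpace X] {M : Imm 2 (Fin 3) X} {f : X → ℝ} {k ε : ℝ}
  {y : E (Fin 3)}

theorem D_isqrt {g : X → ℝ} {p : X} (hg : M.DiffAt g p) (h0 : 0 < g p) (a : Fin 3) :
    M.pre.D a (fun q => (√(g q))⁻¹) p = -(1 / 2) * (√(g p))⁻¹ ^ 3 * M.pre.D a g p := by
  have h1 : 0 < √(g p) := Real.sqrt_pos.2 h0
  have h := (Real.hasDerivAt_sqrt h0.ne').inv h1.ne'
  have h2 := Imm.D_comp hg h a
  simp only [Pi.inv_apply] at h2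
  rw [h2]
  field_simp

theorem DP (M : Imm 2 (Fin 3) X) (a b c : Fin 3) (p : X) :
    M.pre.D a (M.pre.P b c) p = M.pre.II a b c p + M.pre.II a c b p := by
  have := congrArg M.val (M.isDS.DP a b c)
  simp only [map_add, M.hom.II, M.hom.D, M.hom.P] at this
  simpa using congrFun this p

theorem PD (f : X → ℝ) (a : Fin 3) (p : X) :
    ∑ b, M.pre.P a b p * M.pre.D b f p = M.pre.D a f p := by
  simpa using congrFun (Imm.tan_D (M := M) f a) p

/-- `1 / √(|V|² + k²)` -/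
def w (M : Imm 2 (Fin 3) X) (f : X → ℝ) (k : ℝ) (p : X) : ℝ := (√(M.pre.gam f f p + k ^ 2))⁻¹

/-- the tensor -/
def T (M : Imm 2 (Fin 3) X) (f : X → ℝ) (k : ℝ) (a b : Fin 3) (p : X) : ℝ :=
  w M f k p * (M.pre.gam f f p * M.pre.P a b p - M.pre.D a f p * M.pre.D b f p)

/-- `1 / √(|x - y|² + ε²)` -/
def r (M : Imm 2 (Fin 3) X) (y : E (Fin 3)) (ε : ℝ) (p : X) : ℝ := (√(‖M.x p - y‖ ^ 2 + ε ^ 2))⁻¹

/-- the position field -/
def Z (M : Imm 2 (Fin 3) X) (y : E (Fin 3)) (ε : ℝ) (b : Fin 3) (p : X) : ℝ :=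
  r M y ε p * (M.x p b - y b)

/-- the vector field -/
def Y (M : Imm 2 (Fin 3) X) (f : X → ℝ) (k : ℝ) (y : E (Fin 3)) (ε : ℝ) (a : Fin 3) (p : X) : ℝ :=
  ∑ b, T M f k a b p * Z M y ε b p

theorem gk_pos (hk : 0 < k) (p : X) : 0 < M.pre.gam f f p + k ^ 2 := by
  have := Imm.gam_self_nonneg (M := M) f p
  positivity

theorem sm_gk (hf : M.Sm f) : M.Sm fun p => M.pre.gam f f p + k ^ 2 :=
  (hf.gam hf).add (Imm.sm_const _)

theorem sm_w (hf : M.Sm f) (hk : 0 < k) : M.Sm (w M f k) :=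
  ((sm_gk hf).sqrt fun p => (gk_pos hk p).ne').inv fun p => (Real.sqrt_pos.2 (gk_pos hk p)).ne'

theorem sm_T0 (hf : M.Sm f) (a b : Fin 3) :
    M.Sm fun p => M.pre.gam f f p * M.pre.P a b p - M.pre.D a f p * M.pre.D b f p :=
  ((hf.gam hf).mul (M.sm_P a b)).sub ((hf.D a).mul (hf.D b))

theorem sm_T (hf : M.Sm f) (hk : 0 < k) (a b : Fin 3) : M.Sm (T M f k a b) :=
  (sm_w hf hk).mul (sm_T0 hf a b)

theorem sm_n (y : E (Fin 3)) : M.Sm fun p => ‖M.x p - y‖ ^ 2 :=
  M.sm_x.comp (g := fun z => ‖z - y‖ ^ 2) ((contDiff_id.sub contDiff_const).norm_sq ℝ)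

theorem sm_r (hε : 0 < ε) : M.Sm (r M y ε) :=
  (((sm_n y).add (Imm.sm_const (ε ^ 2))).sqrt fun p => by positivity).inv
    fun p => (Real.sqrt_pos.2 (by positivity)).ne'

theorem sm_y (b : Fin 3) : M.Sm fun p => M.x p b - y b := (M.sm_coord b).sub (Imm.sm_const _)

theorem sm_Z (hε : 0 < ε) (b : Fin 3) : M.Sm (Z M y ε b) := (sm_r hε).mul (sm_y b)

theorem sm_Y (hf : M.Sm f) (hk : 0 < k) (hε : 0 < ε) (a : Fin 3) : M.Sm (Y M f k y ε a) :=
  Imm.sm_sum _ fun b _ => (sm_T hf hk a b).mul (sm_Z hε b)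

theorem tan_Y : M.pre.Tan (Y M f k y ε) := by
  intro a
  funext p
  have h1 := fun c => M.PP a c p
  have h2 := PD (M := M) f a p
  simp only [Finset.sum_apply, Pi.mul_apply, Y, T, Fin.sum_univ_three] at h1 h2 ⊢
  linear_combination (-w M f k p * (M.pre.D 0 f p * Z M y ε 0 p + M.pre.D 1 f p * Z M y ε 1 p +
    M.pre.D 2 f p * Z M y ε 2 p)) * h2 + w M f k p * M.pre.gam f f p *
    (Z M y ε 0 p * h1 0 + Z M y ε 1 p * h1 1 + Z M y ε 2 p * h1 2)

theorem Y_V (p : X) : ∑ a, Y M f k y ε a p * M.pre.D a f p = 0 := by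
  have h0 := PD (M := M) f 0 p
  have h1 := PD (M := M) f 1 p
  have h2 := PD (M := M) f 2 p
  have hg := Imm.gam_apply (M := M) f f p
  simp only [Y, T, Fin.sum_univ_three, M.P_symm 1 0, M.P_symm 2 0, M.P_symm 2 1] at h0 h1 h2 hg ⊢
  linear_combination (w M f k p * M.pre.gam f f p) * (Z M y ε 0 p * h0 + Z M y ε 1 p * h1 +
    Z M y ε 2 p * h2) + w M f k p * (M.pre.D 0 f p * Z M y ε 0 p + M.pre.D 1 f p * Z M y ε 1 p +
    M.pre.D 2 f p * Z M y ε 2 p) * hg

theorem w_pos (hk : 0 < k) (p : X) : 0 < w M f k p := inv_pos.2 (Real.sqrt_pos.2 (gk_pos hk p))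

theorem w_le (hk : 0 < k) (p : X) : w M f k p * ‖M.grad f p‖ ≤ 1 := by
  rw [w, inv_mul_le_iff₀ (Real.sqrt_pos.2 (gk_pos hk p)), mul_one, Imm.gam_self_eq]
  exact Real.le_sqrt_of_sq_le (by nlinarith)

theorem w_ge (hk : 0 < k) {p : X} (h : k ≤ ‖M.grad f p‖) :
    ‖M.grad f p‖ / 2 ≤ w M f k p * M.pre.gam f f p := by
  rw [w, ← div_eq_inv_mul, le_div_iff₀ (Real.sqrt_pos.2 (gk_pos hk p)), Imm.gam_self_eq]
  have : √(‖M.grad f p‖ ^ 2 + k ^ 2) ≤ 2 * ‖M.grad f p‖ :=
    Real.sqrt_le_iff.2 ⟨by positivity, by nlinarith⟩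
  nlinarith [norm_nonneg (M.grad f p)]

theorem r_pos (hε : 0 < ε) (p : X) : 0 < r M y ε p := inv_pos.2 (Real.sqrt_pos.2 (by positivity))

theorem r_sq (hε : 0 < ε) (p : X) : r M y ε p ^ 2 * (‖M.x p - y‖ ^ 2 + ε ^ 2) = 1 := by
  rw [r, inv_pow, Real.sq_sqrt (by positivity), inv_mul_cancel₀ (by positivity)]

theorem r_ge (hε : 0 < ε) {p : X} (h : ‖M.x p - y‖ ≤ ε) : 1 / (8 * ε) ≤ r M y ε p ^ 3 * ε ^ 2 := by
  have h1 : √(‖M.x p - y‖ ^ 2 + ε ^ 2) ≤ 2 * ε :=
    Real.sqrt_le_iff.2 ⟨by positivity, by nlinarith [norm_nonneg (M.x p - y)]⟩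
  have h2 : (2 * ε)⁻¹ ≤ r M y ε p := inv_anti₀ (Real.sqrt_pos.2 (by positivity)) h1
  calc 1 / (8 * ε) = (2 * ε)⁻¹ ^ 3 * ε ^ 2 := by field_simp; norm_num
    _ ≤ _ := by gcongr

theorem abs_Z (hε : 0 < ε) (b : Fin 3) (p : X) : |Z M y ε b p| ≤ 1 := by
  have h1 : |M.x p b - y b| ≤ ‖M.x p - y‖ := by
    simpa using PiLp.norm_apply_le (M.x p - y) b
  have h2 : ‖M.x p - y‖ ≤ √(‖M.x p - y‖ ^ 2 + ε ^ 2) := Real.le_sqrt_of_sq_le (by nlinarith)
  rw [Z, abs_mul, abs_of_pos (r_pos hε p), r,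
    inv_mul_le_iff₀ (Real.sqrt_pos.2 (by positivity)), mul_one]
  exact h1.trans h2

theorem abs_V (a : Fin 3) (p : X) : |M.pre.D a f p| ≤ ‖M.grad f p‖ := by
  simpa [Imm.grad] using PiLp.norm_apply_le (M.grad f p) a

theorem abs_S (a b : Fin 3) (p : X) : |M.pre.hess f a b p| ≤ nS M f p := by
  refine Real.abs_le_sqrt ?_
  refine le_trans ?_ (Finset.single_le_sum (f := fun a => ∑ b, M.pre.hess f a b p ^ 2)
    (fun _ _ => by positivity) (Finset.mem_univ a))
  exact Finset.single_le_sum (f := fun b => M.pre.hess f a b p ^ 2)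
    (fun _ _ => by positivity) (Finset.mem_univ b)

theorem abs_II (a b c : Fin 3) (p : X) : |M.pre.II a b c p| ≤ √(a2 M p) := by
  refine Real.abs_le_sqrt ?_
  refine le_trans ?_ (Finset.single_le_sum (f := fun a => ∑ b, ∑ c, M.pre.II a b c p ^ 2)
    (fun _ _ => by positivity) (Finset.mem_univ a))
  refine le_trans ?_ (Finset.single_le_sum (f := fun b => ∑ c, M.pre.II a b c p ^ 2)
    (fun _ _ => by positivity) (Finset.mem_univ b))
  exact Finset.single_le_sum (f := fun c => M.pre.II a b c p ^ 2)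
    (fun _ _ => by positivity) (Finset.mem_univ c)

theorem abs_mul_le {a b A B : ℝ} (ha : |a| ≤ A) (hb : |b| ≤ B) : |a * b| ≤ A * B := by
  rw [abs_mul]
  exact mul_le_mul ha hb (abs_nonneg _) ((abs_nonneg _).trans ha)

theorem abs_sum3 {g : Fin 3 → ℝ} {A : ℝ} (h : ∀ a, |g a| ≤ A) : |∑ a, g a| ≤ 3 * A := by
  rw [Fin.sum_univ_three]
  have := h 0
  have := h 1
  have := h 2
  have := abs_add_le (g 0 + g 1) (g 2)
  have := abs_add_le (g 0) (g 1)
  linarith

theorem abs_DD (hf : M.Sm f) (a b : Fin 3) (p : X) :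
    |M.pre.D a (M.pre.D b f) p| ≤ nS M f p + 3 * (√(a2 M p) * ‖M.grad f p‖) := by
  rw [Imm.DD hf]
  exact (abs_add_le _ _).trans (add_le_add (abs_S a b p)
    (abs_sum3 fun c => abs_mul_le (abs_II a c b p) (abs_V c p)))

theorem D_gam (hf : M.Sm f) (a : Fin 3) (p : X) :
    M.pre.D a (M.pre.gam f f) p = 2 * ∑ e, M.pre.hess f a e p * M.pre.D e f p := by
  have h0 := PD (M := M) f 0 p
  have h1 := PD (M := M) f 1 p
  have h2 := PD (M := M) f 2 p
  rw [show M.pre.gam f f = fun q => ∑ c, M.pre.D c f q * M.pre.D c f q from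
    funext (Imm.gam_apply f f), Imm.D_sum _ fun c _ => ((hf.D c).mul (hf.D c)).diffAt p]
  simp only [Imm.D_mul ((hf.D _).diffAt p) ((hf.D _).diffAt p), Imm.hess_apply,
    Fin.sum_univ_three, M.P_symm 1 0, M.P_symm 2 0, M.P_symm 2 1] at h0 h1 h2 ⊢
  linear_combination (-2 * M.pre.D a (M.pre.D 0 f) p) * h0 + (-2 * M.pre.D a (M.pre.D 1 f) p) * h1
    + (-2 * M.pre.D a (M.pre.D 2 f) p) * h2

theorem abs_D_gam (hf : M.Sm f) (a : Fin 3) (p : X) :
    |M.pre.D a (M.pre.gam f f) p| ≤ 6 * (nS M f p * ‖M.grad f p‖) := by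
  rw [D_gam hf, abs_mul, abs_two]
  linarith [abs_sum3 fun e => abs_mul_le (abs_S (M := M) (f := f) a e p) (abs_V (M := M) (f := f) e p)]

theorem D_w (hf : M.Sm f) (hk : 0 < k) (a : Fin 3) (p : X) :
    M.pre.D a (w M f k) p = -(1 / 2) * w M f k p ^ 3 * M.pre.D a (M.pre.gam f f) p := by
  have h := D_isqrt ((sm_gk (k := k) hf).diffAt p) (gk_pos hk p) a
  rw [Imm.D_add ((hf.gam hf).diffAt p) ((Imm.sm_const _).diffAt p), Imm.D_const, add_zero] at h
  exact h

theorem abs_DT (hf : M.Sm f) (hk : 0 < k) (a b c : Fin 3) (p : X) :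
    |M.pre.D a (T M f k b c) p| ≤ 14 * Gf M f p := by
  have e1 := Imm.D_mul ((sm_w hf hk).diffAt p) ((sm_T0 hf b c).diffAt p) a
  rw [Imm.D_sub (((hf.gam hf).mul (M.sm_P b c)).diffAt p) (((hf.D b).mul (hf.D c)).diffAt p),
    Imm.D_mul ((hf.gam hf).diffAt p) ((M.sm_P b c).diffAt p),
    Imm.D_mul ((hf.D b).diffAt p) ((hf.D c).diffAt p), D_w hf hk, DP] at e1
  have hw := w_pos (M := M) (f := f) hk p
  have hw1 := w_le (M := M) (f := f) hk p
  have hg := Imm.gam_self_eq (M := M) f p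
  have hn : 0 ≤ nS M f p := Real.sqrt_nonneg _
  have hα : 0 ≤ √(a2 M p) := Real.sqrt_nonneg _
  have hv : 0 ≤ ‖M.grad f p‖ := norm_nonneg _
  have hgam : |M.pre.gam f f p| ≤ ‖M.grad f p‖ ^ 2 := by rw [hg, abs_of_nonneg (by positivity)]
  have b1 := abs_mul_le hgam ((abs_add_le _ _).trans (add_le_add (abs_II (M := M) a b c p)
    (abs_II (M := M) a c b p)))
  have b2 := abs_mul_le (abs_D_gam hf a p) (M.abs_P_le b c p)
  have b3 := abs_mul_le (abs_V (M := M) (f := f) b p) (abs_DD hf a c p)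
  have b4 := abs_mul_le (abs_DD hf a b p) (abs_V (M := M) (f := f) c p)
  have b5 := (abs_sub _ _).trans (add_le_add (abs_mul_le hgam (M.abs_P_le b c p))
    (abs_mul_le (abs_V (M := M) (f := f) b p) (abs_V (M := M) (f := f) c p)))
  have b6 : |-(1 / 2) * w M f k p ^ 3| ≤ 1 / 2 * w M f k p ^ 3 := by
    rw [neg_mul, abs_neg, abs_of_nonneg (by positivity)]
  have b7 := abs_mul_le (abs_mul_le b6 (abs_D_gam hf a p)) b5
  have b8 := abs_mul_le (abs_of_pos hw).le ((abs_sub _ _).trans (add_le_add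
    ((abs_add_le _ _).trans (add_le_add b1 b2)) ((abs_add_le _ _).trans (add_le_add b3 b4))))
  have e2 : M.pre.D a (T M f k b c) p = _ := e1
  rw [e2, Gf]
  refine (abs_add_le _ _).trans ((add_le_add b8 b7).trans ?_)
  generalize w M f k p = W at *
  generalize nS M f p = n at *
  generalize √(a2 M p) = α at *
  generalize ‖M.grad f p‖ = v at *
  have h3 : (W * v) ^ 3 ≤ 1 := pow_le_one₀ (by positivity) hw1
  have h4 : W * v * (α * v) ≤ 1 * (α * v) := by gcongr
  have h5 : W * v * n ≤ 1 * n := by gcongr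
  have h6 : (W * v) ^ 3 * n ≤ 1 * n := by gcongr
  have h7 : 0 ≤ α * v := by positivity
  nlinarith

theorem D_Z (hε : 0 < ε) (a b : Fin 3) (p : X) : M.pre.D a (Z M y ε b) p =
    r M y ε p * M.pre.P a b p - r M y ε p ^ 3 * M.PL p (M.x p - y) a * (M.x p b - y b) := by
  have h := D_isqrt (((sm_n (M := M) y).add (Imm.sm_const (ε ^ 2))).diffAt p) (by positivity) a
  rw [Imm.D_add ((sm_n y).diffAt p) ((Imm.sm_const _).diffAt p), Imm.D_const, add_zero,
    Imm.D_normSq] at h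
  have h1 : M.pre.D a (r M y ε) p = -(1 / 2) * r M y ε p ^ 3 * (2 * M.PL p (M.x p - y) a) := h
  have h2 := Imm.D_mul ((sm_r (M := M) (y := y) hε).diffAt p) ((sm_y (y := y) b).diffAt p) a
  rw [Imm.D_sub ((M.sm_coord b).diffAt p) ((Imm.sm_const _).diffAt p), Imm.D_const, h1] at h2
  have h3 : M.pre.D a (Z M y ε b) p = _ := h2
  rw [h3]
  simp only [Pre.P, Imm.pre]
  ring

theorem trace_ge (hk : 0 < k) (hε : 0 < ε) (p : X) :
    w M f k p * M.pre.gam f f p * (r M y ε p ^ 3 * ε ^ 2) ≤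
      ∑ a, ∑ b, T M f k a b p * M.pre.D a (Z M y ε b) p := by
  have e : ∑ a, ∑ b, T M f k a b p * M.pre.D a (Z M y ε b) p =
      w M f k p * r M y ε p * M.pre.gam f f p - w M f k p * r M y ε p ^ 3 * (M.pre.gam f f p *
        ‖M.PL p (M.x p - y)‖ ^ 2 - (∑ a, M.pre.D a f p * (M.x p a - y a)) ^ 2) := by
    have h0 := PD (M := M) f 0 p
    have h1 := PD (M := M) f 1 p
    have h2 := PD (M := M) f 2 p
    have g0 := M.PP 0 0 p
    have g1 := M.PP 1 1 p
    have g2 := M.PP 2 2 p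
    have ht := M.tr_P p
    have hg := Imm.gam_apply (M := M) f f p
    simp only [D_Z hε, T, EuclideanSpace.real_norm_sq_eq, Imm.PL_apply, PiLp.sub_apply,
      Fin.sum_univ_three, M.P_symm 1 0, M.P_symm 2 0, M.P_symm 2 1, Nat.cast_ofNat]
      at h0 h1 h2 g0 g1 g2 ht hg ⊢
    linear_combination w M f k p * r M y ε p * (M.pre.gam f f p * (g0 + g1 + g2 + ht) + hg
      - M.pre.D 0 f p * h0 - M.pre.D 1 f p * h1 - M.pre.D 2 f p * h2) +
      w M f k p * r M y ε p ^ 3 * (M.pre.D 0 f p * (M.x p 0 - y 0) + M.pre.D 1 f p * (M.x p 1 - y 1)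
      + M.pre.D 2 f p * (M.x p 2 - y 2)) * ((M.x p 0 - y 0) * h0 + (M.x p 1 - y 1) * h1 +
      (M.x p 2 - y 2) * h2)
  have h1 : ‖M.PL p (M.x p - y)‖ ^ 2 ≤ ‖M.x p - y‖ ^ 2 := by
    gcongr
    exact M.norm_PL_le p _
  have hw := w_pos (M := M) (f := f) hk p
  have hr := r_pos (M := M) (y := y) hε p
  have hs := Imm.gam_self_nonneg (M := M) f p
  have h2 := r_sq (M := M) (y := y) hε p
  have h3 : w M f k p * r M y ε p ^ 3 * (M.pre.gam f f p * ‖M.PL p (M.x p - y)‖ ^ 2 -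
      (∑ a, M.pre.D a f p * (M.x p a - y a)) ^ 2) ≤
      w M f k p * r M y ε p ^ 3 * (M.pre.gam f f p * ‖M.x p - y‖ ^ 2) := by
    gcongr
    nlinarith [sq_nonneg (∑ a, M.pre.D a f p * (M.x p a - y a))]
  rw [e]
  linear_combination h3 + w M f k p * r M y ε p * M.pre.gam f f p * h2

theorem dv_ge (hf : M.Sm f) (hk : 0 < k) (hε : 0 < ε) (p : X) :
    w M f k p * M.pre.gam f f p * (r M y ε p ^ 3 * ε ^ 2) - 126 * Gf M f p ≤
      M.pre.dv (Y M f k y ε) p := by
  have e : ∀ a, M.pre.D a (Y M f k y ε a) p = ∑ b, (T M f k a b p * M.pre.D a (Z M y ε b) p +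
      M.pre.D a (T M f k a b) p * Z M y ε b p) := fun a =>
    (Imm.D_sum _ (fun b _ => ((sm_T hf hk a b).mul (sm_Z hε b)).diffAt p) a).trans
      (Finset.sum_congr rfl fun b _ => Imm.D_mul ((sm_T hf hk a b).diffAt p)
        ((sm_Z hε b).diffAt p) a)
  have h1 := abs_sum3 fun a => abs_sum3 fun b => abs_mul_le (abs_DT hf hk a a b p)
    (abs_Z (M := M) (y := y) hε b p)
  simp only [Imm.dv_apply, e, Finset.sum_add_distrib]
  linarith [trace_ge (M := M) (f := f) (y := y) hk hε p, neg_abs_le (∑ a, ∑ b,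
    M.pre.D a (T M f k a b) p * Z M y ε b p)]

theorem continuous_Gf (hf : M.Sm f) : Continuous (Gf M f) := by
  have h1 := fun a b => (hf.hess a b).continuous
  have h2 := fun a b c => (M.sm_II a b c).continuous
  have h3 := hf.grad.continuous
  unfold Gf nS a2
  fun_prop


/-- the cutoff `θ(f) 1_U` is locally `θ(f)` or `0` -/
theorem cut_local (hf : Continuous f) {U : Set X} (hU : IsOpen U) {t δ : ℝ} (hδ : 0 < δ)
    (hc : ∀ p ∈ closure U, |f p - t| < δ → p ∈ U) {θ : ℝ → ℝ}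
    (h0 : ∀ s, δ / 2 ≤ |s - t| → θ s = 0) (p : X) :
    U.indicator (fun q => θ (f q)) =ᶠ[𝓝 p] (fun q => θ (f q)) ∨
      U.indicator (fun q => θ (f q)) =ᶠ[𝓝 p] fun _ => 0 := by
  by_cases h1 : p ∈ U
  · left
    filter_upwards [hU.mem_nhds h1] with q hq
    exact indicator_of_mem hq _
  right
  by_cases h2 : p ∈ closure U
  · have h3 : δ / 2 < |f p - t| := by
      have := not_lt.1 fun h => h1 (hc p h2 h)
      linarith
    have h4 : ContinuousAt (fun q => |f q - t|) p := by fun_prop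
    filter_upwards [h4.eventually (lt_mem_nhds h3)] with q hq
    simp [indicator, h0 _ hq.le]
  · filter_upwards [isClosed_closure.isOpen_compl.mem_nhds h2] with q hq
    exact indicator_of_notMem (fun h => hq (subset_closure h)) _

end Pc

open Pc in
theorem pcS_of_lv (hL : LvS) : PcS := by
  refine ⟨16128, by norm_num, fun X _ _ _ _ _ _ M f hf q hq U δ hU hqU hδ hc => ?_⟩
  have hk : 0 < ‖M.grad f q‖ / 2 := half_pos (norm_pos_iff.2 hq)
  set k := ‖M.grad f q‖ / 2 with hk'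
  have hN : U ∩ {p | k < ‖M.grad f p‖} ∈ 𝓝 q := inter_mem (hU.mem_nhds hqU)
    (hf.grad.continuous.norm.continuousAt.eventually (lt_mem_nhds (by linarith)))
  obtain ⟨ε, hε, δ₁, hδ₁, N, hNm, hNU, hNε, hLv⟩ := hL X M f hf q hq _ hN
  refine ⟨min (δ / 2) δ₁, lt_min (half_pos hδ) hδ₁, fun θ hθ hθ0 hθs => ?_⟩
  have hl := cut_local hf.continuous hU hδ hc fun s hs => hθs s ((min_le_left _ _).trans hs)
  have h1 := hLv θ hθ.continuous hθ0 fun s hs => hθs s ((min_le_right _ _).trans hs)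
  set φ := U.indicator fun p => θ (f p) with hφ
  have hφs : M.Sm φ := Imm.sm_of_local fun p =>
    (hl p).elim (fun h => ⟨_, hf.comp hθ, h⟩) fun h => ⟨_, Imm.sm_const 0, h⟩
  have hφ0 : ∀ p, 0 ≤ φ p := fun p => indicator_nonneg (fun _ _ => hθ0 _) p
  have hY := fun a => (sm_Y (y := M.x q) hf hk hε a).c1
  have h2 := Imm.integral_mul_dv hφs.c1 (HasCompactSupport.of_compactSpace _) hY tan_Y
  have h3 : ∀ p, M.pre.dir (Y M f k (M.x q) ε) φ p = 0 := fun p => by
    rw [Imm.dir_apply]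
    rcases hl p with h | h
    · simp only [Imm.D_congr h, Imm.D_comp (hf.diffAt p)
        (hθ.differentiable (by simp) (f p)).hasDerivAt, mul_left_comm _ (deriv θ (f p)),
        ← Finset.mul_sum, Y_V, mul_zero]
    · simp only [Imm.D_congr h, Imm.D_const, mul_zero, Finset.sum_const_zero]
  simp only [h3, integral_zero, neg_zero] at h2
  have int : ∀ {g : X → ℝ}, Continuous g → Integrable g M.mu := fun hg =>
    hg.integrable_of_hasCompactSupport (HasCompactSupport.of_compactSpace _)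
  have cφ := hφs.continuous
  have cA : Continuous fun p =>
      φ p * (w M f k p * M.pre.gam f f p * (r M (M.x q) ε p ^ 3 * ε ^ 2)) :=
    cφ.mul (((sm_w hf hk).continuous.mul (hf.gam hf).continuous).mul
      (((sm_r hε).continuous.pow 3).mul continuous_const))
  have cG : Continuous fun p => φ p * Gf M f p := cφ.mul (continuous_Gf hf)
  have cD : Continuous fun p => φ p * M.pre.dv (Y M f k (M.x q) ε) p :=
    cφ.mul (Imm.C1.continuous_dv hY)
  have h4 : ∫ p, φ p * (w M f k p * M.pre.gam f f p * (r M (M.x q) ε p ^ 3 * ε ^ 2)) ∂M.mu ≤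
      ∫ p, (φ p * M.pre.dv (Y M f k (M.x q) ε) p + 126 * (φ p * Gf M f p)) ∂M.mu :=
    integral_mono (int cA) (int (cD.add (cG.const_mul 126)))
      fun p => by
        have := mul_le_mul_of_nonneg_left (dv_ge (y := M.x q) hf hk hε p) (hφ0 p)
        simp only
        linarith
  rw [integral_add (int cD) (int (cG.const_mul 126)), h2, zero_add, integral_const_mul] at h4
  have h5 : ∫ p, φ p * Gf M f p ∂M.mu = ∫ p in U, θ (f p) * Gf M f p ∂M.mu := by
    rw [← integral_indicator hU.measurableSet]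
    refine integral_congr_ae (ae_of_all _ fun p => ?_)
    by_cases hp : p ∈ U <;> simp [hφ, hp]
  have h6 : ∫ p in N, 1 / (16 * ε) * (θ (f p) * ‖M.grad f p‖) ∂M.mu ≤
      ∫ p in N, φ p * (w M f k p * M.pre.gam f f p * (r M (M.x q) ε p ^ 3 * ε ^ 2)) ∂M.mu := by
    refine setIntegral_mono_on (int (((hθ.continuous.comp hf.continuous).mul
      hf.grad.continuous.norm).const_mul _)).integrableOn (int cA).integrableOn hNm fun p hp => ?_
    have a1 := w_ge hk (le_of_lt (hNU hp).2)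
    have a2 := r_ge hε (hNε p hp)
    have a3 := hθ0 (f p)
    rw [hφ, indicator_of_mem (hNU hp).1]
    calc 1 / (16 * ε) * (θ (f p) * ‖M.grad f p‖)
        = θ (f p) * (‖M.grad f p‖ / 2 * (1 / (8 * ε))) := by ring
      _ ≤ _ := by
        gcongr
        exact le_trans (by positivity) a1
  have h7 := setIntegral_le_integral (s := N) (int cA) (ae_of_all _ fun p => by
    have := w_pos (M := M) (f := f) hk p
    have := r_pos (M := M) (y := M.x q) hε p
    have := Imm.gam_self_nonneg (M := M) f p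
    have := hφ0 p
    positivity)
  rw [integral_const_mul] at h6
  have h8 : 1 / (16 * ε) * (ε / 8 * ∫ s, θ s) ≤
      1 / (16 * ε) * ∫ p in N, θ (f p) * ‖M.grad f p‖ ∂M.mu := by gcongr
  have h9 : 1 / (16 * ε) * (ε / 8 * ∫ s, θ s) = (∫ s, θ s) / 128 := by field_simp; ring
  rw [← h5]
  linarith

theorem pcS_of : FrS → LvS → PcS := fun _ => pcS_of_lv

end Crest.Agent.N250.GB

end
end

-- ▼ part N250/GB/Lv
section

/-!
# Row 250, local Gauss-Bonnet: a level curve through a regular point has mass (helper20)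
-/

set_option autoImplicit false
open MeasureTheory Set Filter Topology Function
open scoped ContDiff RealInnerProductSpace

noncomputable section

namespace Crest.Agent.N250.GB

open Crest.Agent.N222

namespace Lv

theorem plane {G ρ : ℝ × ℝ → ℝ} {T : Set (ℝ × ℝ)} (hT : IsOpen T) (h0 : (0 : ℝ × ℝ) ∈ T)
    (hG : ContDiffOn ℝ 1 G T) (hρ : ContinuousOn ρ T) {c : ℝ} (hc : 0 < c)
    (hd : fderiv ℝ G 0 = c • ContinuousLinearMap.snd ℝ ℝ ℝ) (hρ0 : ρ 0 = c) :
    ∃ r : ℝ, 0 < r ∧ ∀ σ : ℝ, 0 < σ → σ ≤ r → Icc (-σ) σ ×ˢ Icc (-σ) σ ⊆ T ∧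
      ∀ θ : ℝ → ℝ, Continuous θ → (∀ s, 0 ≤ θ s) → (∀ s, c * σ / 2 ≤ |s - G 0| → θ s = 0) →
      σ / 2 * ∫ s, θ s ≤ ∫ p in Icc (-σ) σ ×ˢ Icc (-σ) σ, θ (G p) * ρ p := by
  have hcf : ContinuousOn (fderiv ℝ G) T := hG.continuousOn_fderiv_of_isOpen hT le_rfl
  have hn := hT.mem_nhds h0
  have e1 : ∀ᶠ p in 𝓝 (0 : ℝ × ℝ), ‖fderiv ℝ G p - fderiv ℝ G 0‖ ≤ c / 4 := by
    have := Metric.tendsto_nhds.1 (hcf.continuousAt hn) (c / 4) (by positivity)
    filter_upwards [this] with p hp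
    rw [dist_eq_norm] at hp
    exact hp.le
  have e2 : ∀ᶠ p in 𝓝 (0 : ℝ × ℝ), c / 2 ≤ ρ p := by
    have : c / 2 < ρ 0 := by rw [hρ0]; linarith
    exact ((hρ.continuousAt hn).eventually (lt_mem_nhds this)).mono fun p hp => hp.le
  obtain ⟨r, hr, hb⟩ := Metric.nhds_basis_closedBall.eventually_iff.1 ((e1.and e2).and hn)
  refine ⟨r, hr, fun σ hσ hσr => ?_⟩
  have hbox : Icc (-σ) σ ×ˢ Icc (-σ) σ = Metric.closedBall (0 : ℝ × ℝ) σ := by
    rw [← closedBall_prod_same]
    simp only [Prod.fst_zero, Prod.snd_zero, Real.closedBall_eq_Icc, zero_sub, zero_add]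
  have hsub : Icc (-σ) σ ×ˢ Icc (-σ) σ ⊆ Metric.closedBall (0 : ℝ × ℝ) r :=
    hbox ▸ Metric.closedBall_subset_closedBall hσr
  have hsT : Icc (-σ) σ ×ˢ Icc (-σ) σ ⊆ T := fun p hp => (hb (hsub hp)).2
  refine ⟨hsT, fun θ hθ hθ0 hθs => ?_⟩
  have hdf : ∀ p ∈ T, DifferentiableAt ℝ G p := fun p hp =>
    (hG.contDiffAt (hT.mem_nhds hp)).differentiableAt one_ne_zero
  have hmv : ∀ p ∈ Metric.closedBall (0 : ℝ × ℝ) r, |G p - G 0 - c * p.2| ≤ c / 4 * ‖p‖ := by
    intro p hp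
    have := (convex_closedBall (0 : ℝ × ℝ) r).norm_image_sub_le_of_norm_fderiv_le'
      (fun x hx => hdf x (hb hx).2) (fun x hx => (hb hx).1.1)
      (Metric.mem_closedBall_self hr.le) hp
    simpa [hd] using this
  set D : ℝ × ℝ → ℝ := fun p => fderiv ℝ G p (0, 1) with hD
  have hDc : ContinuousOn D T := hcf.clm_apply continuousOn_const
  have hDle : ∀ p ∈ Metric.closedBall (0 : ℝ × ℝ) r, D p ≤ 2 * c := by
    intro p hp
    have h1 := (fderiv ℝ G p - fderiv ℝ G 0).le_opNorm ((0, 1) : ℝ × ℝ)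
    have h2 : ‖((0, 1) : ℝ × ℝ)‖ = 1 := by simp [Prod.norm_def]
    rw [h2, mul_one] at h1
    have h3 := h1.trans (hb hp).1.1
    simp only [sub_apply, hd, smul_apply,
      ContinuousLinearMap.coe_snd', smul_eq_mul, mul_one, Real.norm_eq_abs] at h3
    have := (abs_le.1 h3).2
    simp only [hD]
    linarith
  have hK : IsCompact (Icc (-σ) σ ×ˢ Icc (-σ) σ) := isCompact_Icc.prod isCompact_Icc
  have hθG : ContinuousOn (fun p => θ (G p)) T := hθ.comp_continuousOn hG.continuousOn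
  have i1 : IntegrableOn (fun p => θ (G p) * D p) (Icc (-σ) σ ×ˢ Icc (-σ) σ) :=
    ((hθG.mul hDc).mono hsT).integrableOn_compact hK
  have i2 : IntegrableOn (fun p => θ (G p) * ρ p) (Icc (-σ) σ ×ˢ Icc (-σ) σ) :=
    ((hθG.mul hρ).mono hsT).integrableOn_compact hK
  have hin : ∀ s ∈ Icc (-σ) σ, ∫ u in Icc (-σ) σ, θ (G (s, u)) * D (s, u) = ∫ t, θ t := by
    intro s hs
    have hle : -σ ≤ σ := by linarith
    have hm : ∀ u ∈ uIcc (-σ) σ, (s, u) ∈ Icc (-σ) σ ×ˢ Icc (-σ) σ := fun u hu =>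
      ⟨hs, by rwa [uIcc_of_le hle] at hu⟩
    have hder : ∀ u ∈ uIcc (-σ) σ, HasDerivAt (fun u => G (s, u)) (D (s, u)) u := by
      intro u hu
      have h1 : HasDerivAt (fun u : ℝ => ((s, u) : ℝ × ℝ)) (0, 1) u :=
        (hasDerivAt_const u s).prodMk (hasDerivAt_id u)
      exact (hdf _ (hsT (hm u hu))).hasFDerivAt.comp_hasDerivAt u h1
    have hco : ContinuousOn (fun u => D (s, u)) (uIcc (-σ) σ) :=
      hDc.comp (Continuous.prodMk_right s).continuousOn fun u hu => hsT (hm u hu)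
    have h1 := intervalIntegral.integral_comp_mul_deriv hder hco hθ
    rw [integral_Icc_eq_integral_Ioc, ← intervalIntegral.integral_of_le hle]
    refine Eq.trans h1 ?_
    have hn1 : ∀ u ∈ Icc (-σ) σ, ‖((s, u) : ℝ × ℝ)‖ ≤ σ := by
      intro u hu
      have : (s, u) ∈ Metric.closedBall (0 : ℝ × ℝ) σ := hbox ▸ ⟨hs, hu⟩
      simpa using this
    have hcs : 0 < c * σ := mul_pos hc hσ
    have a1 := abs_le.1 (hmv (s, σ) (hsub ⟨hs, hle, le_rfl⟩))
    have a2 := abs_le.1 (hmv (s, -σ) (hsub ⟨hs, le_rfl, hle⟩))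
    have b1 := mul_le_mul_of_nonneg_left (hn1 σ ⟨hle, le_rfl⟩) (by positivity : 0 ≤ c / 4)
    have b2 := mul_le_mul_of_nonneg_left (hn1 (-σ) ⟨le_rfl, hle⟩) (by positivity : 0 ≤ c / 4)
    refine intervalIntegral.integral_eq_integral_of_support_subset fun t ht => ?_
    have : |t - G 0| < c * σ / 2 := by
      by_contra h
      exact ht (hθs t (not_lt.1 h))
    have := abs_lt.1 this
    constructor <;> nlinarith [this.1, this.2, a1.1, a2.2]
  have hfub : ∫ p in Icc (-σ) σ ×ˢ Icc (-σ) σ, θ (G p) * D p = 2 * σ * ∫ t, θ t := by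
    rw [Measure.volume_eq_prod] at i1 ⊢
    rw [setIntegral_prod _ i1, setIntegral_congr_fun measurableSet_Icc hin, setIntegral_const]
    simp only [Real.volume_real_Icc, smul_eq_mul]
    rw [max_eq_left (by linarith)]
    ring
  have hcmp : ∫ p in Icc (-σ) σ ×ˢ Icc (-σ) σ, θ (G p) * D p ≤
      ∫ p in Icc (-σ) σ ×ˢ Icc (-σ) σ, 4 * (θ (G p) * ρ p) := by
    refine setIntegral_mono_on i1 (i2.const_mul 4) hK.measurableSet fun p hp => ?_
    have h1 := hDle p (hsub hp)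
    have h2 := (hb (hsub hp)).1.2
    nlinarith [hθ0 (G p)]
  rw [integral_const_mul, hfub] at hcmp
  linarith

/-- the plane as a Euclidean space -/
def kk (p : ℝ × ℝ) : E (Fin 2) := WithLp.toLp 2 ![p.1, p.2]

theorem kk_eq (p : ℝ × ℝ) : kk p = p.1 • ee 0 + p.2 • ee 1 := by
  ext i
  fin_cases i <;> simp [kk]

/-- as a linear map -/
def kL : (ℝ × ℝ) →L[ℝ] E (Fin 2) :=
  (ContinuousLinearMap.fst ℝ ℝ ℝ).smulRight (ee 0) + (ContinuousLinearMap.snd ℝ ℝ ℝ).smulRight (ee 1)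

theorem kL_apply (p : ℝ × ℝ) : kL p = kk p := by
  simp [kL, kk_eq]

theorem kk_emb : MeasurableEmbedding kk :=
  ((MeasurableEquiv.finTwoArrow (α := ℝ)).symm.trans (MeasurableEquiv.toLp 2 _)).measurableEmbedding

theorem kk_mp : MeasurePreserving kk :=
  (PiLp.volume_preserving_toLp (Fin 2)).comp ((volume_preserving_finTwoArrow ℝ).symm _)

theorem norm_kk (p : ℝ × ℝ) : ‖kk p‖ ^ 2 = p.1 ^ 2 + p.2 ^ 2 := by
  rw [EuclideanSpace.real_norm_sq_eq, Fin.sum_univ_two]
  simp [kk]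

variable {X : Type} [TopologicalSpace X]

/-- an isometric chart adapted to a tangent vector -/
theorem exists_chart (M : Imm 2 (Fin 3) X) (q : X) {V : E (Fin 3)} (hV : V ≠ 0)
    (hPV : M.PL q V = V) : ∃ e : OpenPartialHomeomorph X (E (Fin 2)), IsChart M.x e ∧
      q ∈ e.source ∧ e q = 0 ∧ (∀ v, ‖fderiv ℝ (M.x ∘ e.symm) 0 v‖ = ‖v‖) ∧
      jac (fderiv ℝ (M.x ∘ e.symm) 0) = 1 ∧
      ∀ v, ⟪V, fderiv ℝ (M.x ∘ e.symm) 0 v⟫ = ‖V‖ * v 1 := by
  have he := M.isChart q
  have hq := M.mem q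
  set J := fderiv ℝ (M.x ∘ (M.ch q).symm) (M.ch q q) with hJ
  have hinj : Injective J := M.J_inj q
  obtain ⟨b, hb⟩ := Imm.PL_mem_range he hq V
  rw [hPV, ← hJ] at hb
  have hVn : 0 < ‖V‖ := norm_pos_iff.2 hV
  set w0 := ⟪V, J (ee 0)⟫ with hw0
  set w1 := ⟪V, J (ee 1)⟫ with hw1
  have hJs : ∀ v : E (Fin 2), J v = v 0 • J (ee 0) + v 1 • J (ee 1) := by
    intro v
    conv_lhs => rw [eq_sum_ee v]
    simp [Fin.sum_univ_two]
  set a : E (Fin 2) := kk (-w1, w0) with ha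
  have ha0 : a ≠ 0 := by
    intro h
    have h0 : a 0 = 0 := by rw [h]; rfl
    have h1 : a 1 = 0 := by rw [h]; rfl
    simp only [ha, kk, Matrix.cons_val_zero, neg_eq_zero, Matrix.cons_val_one] at h0 h1
    have h2 : ⟪V, J b⟫ = 0 := by
      rw [hJs, inner_add_right, inner_smul_right, inner_smul_right, ← hw0, ← hw1, h0, h1]
      ring
    rw [hb] at h2
    exact hV (inner_self_eq_zero.1 h2)
  have hVa : ⟪V, J a⟫ = 0 := by
    rw [hJs, inner_add_right, inner_smul_right, inner_smul_right, ← hw0, ← hw1]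
    simp only [ha, kk, Matrix.cons_val_zero, Matrix.cons_val_one]
    ring
  have hJa : 0 < ‖J a‖ := norm_pos_iff.2 fun h => ha0 ((injective_iff_map_eq_zero _).1 hinj a h)
  set L : E (Fin 2) →L[ℝ] E (Fin 2) :=
    (EuclideanSpace.proj (0 : Fin 2) : E (Fin 2) →L[ℝ] ℝ).smulRight (‖J a‖⁻¹ • a) +
      (EuclideanSpace.proj (1 : Fin 2) : E (Fin 2) →L[ℝ] ℝ).smulRight (‖V‖⁻¹ • b) with hL
  have hJL : ∀ v : E (Fin 2), J (L v) = (v 0 * ‖J a‖⁻¹) • J a + (v 1 * ‖V‖⁻¹) • V := by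
    intro v
    simp [hL, hb, smul_smul]
  have hip : ∀ v w : E (Fin 2), ⟪J (L v), J (L w)⟫ = ⟪v, w⟫ := by
    intro v w
    have hVa' : ⟪J a, V⟫ = 0 := by rw [real_inner_comm, hVa]
    rw [hJL, hJL]
    simp only [inner_add_left, inner_add_right, real_inner_smul_left, real_inner_smul_right, hVa,
      hVa', real_inner_self_eq_norm_sq]
    rw [PiLp.inner_apply, Fin.sum_univ_two]
    simp only [RCLike.inner_apply, conj_trivial]
    field_simp
    ring
  have hno : ∀ v : E (Fin 2), ‖J (L v)‖ = ‖v‖ := by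
    intro v
    rw [norm_eq_sqrt_real_inner, hip, ← norm_eq_sqrt_real_inner]
  have hLi : Injective L := by
    refine (injective_iff_map_eq_zero _).2 fun v hv => ?_
    have := hno v
    rw [hv, map_zero, norm_zero] at this
    exact norm_eq_zero.1 this.symm
  let Le : E (Fin 2) ≃L[ℝ] E (Fin 2) :=
    (LinearEquiv.ofInjectiveEndo (L : E (Fin 2) →ₗ[ℝ] E (Fin 2)) hLi).toContinuousLinearEquiv
  have hLe : ∀ v, Le v = L v := fun v => rfl
  let h : E (Fin 2) ≃ₜ E (Fin 2) := (Homeomorph.subRight (M.ch q q)).trans Le.symm.toHomeomorph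
  have hh : ∀ z, h z = Le.symm (z - M.ch q q) := fun z => rfl
  have hh' : ∀ z, h.symm z = L z + M.ch q q := fun z => rfl
  have hfd : fderiv ℝ (M.x ∘ ((M.ch q).trans h.toOpenPartialHomeomorph).symm) 0 = J ∘L L := by
    have h1 : M.x ∘ ((M.ch q).trans h.toOpenPartialHomeomorph).symm =
        (M.x ∘ (M.ch q).symm) ∘ fun z => L z + M.ch q q := rfl
    have h2 : HasFDerivAt (fun z => L z + M.ch q q) L 0 := L.hasFDerivAt.add_const _
    have h3 : HasFDerivAt (M.x ∘ (M.ch q).symm) J (L 0 + M.ch q q) := by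
      rw [map_zero, zero_add]
      exact (M.sm_x.diffAt q).hasFDerivAt
    rw [h1]
    exact (h3.comp 0 h2).fderiv
  refine ⟨(M.ch q).trans h.toOpenPartialHomeomorph, he.trans _ ?_ ?_, ?_, ?_, ?_, ?_, ?_⟩
  · exact (Le.symm.contDiff.comp (contDiff_id.sub contDiff_const)).contDiffOn
  · exact (L.contDiff.add contDiff_const).contDiffOn
  · simpa using hq
  · show h (M.ch q q) = 0
    rw [hh, sub_self, map_zero]
  · intro v
    rw [hfd]
    exact hno v
  · rw [hfd, jac]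
    have : ContinuousLinearMap.adjoint (J ∘L L) ∘L (J ∘L L) = 1 := by
      ext1 v
      refine ext_inner_left ℝ fun w => ?_
      rw [ContinuousLinearMap.comp_apply, ContinuousLinearMap.adjoint_inner_right]
      exact hip w v
    rw [this]
    simp [ContinuousLinearMap.det]
  · intro v
    rw [hfd, ContinuousLinearMap.comp_apply, hJL, inner_add_right, real_inner_smul_right,
      real_inner_smul_right, hVa, real_inner_self_eq_norm_sq]
    field_simp
    ring

end Lv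

open Lv in
theorem lvS : LvS := by
  intro X _ _ _ _ _ _ M f hf q hq U hU
  obtain ⟨e, he, hqe, he0, hiso, hjac, hV⟩ := exists_chart M q hq (Imm.PL_grad f q)
  set c := ‖M.grad f q‖ with hc
  have hc0 : 0 < c := norm_pos_iff.2 hq
  have h0t : (0 : E (Fin 2)) ∈ e.target := he0 ▸ e.map_source hqe
  have hs0 : e.symm 0 = q := he0 ▸ e.left_inv hqe
  have hk0 : kk 0 = 0 := by rw [← kL_apply, map_zero]
  have hkc : Continuous kk := by
    rw [← funext kL_apply]
    exact kL.continuous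
  have hT : IsOpen (kk ⁻¹' e.target) := e.open_target.preimage hkc
  have h0T : (0 : ℝ × ℝ) ∈ kk ⁻¹' e.target := by rw [mem_preimage, hk0]; exact h0t
  have hfc := hf.chart he
  have hG : ContDiffOn ℝ 1 (fun p => f (e.symm (kk p))) (kk ⁻¹' e.target) := by
    have := (hfc.of_le (m := 1) (by simp)).comp kL.contDiff.contDiffOn
      (s := kk ⁻¹' e.target) fun p hp => by rwa [kL_apply]
    exact this.congr fun p _ => by simp [kL_apply]
  have hρ : ContinuousOn (fun p => jac (fderiv ℝ (M.x ∘ e.symm) (kk p)) *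
      ‖M.grad f (e.symm (kk p))‖) (kk ⁻¹' e.target) :=
    ((Imm.continuousOn_jac he).mul (hf.grad.continuous.norm.comp_continuousOn
      e.continuousOn_symm)).comp hkc.continuousOn fun p hp => hp
  have hd : fderiv ℝ (fun p => f (e.symm (kk p))) 0 = c • ContinuousLinearMap.snd ℝ ℝ ℝ := by
    have h1 : HasFDerivAt (f ∘ e.symm) (fderiv ℝ (f ∘ e.symm) 0) (kL 0) := by
      rw [map_zero]
      exact ((hfc.contDiffAt (e.open_target.mem_nhds h0t)).differentiableAt (by simp)).hasFDerivAt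
    have h2 := (h1.comp 0 kL.hasFDerivAt).fderiv
    have h3 : (fun p => f (e.symm (kk p))) = (f ∘ e.symm) ∘ kL := by
      funext p
      simp [kL_apply]
    have h4 := Imm.fderiv_chart f he hqe
    rw [he0] at h4
    rw [h3, h2, h4]
    ext1
    · ext
      simp [Imm.td_eq_inner, hV, kL_apply, kk]
    · ext
      simp [Imm.td_eq_inner, hV, kL_apply, kk]
  obtain ⟨r, hr, hpl⟩ := plane hT h0T hG hρ hc0 hd (by simp [hk0, hjac, hs0, hc])
  -- the size of the box in space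
  have hY : HasFDerivAt (M.x ∘ e.symm) (fderiv ℝ (M.x ∘ e.symm) 0) 0 :=
    ((he.sm.contDiffAt (e.open_target.mem_nhds h0t)).differentiableAt (by simp)).hasFDerivAt
  have e1 : ∀ᶠ z in 𝓝 (0 : E (Fin 2)), ‖M.x (e.symm z) - M.x q‖ ≤ 4 / 3 * ‖z‖ := by
    filter_upwards [(hasFDerivAt_iff_isLittleO_nhds_zero.1 hY).bound
      (by norm_num : (0 : ℝ) < 1 / 3)] with z hz
    simp only [zero_add, comp_apply, hs0] at hz
    have h1 := norm_sub_norm_le (M.x (e.symm z) - M.x q) (fderiv ℝ (M.x ∘ e.symm) 0 z)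
    rw [hiso] at h1
    linarith
  have e2 : ∀ᶠ z in 𝓝 (0 : E (Fin 2)), e.symm z ∈ U := by
    have := e.continuousAt_symm h0t
    rw [ContinuousAt, hs0] at this
    exact this.eventually hU
  obtain ⟨r', hr', hb⟩ := Metric.nhds_basis_closedBall.eventually_iff.1 (e1.and e2)
  set σ := min r (r' / 2) with hσ
  have hσ0 : 0 < σ := lt_min hr (by positivity)
  obtain ⟨hsT, hint⟩ := hpl σ hσ0 (min_le_left _ _)
  have hK : IsCompact (Icc (-σ) σ ×ˢ Icc (-σ) σ) := isCompact_Icc.prod isCompact_Icc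
  have hnk : ∀ p ∈ Icc (-σ) σ ×ˢ Icc (-σ) σ, ‖kk p‖ ≤ 3 / 2 * σ := by
    intro p hp
    refine abs_le_of_sq_le_sq' ?_ (by positivity) |>.2
    rw [norm_kk]
    nlinarith [hp.1.1, hp.1.2, hp.2.1, hp.2.2, sq_nonneg σ]
  have hbk : ∀ p ∈ Icc (-σ) σ ×ˢ Icc (-σ) σ, kk p ∈ Metric.closedBall (0 : E (Fin 2)) r' := by
    intro p hp
    have h1 := hnk p hp
    have h2 : σ ≤ r' / 2 := min_le_right _ _
    rw [mem_closedBall_zero_iff]
    linarith
  have hBt : kk '' (Icc (-σ) σ ×ˢ Icc (-σ) σ) ⊆ e.target := image_subset_iff.2 hsT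
  have hKB := hK.image hkc
  have hKN : IsCompact (e.symm '' (kk '' (Icc (-σ) σ ×ˢ Icc (-σ) σ))) :=
    hKB.image_of_continuousOn (e.continuousOn_symm.mono hBt)
  refine ⟨2 * σ, by positivity, c * σ / 2, by positivity,
    e.symm '' (kk '' (Icc (-σ) σ ×ˢ Icc (-σ) σ)), hKN.measurableSet, ?_, ?_, ?_⟩
  · rintro _ ⟨_, ⟨p, hp, rfl⟩, rfl⟩
    exact (hb (hbk p hp)).2
  · rintro _ ⟨_, ⟨p, hp, rfl⟩, rfl⟩
    have h1 := (hb (hbk p hp)).1
    have h2 := hnk p hp
    linarith
  intro θ hθ hθ0 hθs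
  have h1 := hint θ hθ hθ0 (by simpa [hk0, hs0] using hθs)
  have hNs : e.symm '' (kk '' (Icc (-σ) σ ×ˢ Icc (-σ) σ)) ⊆ e.source := by
    rintro _ ⟨z, hz, rfl⟩
    exact e.map_target (hBt hz)
  have h2 : ∫ p in e.symm '' (kk '' (Icc (-σ) σ ×ˢ Icc (-σ) σ)),
      θ (f p) * ‖M.grad f p‖ ∂M.mu = ∫ z in kk '' (Icc (-σ) σ ×ˢ Icc (-σ) σ),
        θ (f (e.symm z)) * (jac (fderiv ℝ (M.x ∘ e.symm) z) * ‖M.grad f (e.symm z)‖) := by
    rw [← integral_indicator hKN.measurableSet, Imm.integral_chart he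
      (support_indicator_subset.trans hNs), ← inter_eq_right.2 hBt,
      ← setIntegral_indicator hKB.measurableSet, inter_eq_right.2 hBt]
    refine setIntegral_congr_fun e.open_target.measurableSet fun z hz => ?_
    by_cases hzB : z ∈ kk '' (Icc (-σ) σ ×ˢ Icc (-σ) σ)
    · rw [indicator_of_mem hzB, indicator_of_mem (mem_image_of_mem _ hzB), smul_eq_mul]
      ring
    · rw [indicator_of_notMem hzB, indicator_of_notMem, smul_zero]
      rintro ⟨w, hw, hwz⟩
      exact hzB (e.symm.injOn (hBt hw) hz hwz ▸ hw)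
  rw [h2, kk_mp.setIntegral_image_emb kk_emb]
  have h3 : 0 ≤ σ * ∫ s, θ s := mul_nonneg hσ0.le (integral_nonneg hθ0)
  linarith

end Crest.Agent.N250.GB

end
end

-- ▼ part N250/GB/Bl
section

/-!
Row 250, local Gauss-Bonnet, leaf G2 (helper58): concentration at the critical points.
-/

set_option autoImplicit false
set_option linter.unusedSectionVars false
open MeasureTheory Set Filter Topology Function
open scoped ContDiff InnerProductSpace RealInnerProductSpace

noncomputable section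

namespace Crest.Agent.N250.GB

open Crest.Agent.N222

namespace Bl

theorem exists_iso {J : E (Fin 2) →L[ℝ] E (Fin 3)} (hJ : Injective J) :
    ∃ (U : E (Fin 2) →L[ℝ] E (Fin 3)) (J' : E (Fin 2) →L[ℝ] E (Fin 2)),
      (∀ x, ‖U x‖ = ‖x‖) ∧ J = U ∘L J' ∧ Surjective J' := by
  set R : Submodule ℝ (E (Fin 3)) := LinearMap.range (J : E (Fin 2) →ₗ[ℝ] E (Fin 3)) with hR
  have hr : Module.finrank ℝ R = 2 := by
    rw [hR, LinearMap.finrank_range_of_inj hJ]
    simp
  let φ : R ≃ₗᵢ[ℝ] E (Fin 2) := ((stdOrthonormalBasis ℝ R).reindex (finCongr hr)).repr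
  refine ⟨R.subtypeL ∘L (φ.symm : E (Fin 2) →L[ℝ] R),
    (φ : R →L[ℝ] E (Fin 2)) ∘L J.codRestrict R (fun x => ⟨x, rfl⟩), fun x => ?_, ?_, fun y => ?_⟩
  · exact φ.symm.norm_map x
  · ext1 x
    exact (congrArg Subtype.val (φ.symm_apply_apply (J.codRestrict R (fun x => ⟨x, rfl⟩) x))).symm
  · obtain ⟨x, hx⟩ := (φ.symm y).2
    refine ⟨x, ?_⟩
    have : J.codRestrict R (fun x => ⟨x, rfl⟩) x = φ.symm y := Subtype.ext hx
    simp [this]

theorem jac_iso {U : E (Fin 2) →L[ℝ] E (Fin 3)} (hU : ∀ x, ‖U x‖ = ‖x‖)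
    (T : E (Fin 2) →L[ℝ] E (Fin 2)) : jac (U ∘L T) = |T.det| := by
  rw [jac_comp, jac, U.norm_map_iff_adjoint_comp_self.1 hU]
  simp [ContinuousLinearMap.det]

theorem det_two (T : E (Fin 2) →L[ℝ] E (Fin 2)) :
    T.det = T (ee 0) 0 * T (ee 1) 1 - T (ee 1) 0 * T (ee 0) 1 := by
  rw [ContinuousLinearMap.det, ← LinearMap.det_toMatrix (EuclideanSpace.basisFun (Fin 2) ℝ).toBasis,
    Matrix.det_fin_two]
  simp [LinearMap.toMatrix_apply]

theorem int_lin {T : E (Fin 2) →L[ℝ] E (Fin 2)} (h : T.det ≠ 0) {g : E (Fin 2) → ℝ}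
    (hg : Continuous g) : ∫ y, g (T y) = |T.det|⁻¹ * ∫ y, g y := by
  have h1 := Measure.map_linearMap_addHaar_eq_smul_addHaar (volume : Measure (E (Fin 2)))
    (f := (T : E (Fin 2) →ₗ[ℝ] E (Fin 2))) h
  have h2 := integral_map (μ := (volume : Measure (E (Fin 2)))) (φ := T) (f := g)
    T.continuous.aemeasurable hg.aestronglyMeasurable
  rw [← h2]
  change ∫ y, g y ∂(Measure.map (T : E (Fin 2) →ₗ[ℝ] E (Fin 2)) volume) = _
  rw [h1, integral_smul_measure, ENNReal.toReal_ofReal (abs_nonneg _), abs_inv, smul_eq_mul]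

theorem cont_ker : Continuous fun y : E (Fin 2) => ((‖y‖ ^ 2 + 1) ^ 2)⁻¹ :=
  Continuous.inv₀ (by fun_prop) fun y => by positivity

theorem int_ker : Integrable fun y : E (Fin 2) => ((‖y‖ ^ 2 + 1) ^ 2)⁻¹ := by
  have h := integrable_rpow_neg_one_add_norm_sq (E := E (Fin 2)) (μ := volume) (r := 4)
    (by simp; norm_num)
  refine h.congr (Eventually.of_forall fun y => ?_)
  have : (-4 / 2 : ℝ) = -((2 : ℕ) : ℝ) := by norm_num
  simp only
  rw [this, Real.rpow_neg (by positivity), Real.rpow_natCast, add_comm]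

theorem kap_pos : 0 < kap := by
  refine mul_pos two_pos (integral_pos_of_integrable_nonneg_nonzero (x := 0) cont_ker int_ker
    (fun y => by positivity) (by simp))

theorem lower {G : E (Fin 2) → E (Fin 3)} {K : Set (E (Fin 2))} (hK : IsCompact K)
    {z₀ : E (Fin 2)} {T : E (Fin 2) →L[ℝ] E (Fin 3)} (hG : ContinuousOn G K) (h0 : G z₀ = 0)
    (hT : HasFDerivAt G T z₀) (hinj : Injective T) (hne : ∀ z ∈ K, z ≠ z₀ → G z ≠ 0) :
    ∃ c : ℝ, 0 < c ∧ ∀ z ∈ K, ‖z - z₀‖ ≤ c * ‖G z‖ := by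
  obtain ⟨k, hk, hA⟩ := (T : E (Fin 2) →ₗ[ℝ] E (Fin 3)).exists_antilipschitzWith
    (LinearMap.ker_eq_bot.2 hinj)
  have hk' : (0 : ℝ) < k := hk
  have hA' : ∀ y, ‖y‖ ≤ k * ‖T y‖ := fun y => by
    simpa using hA.le_mul_dist y 0
  obtain ⟨δ, hδ, hb⟩ := Metric.eventually_nhds_iff_ball.1
    (hT.isLittleO.bound (c := 1 / (2 * k)) (by positivity))
  have hK' : IsCompact (K \ Metric.ball z₀ δ) := hK.diff Metric.isOpen_ball
  have hne' : ∀ z ∈ K \ Metric.ball z₀ δ, ‖G z‖ ≠ 0 := fun z hz =>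
    norm_ne_zero_iff.2 (hne z hz.1 fun h => hz.2 (h ▸ Metric.mem_ball_self hδ))
  obtain ⟨B, hB⟩ := hK'.exists_bound_of_continuousOn (f := fun z => ‖z - z₀‖ / ‖G z‖)
    (ContinuousOn.div (by fun_prop) (hG.mono sdiff_subset).norm hne')
  refine ⟨2 * k + |B|, by positivity, fun z hz => ?_⟩
  by_cases hz' : z ∈ Metric.ball z₀ δ
  · have h1 := hb z hz'
    rw [h0, sub_zero] at h1
    have h2 : ‖T (z - z₀)‖ ≤ ‖G z‖ + ‖G z - T (z - z₀)‖ := by
      calc ‖T (z - z₀)‖ = ‖G z - (G z - T (z - z₀))‖ := by congr 1; abel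
        _ ≤ _ := norm_sub_le _ _
    have h3 := hA' (z - z₀)
    have h4 : k * (1 / (2 * k) * ‖z - z₀‖) = ‖z - z₀‖ / 2 := by field_simp
    have h5 : (k : ℝ) * ‖T (z - z₀)‖ ≤ k * (‖G z‖ + 1 / (2 * k) * ‖z - z₀‖) := by
      gcongr
      linarith
    have h6 := mul_nonneg (abs_nonneg B) (norm_nonneg (G z))
    nlinarith
  · have h1 := hB z ⟨hz, hz'⟩
    have h2 : 0 < ‖G z‖ := (norm_nonneg _).lt_of_ne' (hne' z ⟨hz, hz'⟩)
    rw [Real.norm_eq_abs, abs_of_nonneg (by positivity), div_le_iff₀ h2] at h1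
    have h3 := le_abs_self B
    nlinarith

theorem blow {G : E (Fin 2) → E (Fin 3)} {w : E (Fin 2) → ℝ} {O : Set (E (Fin 2))}
    (hO : IsOpen O) (hw : Continuous w) (hc : HasCompactSupport w) (hs : tsupport w ⊆ O)
    {z₀ : E (Fin 2)} {T : E (Fin 2) →L[ℝ] E (Fin 3)} (hG : ContinuousOn G O) (h0 : G z₀ = 0)
    (hT : HasFDerivAt G T z₀) (hinj : Injective T) (hne : ∀ z ∈ tsupport w, z ≠ z₀ → G z ≠ 0) :
    Tendsto (fun ε : ℝ => ∫ z, w z * (ε ^ 2 / (‖G z‖ ^ 2 + ε ^ 2) ^ 2)) (𝓝[>] 0)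
      (𝓝 (w z₀ * ∫ y, ((‖T y‖ ^ 2 + 1) ^ 2)⁻¹)) := by
  obtain ⟨c, hc0, hl⟩ := lower hc.isCompact (hG.mono hs) h0 hT hinj hne
  obtain ⟨B, hB⟩ := hw.bounded_above_of_compact_support hc
  let g : ℝ → E (Fin 2) → ℝ := fun ε z => w z * (ε ^ 2 / (‖G z‖ ^ 2 + ε ^ 2) ^ 2)
  let F : ℝ → E (Fin 2) → ℝ := fun ε y =>
    w (z₀ + ε • y) * ((‖ε⁻¹ • (G (z₀ + ε • y) - G z₀)‖ ^ 2 + 1) ^ 2)⁻¹
  have hFg : ∀ ε : ℝ, 0 < ε → ∀ y, F ε y = ε ^ 2 * g ε (z₀ + ε • y) := by
    intro ε hε y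
    simp only [F, g, h0, sub_zero, norm_smul, norm_inv, Real.norm_eq_abs, abs_of_pos hε]
    field_simp
  have hgc : ∀ ε : ℝ, 0 < ε → Continuous (g ε) := by
    intro ε hε
    refine ContinuousOn.continuous_of_tsupport_subset (s := O) ?_ hO
      (tsupport_mul_subset_left.trans hs)
    refine hw.continuousOn.mul (continuousOn_const.div (((hG.norm.pow 2).add
      continuousOn_const).pow 2) fun z _ => by positivity)
  have hint : ∀ ε : ℝ, 0 < ε → ∫ z, g ε z = ∫ y, F ε y := by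
    intro ε hε
    simp only [hFg ε hε]
    rw [integral_const_mul, Measure.integral_comp_smul volume (fun z => g ε (z₀ + z)) ε,
      integral_add_left_eq_self]
    simp only [finrank_euclideanSpace, Fintype.card_fin, smul_eq_mul]
    rw [abs_of_pos (by positivity)]
    field_simp
  rw [← integral_const_mul]
  refine Tendsto.congr' (f₁ := fun ε => ∫ y, F ε y) ?_ ?_
  · filter_upwards [self_mem_nhdsWithin] with ε hε using (hint ε hε).symm
  refine tendsto_integral_filter_of_dominated_convergence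
    (fun y => B * ((‖c⁻¹ • y‖ ^ 2 + 1) ^ 2)⁻¹) ?_ ?_ ?_ ?_
  · filter_upwards [self_mem_nhdsWithin] with ε hε
    have : F ε = fun y => ε ^ 2 * g ε (z₀ + ε • y) := funext (hFg ε hε)
    rw [this]
    exact (continuous_const.mul ((hgc ε hε).comp (by fun_prop))).aestronglyMeasurable
  · filter_upwards [self_mem_nhdsWithin] with ε hε
    have hε' : 0 < ε := hε
    refine Eventually.of_forall fun y => ?_
    have hB0 : 0 ≤ B := (norm_nonneg _).trans (hB 0)
    by_cases hz : z₀ + ε • y ∈ tsupport w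
    · have h1 := hl _ hz
      rw [add_sub_cancel_left, norm_smul, Real.norm_eq_abs, abs_of_pos hε'] at h1
      have h2 : ‖c⁻¹ • y‖ ≤ ‖ε⁻¹ • (G (z₀ + ε • y) - G z₀)‖ := by
        rw [h0, sub_zero, norm_smul, norm_smul, norm_inv, norm_inv, Real.norm_eq_abs,
          Real.norm_eq_abs, abs_of_pos hε', abs_of_pos hc0, inv_mul_eq_div, inv_mul_eq_div,
          div_le_div_iff₀ hc0 hε']
        linarith
      simp only [F]
      rw [norm_mul, Real.norm_of_nonneg (r := _⁻¹) (by positivity)]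
      gcongr
      exact hB _
    · simp only [F]
      rw [image_eq_zero_of_notMem_tsupport hz, zero_mul, norm_zero]
      positivity
  · exact (int_ker.comp_smul (inv_ne_zero hc0.ne')).const_mul B
  · refine Eventually.of_forall fun y => ?_
    have h1 := (hT.hasLineDerivAt y).tendsto_slope_zero_right
    have h2 : Tendsto (fun ε : ℝ => w (z₀ + ε • y)) (𝓝[>] 0) (𝓝 (w z₀)) := by
      have : Continuous fun ε : ℝ => w (z₀ + ε • y) := by fun_prop
      simpa using (this.tendsto 0).mono_left nhdsWithin_le_nhds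
    exact h2.mul ((((h1.norm.pow 2).add_const 1).pow 2).inv₀ (by positivity))

section Geo

variable {X : Type} [TopologicalSpace X] {M : Imm 2 (Fin 3) X} {f : X → ℝ} {p : X}

theorem td_grad (hf : M.Sm f) (h0 : M.grad f p = 0) (w : E (Fin 3)) (c : Fin 3) :
    M.td (M.grad f) p w c = ∑ a, w a * M.pre.hess f a c p := by
  have h := Imm.td_comp (hf.grad.diffAt p) (g := EuclideanSpace.proj (𝕜 := ℝ) c)
    (EuclideanSpace.proj (𝕜 := ℝ) c).differentiableAt
  rw [ContinuousLinearMap.fderiv] at h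
  have h1 : M.td (M.grad f) p w c = M.td (M.pre.D c f) p w :=
    (congrArg (fun T : E (Fin 3) →L[ℝ] ℝ => T w) h).symm
  rw [h1, Imm.td_apply]
  refine Finset.sum_congr rfl fun a _ => ?_
  have h2 : ∀ c, M.pre.D c f p = 0 := fun c => congrArg (fun v : E (Fin 3) => v c) h0
  rw [Imm.DD hf]
  simp [h2]

/-- the linearised gradient at a critical point -/
theorem lin (hf : M.Sm f) (h0 : M.grad f p = 0) (hd : dS M f p ≠ 0) :
    Injective (M.td (M.grad f) p ∘L M.J p) ∧
    jac (M.J p) * dS M f p * ∫ y, ((‖(M.td (M.grad f) p ∘L M.J p) y‖ ^ 2 + 1) ^ 2)⁻¹ =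
      kap * sg M f p := by
  obtain ⟨U, J', hU, hJ, hsurj⟩ := exists_iso (M.J_inj p)
  have hUU := U.norm_map_iff_adjoint_comp_self.1 hU
  have hUi := U.inner_map_map_iff_adjoint_comp_self.2 hUU
  have hPL : ∀ w, M.PL p w = U (ContinuousLinearMap.adjoint U w) := by
    intro w
    obtain ⟨u, hu⟩ := hsurj (ContinuousLinearMap.adjoint U w)
    have h1 : M.J p u = U (ContinuousLinearMap.adjoint U w) := by rw [hJ]; simp [hu]
    rw [Imm.PL_eq, adj_Lam_eq_of (M.J_inj p) (u := u), h1]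
    intro v
    rw [h1, hJ, ContinuousLinearMap.comp_apply, inner_sub_right, hUi,
      ContinuousLinearMap.adjoint_inner_right, sub_self]
  set S := M.td (M.grad f) p with hS
  have hSc : ∀ w c, S w c = ∑ a, w a * M.pre.hess f a c p := td_grad hf h0
  have hsym : ∀ w w', ⟪S w, w'⟫ = ⟪w, S w'⟫ := by
    intro w w'
    simp only [PiLp.inner_apply, hSc, Fin.sum_univ_three, RCLike.inner_apply, conj_trivial,
      Imm.hess_symm hf 1 0, Imm.hess_symm hf 2 0, Imm.hess_symm hf 2 1]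
    ring
  have hSP : ∀ w, S (M.PL p w) = S w := Imm.td_PL _ _
  have hPS : ∀ w, M.PL p (S w) = S w := fun w => by
    refine ext_inner_right ℝ fun w' => ?_
    rw [M.PL_symm, hsym, hSP, hsym]
  set S' := ContinuousLinearMap.adjoint U ∘L S ∘L U with hS'
  have hSU : ∀ y, S (U y) = U (S' y) := fun y => by rw [← hPS, hPL]; rfl
  have hT : S ∘L M.J p = U ∘L (S' ∘L J') := by
    ext1 y
    rw [hJ]
    simp [hSU]
  have hadj : ∀ a i, ContinuousLinearMap.adjoint U (ee a) i = U (ee i) a := by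
    intro a i
    have := ContinuousLinearMap.adjoint_inner_right U (ee i) (ee a)
    simpa [EuclideanSpace.inner_single_left, EuclideanSpace.inner_single_right] using this
  have hh : ∀ a b, M.pre.hess f a b p =
      U (ee 0) a * (S' (ee 0) 0 * U (ee 0) b + S' (ee 0) 1 * U (ee 1) b) +
      U (ee 1) a * (S' (ee 1) 0 * U (ee 0) b + S' (ee 1) 1 * U (ee 1) b) := by
    intro a b
    have h1 : S (ee a) b = M.pre.hess f a b p := by
      rw [hSc]
      simp
    rw [← h1, ← hSP, hPL, hSU, eq_sum_ee (ContinuousLinearMap.adjoint U (ee a))]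
    simp only [Fin.sum_univ_two, map_add, map_smul, hadj]
    rw [eq_sum_ee (S' (ee 0)), eq_sum_ee (S' (ee 1))]
    simp [Fin.sum_univ_two]
    ring
  have hs01 : S' (ee 1) 0 = S' (ee 0) 1 := by
    have h1 := hsym (U (ee 1)) (U (ee 0))
    rw [hSU, hSU, hUi, hUi] at h1
    simpa [EuclideanSpace.inner_single_left, EuclideanSpace.inner_single_right] using h1
  have h00 := hUi (ee 0) (ee 0)
  have h01 := hUi (ee 0) (ee 1)
  have h11 := hUi (ee 1) (ee 1)
  rw [PiLp.inner_apply] at h00 h01 h11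
  simp only [Fin.sum_univ_three, RCLike.inner_apply, conj_trivial,
    EuclideanSpace.inner_single_left, map_one, one_mul, PiLp.single_apply] at h00 h01 h11
  norm_num at h00 h01 h11
  have hdS : dS M f p = 2 * S'.det := by
    rw [dS, ← Imm.tr_hess hf, det_two, hs01]
    simp only [hh, Fin.sum_univ_three, hs01]
    set s0 := S' (ee 0) 0
    set s1 := S' (ee 0) 1
    set s2 := S' (ee 1) 1
    set u0 := U (ee 0) 0
    set u1 := U (ee 0) 1
    set u2 := U (ee 0) 2
    set v0 := U (ee 1) 0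
    set v1 := U (ee 1) 1
    set v2 := U (ee 1) 2
    have e : ∀ A B C : ℝ, A = u0 * u0 + u1 * u1 + u2 * u2 → B = v0 * u0 + v1 * u1 + v2 * u2 →
        C = v0 * v0 + v1 * v1 + v2 * v2 → A = 1 → B = 0 → C = 1 →
        2 * (s0 * s2 - s1 * s1) * (A * C - B ^ 2) = 2 * (s0 * s2 - s1 * s1) := by
      rintro A B C - - - rfl rfl rfl
      ring
    rw [← e _ _ _ rfl rfl rfl h00 h01 h11]
    ring
  have hS0 : S'.det ≠ 0 := fun h => hd (by rw [hdS, h, mul_zero])
  have hJ0 : 0 < |J'.det| := by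
    rw [← jac_iso hU, ← hJ]
    exact jac_pos (M.J_inj p)
  have hdet : (S' ∘L J').det = S'.det * J'.det := by
    simp [ContinuousLinearMap.det]
  have hdet0 : (S' ∘L J').det ≠ 0 := by
    rw [hdet]
    exact mul_ne_zero hS0 (abs_pos.1 hJ0)
  constructor
  · rw [hT]
    have h1 : Injective U := fun a b h => by
      rw [← sub_eq_zero, ← norm_eq_zero, ← hU, map_sub, h, sub_self, norm_zero]
    have h2 : Injective (S' ∘L J') := by
      have := (LinearMap.equivOfDetNeZero (S' ∘L J' : E (Fin 2) →L[ℝ] E (Fin 2)).toLinearMap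
        hdet0).injective
      exact this
    exact h1.comp h2
  · have h1 : ∀ y, ‖(S ∘L M.J p) y‖ = ‖(S' ∘L J') y‖ := fun y => by
      rw [hT, ContinuousLinearMap.comp_apply, hU]
    simp only [h1]
    rw [int_lin hdet0 cont_ker, hdet, abs_mul, kap, sg, hdS]
    have h2 : jac (M.J p) = |J'.det| := by rw [← jac_iso hU, ← hJ]
    rw [h2]
    split_ifs with h
    · rw [abs_of_pos (by linarith : 0 < S'.det)]
      field_simp
    · rw [abs_of_neg (lt_of_le_of_ne (by linarith) hS0)]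
      field_simp

end Geo

section Glob

variable {X : Type} [TopologicalSpace X] [T2Space X] [CompactSpace X] [SecondCountableTopology X]
  [MeasurableSpace X] [BorelSpace X] {M : Imm 2 (Fin 3) X} {f : X → ℝ} {C : Finset X}

theorem cont_dS (hf : M.Sm f) : Continuous (dS M f) := by
  unfold dS
  refine (hf.lap.continuous.pow 2).sub (continuous_finsetSum _ fun a _ =>
    continuous_finsetSum _ fun b _ => (hf.hess a b).continuous.pow 2)

/-- the statement for one test function -/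
def Q (M : Imm 2 (Fin 3) X) (f : X → ℝ) (C : Finset X) (φ : X → ℝ) : Prop :=
  Tendsto (fun ε : ℝ => ∫ p, φ p * dS M f p * (ε ^ 2 / (‖M.grad f p‖ ^ 2 + ε ^ 2) ^ 2) ∂M.mu)
    (𝓝[>] 0) (𝓝 (kap * ∑ p ∈ C, sg M f p * φ p))

theorem Q_reg (hf : Morse M f C) {φ : X → ℝ} (hφ : Continuous φ)
    (hs : ∀ p ∈ tsupport φ, p ∉ C) : Q M f C φ := by
  have h0 : ∑ p ∈ C, sg M f p * φ p = 0 := Finset.sum_eq_zero fun p hp => by
    rw [image_eq_zero_of_notMem_tsupport (fun h => hs p h hp), mul_zero]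
  have hK : IsCompact (tsupport φ) := (isClosed_tsupport φ).isCompact
  have hne : ∀ p ∈ tsupport φ, ‖M.grad f p‖ ^ 4 ≠ 0 := fun p hp =>
    pow_ne_zero _ (norm_ne_zero_iff.2 fun h => hs p hp ((hf.crit p).2 h))
  obtain ⟨B, hB⟩ := hK.exists_bound_of_continuousOn
    (f := fun p => φ p * dS M f p / ‖M.grad f p‖ ^ 4)
    ((hφ.mul (cont_dS hf.sm)).continuousOn.div
      (hf.sm.grad.continuous.norm.pow 4).continuousOn hne)
  unfold Q
  rw [h0, mul_zero]
  have hl : Tendsto (fun ε : ℝ => |B| * ε ^ 2 * M.mu.real univ) (𝓝[>] 0) (𝓝 0) := by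
    have : Continuous fun ε : ℝ => |B| * ε ^ 2 * M.mu.real univ := by fun_prop
    simpa using (this.tendsto 0).mono_left nhdsWithin_le_nhds
  refine squeeze_zero_norm (fun ε => ?_) hl
  refine norm_integral_le_of_norm_le_const (Eventually.of_forall fun p => ?_)
  by_cases hp : p ∈ tsupport φ
  · have h1 := (hB p hp).trans (le_abs_self B)
    have h2 : 0 < ‖M.grad f p‖ ^ 4 := lt_of_le_of_ne (by positivity) (hne p hp).symm
    rw [norm_div, Real.norm_of_nonneg h2.le, div_le_iff₀ h2] at h1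
    rw [norm_mul, Real.norm_of_nonneg (r := _ / _) (by positivity)]
    have h3 : ε ^ 2 / (‖M.grad f p‖ ^ 2 + ε ^ 2) ^ 2 ≤ ε ^ 2 / ‖M.grad f p‖ ^ 4 := by
      apply div_le_div_of_nonneg_left (by positivity) h2
      nlinarith [sq_nonneg ε, sq_nonneg ‖M.grad f p‖, sq_nonneg (ε ^ 2)]
    calc _ ≤ |B| * ‖M.grad f p‖ ^ 4 * (ε ^ 2 / ‖M.grad f p‖ ^ 4) := by gcongr
      _ = _ := by rw [mul_assoc, mul_div_cancel₀ _ h2.ne']
  · rw [image_eq_zero_of_notMem_tsupport hp]
    simp only [zero_mul, norm_zero]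
    positivity

theorem Q_crit (hf : Morse M f C) {φ : X → ℝ} (hφ : Continuous φ) {p : X} (hp : p ∈ C)
    (hs : tsupport φ ⊆ (M.ch p).source) (hs' : ∀ q ∈ tsupport φ, q ≠ p → q ∉ C) :
    Q M f C φ := by
  classical
  set e := M.ch p with he
  have hch : IsChart M.x e := M.isChart p
  have hK : IsCompact (tsupport φ) := (isClosed_tsupport φ).isCompact
  have hK' : IsCompact (e '' tsupport φ) := hK.image_of_continuousOn (e.continuousOn.mono hs)
  have hKt : e '' tsupport φ ⊆ e.target := by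
    rintro _ ⟨q, hq, rfl⟩
    exact e.map_source (hs hq)
  let w : E (Fin 2) → ℝ := e.target.indicator fun z =>
    jac (fderiv ℝ (M.x ∘ e.symm) z) * (φ (e.symm z) * dS M f (e.symm z))
  have hsupp : support w ⊆ e '' tsupport φ := by
    intro z hz
    have h1 : z ∈ e.target := by
      by_contra h
      exact hz (indicator_of_notMem h _)
    refine ⟨e.symm z, subset_tsupport _ fun h => hz ?_, e.right_inv h1⟩
    simp only [w, indicator_of_mem h1, h, zero_mul, mul_zero]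
  have hts : tsupport w ⊆ e '' tsupport φ := closure_minimal hsupp hK'.isClosed
  have hwc : Continuous w := by
    refine ContinuousOn.continuous_of_tsupport_subset (s := e.target) ?_ e.open_target
      (hts.trans hKt)
    refine ContinuousOn.congr ?_ (fun z hz => indicator_of_mem hz _)
    exact (Imm.continuousOn_jac hch).mul
      ((hφ.mul (cont_dS hf.sm)).comp_continuousOn e.continuousOn_symm)
  have hg0 := (hf.crit p).1 hp
  have hT : HasFDerivAt (M.grad f ∘ e.symm) (M.td (M.grad f) p ∘L M.J p) (e p) := by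
    have h1 : DifferentiableAt ℝ (M.grad f ∘ e.symm) (e p) := hf.sm.grad.diffAt p
    have h2 := h1.hasFDerivAt
    rwa [Imm.fderiv_chart _ hch (M.mem p)] at h2
  obtain ⟨hinj, hval⟩ := lin hf.sm hg0 (hf.nd p hp)
  have hpe : e.symm (e p) = p := e.left_inv (M.mem p)
  have hb := blow e.open_target hwc (hK'.of_isClosed_subset (isClosed_tsupport w) hts)
    (hts.trans hKt) (hf.sm.grad.continuous.comp_continuousOn e.continuousOn_symm)
    (by simp [hpe, hg0]) hT hinj (by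
      intro z hz hne h
      obtain ⟨q, hq, rfl⟩ := hts hz
      rw [comp_apply, e.left_inv (hs hq)] at h
      exact hs' q hq (fun h' => hne (by rw [h'])) ((hf.crit q).2 h))
  have h1 : ∑ q ∈ C, sg M f q * φ q = sg M f p * φ p :=
    Finset.sum_eq_single_of_mem p hp fun q hq hne => by
      rw [image_eq_zero_of_notMem_tsupport (fun h => hs' q h hne hq), mul_zero]
  have h2 : w (e p) = jac (M.J p) * (φ p * dS M f p) := by
    simp only [w, indicator_of_mem (e.map_source (M.mem p)), hpe]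
    rfl
  unfold Q
  rw [h1, ← mul_assoc, ← hval]
  convert hb using 2 with ε
  · rw [Imm.integral_chart hch, ← integral_indicator e.open_target.measurableSet]
    · congr 1
      ext z
      by_cases hz : z ∈ e.target
      · simp only [w, indicator_of_mem hz, smul_eq_mul, comp_apply]
        ring
      · simp only [w, indicator_of_notMem hz, zero_mul]
    · intro q hq
      refine hs (subset_tsupport _ fun h => hq ?_)
      simp only [h, zero_mul]
  · rw [h2]
    ring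

theorem Q_all (hf : Morse M f C) {φ : X → ℝ} (hφ : Continuous φ) : Q M f C φ := by
  classical
  obtain ⟨n, χ, i, hχ, -, h1⟩ := M.exists_partition (K := univ) isCompact_univ
    (fun p : X => (M.ch p).source \ (C.erase p : Set X))
    (fun p => (M.ch p).open_source.sdiff (C.erase p).finite_toSet.isClosed)
    (fun p _ => mem_iUnion.2 ⟨p, M.mem p, by simp⟩)
  have h1' : ∀ p, ∑ k, χ k p = 1 := by simpa using h1
  have hc : ∀ k, Continuous fun p => χ k p * φ p := fun k => (hχ k).1.sm.continuous.mul hφ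
  have hQ : ∀ k, Q M f C fun p => χ k p * φ p := by
    intro k
    have hts : tsupport (fun p => χ k p * φ p) ⊆ (M.ch (i k)).source \ (C.erase (i k) : Set X) :=
      tsupport_mul_subset_left.trans (hχ k).2.1
    have hn : ∀ q ∈ tsupport (fun p => χ k p * φ p), q ≠ i k → q ∉ C := fun q hq hne h =>
      (hts hq).2 (by simp [hne, h])
    by_cases hk : i k ∈ C
    · exact Q_crit hf (hc k) hk (hts.trans sdiff_subset) hn
    · exact Q_reg hf (hc k) fun q hq h => hn q hq (fun h' => hk (h' ▸ h)) h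
  have h2 := tendsto_finsetSum Finset.univ fun k _ => hQ k
  unfold Q
  have h3 : kap * ∑ p ∈ C, sg M f p * φ p = ∑ k, kap * ∑ p ∈ C, sg M f p * (χ k p * φ p) := by
    rw [← Finset.mul_sum, Finset.sum_comm]
    congr 1
    refine Finset.sum_congr rfl fun p _ => ?_
    rw [← Finset.mul_sum, ← Finset.sum_mul, h1', one_mul]
  rw [h3]
  refine h2.congr' ?_
  filter_upwards [self_mem_nhdsWithin] with ε hε
  have hε' : 0 < ε := hε
  rw [← integral_finsetSum]
  · congr 1
    ext p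
    rw [← Finset.sum_mul, ← Finset.sum_mul, ← Finset.sum_mul, h1', one_mul]
  · intro k _
    refine Continuous.integrable_of_hasCompactSupport ?_ (HasCompactSupport.of_compactSpace _)
    refine ((hc k).mul (cont_dS hf.sm)).mul (continuous_const.div
      (((hf.sm.grad.continuous.norm.pow 2).add continuous_const).pow 2) fun q => by positivity)

end Glob

end Bl

/-- **G2** -/
theorem blS : BlS := ⟨Bl.kap_pos, fun _ _ _ _ _ _ _ _ _ _ hf _ hφ => Bl.Q_all hf hφ⟩

end Crest.Agent.N250.GB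
end
end

-- ▼ part N250/GB/Fr
section

/-!
# Row 250, local Gauss-Bonnet: the orthonormal frame and two-dimensional algebra (helper27)
-/

set_option autoImplicit false
open MeasureTheory Set Filter Topology Function
open scoped ContDiff RealInnerProductSpace

noncomputable section

namespace Crest.Agent.N250.GB

open Crest.Agent.N222

/-! ### algebra in a frame -/

/-- an orthonormal pair that spans the range of `P` -/
structure Frm {ι : Type} [Fintype ι] (P : ι → ι → ℝ) (u v : ι → ℝ) : Prop where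
  uu : ∑ a, u a * u a = 1
  vv : ∑ a, v a * v a = 1
  uv : ∑ a, u a * v a = 0
  eq : ∀ a b, P a b = u a * u b + v a * v b

namespace Frm

variable {ι : Type} [Fintype ι] {P : ι → ι → ℝ} {u v : ι → ℝ} (h : Frm P u v)
include h

theorem dot (p q r s : ℝ) : ∑ a, (p * u a + q * v a) * (r * u a + s * v a) = p * r + q * s := by
  have e : ∀ a, (p * u a + q * v a) * (r * u a + s * v a) =
      p * r * (u a * u a) + (p * s + q * r) * (u a * v a) + q * s * (v a * v a) :=
    fun a => by ring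
  simp only [e, Finset.sum_add_distrib, ← Finset.mul_sum, h.uu, h.vv, h.uv]
  ring

theorem vec {V : ι → ℝ} (hV : ∀ a, ∑ b, P a b * V b = V a) :
    ∃ x y : ℝ, ∀ a, V a = x * u a + y * v a := by
  refine ⟨∑ b, u b * V b, ∑ b, v b * V b, fun a => ?_⟩
  rw [← hV a, Finset.sum_mul, Finset.sum_mul, ← Finset.sum_add_distrib]
  exact Finset.sum_congr rfl fun b _ => by rw [h.eq]; ring

theorem ten {T : ι → ι → ℝ} (hs : ∀ a b, T a b = T b a) (hT : ∀ a b, ∑ c, P b c * T a c = T a b) :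
    ∃ α β γ : ℝ, ∀ a b, T a b = (α * u a + β * v a) * u b + (β * u a + γ * v a) * v b := by
  have h1 : ∀ a b, T a b = (∑ c, u c * T a c) * u b + (∑ c, v c * T a c) * v b := fun a b => by
    rw [← hT a b, Finset.sum_mul, Finset.sum_mul, ← Finset.sum_add_distrib]
    exact Finset.sum_congr rfl fun c _ => by rw [h.eq]; ring
  have h2 : ∀ (w : ι → ℝ) (a : ι), ∑ c, w c * T a c =
      (∑ c, w c * ∑ e, u e * T c e) * u a + (∑ c, w c * ∑ e, v e * T c e) * v a := fun w a => by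
    rw [Finset.sum_mul, Finset.sum_mul, ← Finset.sum_add_distrib]
    exact Finset.sum_congr rfl fun c _ => by rw [hs a c, h1 c a]; ring
  have h3 : ∑ c, v c * ∑ e, u e * T c e = ∑ c, u c * ∑ e, v e * T c e := by
    simp only [Finset.mul_sum]
    rw [Finset.sum_comm]
    exact Finset.sum_congr rfl fun c _ => Finset.sum_congr rfl fun e _ => by rw [hs e c]; ring
  refine ⟨∑ c, u c * ∑ e, u e * T c e, ∑ c, u c * ∑ e, v e * T c e,
    ∑ c, v c * ∑ e, v e * T c e, fun a b => ?_⟩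
  rw [h1 a b, h2 u a, h2 v a, h3]

variable {T : ι → ι → ℝ} {α β γ : ℝ}
  (hT : ∀ a b, T a b = (α * u a + β * v a) * u b + (β * u a + γ * v a) * v b)
include hT

theorem tr : ∑ a, T a a = α + γ := by
  have e : ∀ a, T a a = (α * u a + β * v a) * (1 * u a + 0 * v a) +
      (β * u a + γ * v a) * (0 * u a + 1 * v a) := fun a => by rw [hT]; ring
  simp only [e, Finset.sum_add_distrib, h.dot]
  ring

theorem nrm : ∑ a, ∑ b, T a b ^ 2 = α ^ 2 + 2 * β ^ 2 + γ ^ 2 := by
  have e : ∀ a, ∑ b, T a b ^ 2 = (α * u a + β * v a) * (α * u a + β * v a) +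
      (β * u a + γ * v a) * (β * u a + γ * v a) := fun a => by
    simp only [hT, sq, h.dot]
  simp only [e, Finset.sum_add_distrib, h.dot]
  ring

theorem app (x y : ℝ) (a : ι) : ∑ b, T a b * (x * u b + y * v b) =
    (α * x + β * y) * u a + (β * x + γ * y) * v a := by
  simp only [hT, h.dot]
  ring

theorem form (x y x' y' : ℝ) : ∑ a, ∑ b, T a b * ((x * u a + y * v a) * (x' * u b + y' * v b)) =
    x * (α * x' + β * y') + y * (β * x' + γ * y') := by
  have e : ∀ a, ∑ b, T a b * ((x * u a + y * v a) * (x' * u b + y' * v b)) =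
      (x * u a + y * v a) * ((α * x' + β * y') * u a + (β * x' + γ * y') * v a) := fun a => by
    rw [← h.app hT, Finset.mul_sum]
    exact Finset.sum_congr rfl fun b _ => by ring
  simp only [e, h.dot]

omit hT

/-- Cayley-Hamilton on the plane -/
theorem ch {V : ι → ℝ} (hs : ∀ a b, T a b = T b a) (hT : ∀ a b, ∑ c, P b c * T a c = T a b)
    (hV : ∀ a, ∑ b, P a b * V b = V a) :
    2 * ((∑ a, T a a) * (∑ a, ∑ b, T a b * (V a * V b)) - ∑ a, (∑ b, T a b * V b) ^ 2) =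
      ((∑ a, T a a) ^ 2 - ∑ a, ∑ b, T a b ^ 2) * ∑ a, V a ^ 2 := by
  obtain ⟨α, β, γ, hT⟩ := h.ten hs hT
  obtain ⟨x, y, hV⟩ := h.vec hV
  simp only [hV]
  rw [h.tr hT, h.nrm hT, h.form hT]
  simp only [h.app hT, sq, h.dot]
  ring

/-- the trace and the quadratic form are bounded by the norm -/
theorem abs_le {V : ι → ℝ} (hs : ∀ a b, T a b = T b a) (hT : ∀ a b, ∑ c, P b c * T a c = T a b)
    (hV : ∀ a, ∑ b, P a b * V b = V a) :
    |∑ a, ∑ b, T a b * (V a * V b) - (∑ a, T a a) * ∑ a, V a ^ 2| ≤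
      √(∑ a, ∑ b, T a b ^ 2) * ∑ a, V a ^ 2 := by
  obtain ⟨α, β, γ, hT⟩ := h.ten hs hT
  obtain ⟨x, y, hV⟩ := h.vec hV
  simp only [hV]
  rw [h.tr hT, h.nrm hT, h.form hT]
  simp only [sq (_ + _), h.dot]
  have h0 : 0 ≤ x * x + y * y := add_nonneg (mul_self_nonneg x) (mul_self_nonneg y)
  rw [← Real.sqrt_sq h0, ← Real.sqrt_mul (by positivity)]
  refine Real.abs_le_sqrt ?_
  rw [Real.sqrt_sq h0]
  nlinarith [sq_nonneg (α * x * x - γ * y * y), sq_nonneg (α * x * y + β * y * y),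
    sq_nonneg (β * x * x + γ * x * y)]

end Frm

/-! ### the frame of a surface -/

variable {X : Type} [TopologicalSpace X] (M : Imm 2 (Fin 3) X)

theorem exists_frame (p : X) : ∃ u v : E (Fin 3), ‖u‖ = 1 ∧ ‖v‖ = 1 ∧ inner ℝ u v = 0 ∧
    ∀ a b, M.pre.P a b p = u a * u b + v a * v b := by
  set K : Submodule ℝ (E (Fin 3)) := LinearMap.range (M.J p : E (Fin 2) →ₗ[ℝ] E (Fin 3)) with hK
  have h2 : Module.finrank ℝ K = 2 := by
    rw [hK, LinearMap.finrank_range_of_inj (M.J_inj p)]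
    simp
  set b := (stdOrthonormalBasis ℝ K).reindex (finCongr h2) with hb
  have hP : ∀ w : K, M.PL p w = w := by
    rintro ⟨w, z, rfl⟩
    exact Imm.PL_chart (M.isChart p) (M.mem p) z
  refine ⟨b 0, b 1, b.orthonormal.1 0, b.orthonormal.1 1, b.orthonormal.2 (by decide), ?_⟩
  intro a c
  have h3 : M.PL p (ee a) ∈ K := ⟨_, rfl⟩
  have h4 := congrArg (fun w : K => (w : E (Fin 3)) c) (b.sum_repr' ⟨_, h3⟩)
  have h5 : ∀ i, ⟪b i, (⟨_, h3⟩ : K)⟫ = (b i : E (Fin 3)) a := fun i => by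
    rw [Submodule.coe_inner, ← M.PL_symm, hP]
    simp [EuclideanSpace.inner_single_right]
  simp only [Fin.sum_univ_two, h5] at h4
  rw [Imm.P_apply]
  simpa using h4.symm

theorem exists_frm (p : X) : ∃ u v : Fin 3 → ℝ, Frm (fun a b => M.pre.P a b p) u v := by
  obtain ⟨u, v, hu, hv, huv, h⟩ := exists_frame M p
  have e : ∀ w w' : E (Fin 3), ∑ a, w a * w' a = ⟪w, w'⟫ := fun w w' => by
    simp [PiLp.inner_apply, mul_comm]
  exact ⟨u, v, by rw [e, real_inner_self_eq_norm_sq, hu, one_pow],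
    by rw [e, real_inner_self_eq_norm_sq, hv, one_pow], by rw [e, huv], h⟩

variable {M}

theorem P_hess {f : X → ℝ} (a b : Fin 3) (p : X) :
    ∑ c, M.pre.P b c p * M.pre.hess f a c p = M.pre.hess f a b p := by
  simp only [Imm.hess_apply, Finset.mul_sum, ← mul_assoc]
  rw [Finset.sum_comm]
  exact Finset.sum_congr rfl fun c _ => by rw [← Finset.sum_mul, M.PP]

theorem P_D (f : X → ℝ) (a : Fin 3) (p : X) :
    ∑ b, M.pre.P a b p * M.pre.D b f p = M.pre.D a f p := by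
  simpa using congrFun (Imm.tan_D (M := M) f a) p

theorem norm_grad_sq (f : X → ℝ) (p : X) : ‖M.grad f p‖ ^ 2 = ∑ a, M.pre.D a f p ^ 2 := by
  rw [← Imm.gam_self_eq, Imm.gam_apply]
  simp only [sq]

theorem jac_sq (J : E (Fin 2) →L[ℝ] E (Fin 3)) : jac J ^ 2 =
    max ((∑ a, J (ee 0) a * J (ee 0) a) * (∑ a, J (ee 1) a * J (ee 1) a)
      - (∑ a, J (ee 0) a * J (ee 1) a) ^ 2) 0 := by
  have e : ∀ i j : Fin 2, (ContinuousLinearMap.adjoint J ∘L J) (ee i) j =
      ∑ a, J (ee j) a * J (ee i) a := fun i j => by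
    have h := ContinuousLinearMap.adjoint_inner_right J (ee j) (J (ee i))
    simp only [EuclideanSpace.inner_single_left, map_one, one_mul] at h
    rw [ContinuousLinearMap.comp_apply, h]
    simp [PiLp.inner_apply, mul_comm]
  rw [jac, Real.sq_sqrt', ContinuousLinearMap.det,
    ← LinearMap.det_toMatrix (EuclideanSpace.basisFun (Fin 2) ℝ).toBasis, Matrix.det_fin_two]
  simp only [LinearMap.toMatrix_apply, OrthonormalBasis.coe_toBasis,
    OrthonormalBasis.coe_toBasis_repr_apply, EuclideanSpace.basisFun_apply,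
    EuclideanSpace.basisFun_repr, ContinuousLinearMap.coe_coe, e]
  congr 2
  rw [sq]
  congr 1
  exact Finset.sum_congr rfl fun a _ => mul_comm _ _

/-- **G0** -/
theorem frS : FrS := by
  intro X _ _ _ _ _ _ M p
  refine ⟨exists_frame M p, ?_⟩
  rintro f hf h0 g rfl z rfl
  obtain ⟨u, v, h⟩ := exists_frm M p
  obtain ⟨α, β, γ, hT⟩ := h.ten (T := fun a b => M.pre.hess f a b p)
    (fun a b => congrFun (Imm.hess_symm hf a b) p) fun a b => P_hess a b p
  have hJ : ∀ w : E (Fin 2), ∃ x y : ℝ, ∀ a, M.J p w a = x * u a + y * v a := fun w =>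
    h.vec fun a => by
      rw [← M.PL_apply]
      exact congrArg (fun y : E (Fin 3) => y a) (Imm.PL_chart (M.isChart p) (M.mem p) w)
  choose x y hxy using hJ
  have hH : ∀ w w' : E (Fin 2), fderiv ℝ (fderiv ℝ (f ∘ (M.ch p).symm)) (M.ch p p) w w' =
      x w * (α * x w' + β * y w') + y w * (β * x w' + γ * y w') := fun w w' => by
    rw [Imm.hess_chart hf (M.isChart p) (M.mem p), Imm.td_eq_inner, h0, inner_zero_left, add_zero,
      ← h.form hT]
    exact Finset.sum_congr rfl fun a _ => Finset.sum_congr rfl fun b _ => by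
      rw [← hxy, ← hxy]; rfl
  rw [hH, hH, hH, jac_sq, dS, ← Imm.tr_hess hf, h.tr hT, h.nrm hT]
  simp only [hxy, h.dot]
  rw [max_eq_left (by nlinarith [sq_nonneg (x (ee 0) * y (ee 1) - x (ee 1) * y (ee 0))])]
  ring

end Crest.Agent.N250.GB

end
end

-- ▼ part N250/GB/Bo
section

/-!
# Row 250, local Gauss-Bonnet: the Bochner identity (helper27)

The field is `Z = (S V - Δf V) / (|V|² + ε²)`, `V = ∇f`, `S = Hess f`.
-/

set_option autoImplicit false
open MeasureTheory Set Filter Topology Function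
open scoped ContDiff RealInnerProductSpace

noncomputable section

namespace Crest.Agent.N250.GB

open Crest.Agent.N222

/-! ### the algebraic Bochner formula -/

section Alg

variable {R : Type} [CommRing R] {ι : Type} [Fintype ι]

/-- `S V - Δf V` -/
def bW (S : Pre R ι) (f : R) (a : ι) : R := ∑ b, S.hess f a b * S.D b f - S.lap f * S.D a f

theorem hom_bW {R' : Type} [CommRing R'] {S : Pre R ι} {S' : Pre R' ι} {φ : R →+* R'}
    (h : S.Hom S' φ) (f : R) (a : ι) : φ (bW S f a) = bW S' (φ f) a := by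
  simp only [bW, map_sub, map_sum, map_mul, h.hess, h.D, h.lap]

variable [Algebra ℝ R] [DecidableEq ι] {S : Pre R ι} (h : S.IsDS)
include h

theorem tan_bW (f : R) : S.Tan (bW S f) :=
  Pre.Sim.tan_sub (Pre.Sim.tan_sum fun b => Pre.Sim.tan_mul' _ (h.tan_hess' f b))
    (Pre.Sim.tan_mul _ (h.tan f))

theorem D_gam (f : R) (a : ι) : S.D a (S.gam f f) = 2 * ∑ b, S.hess f a b * S.D b f := by
  have e := h.tan_DD (h.tan f) f a
  simp only [mul_comm _ (S.hess _ _ _)] at e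
  rw [← e, Pre.gam, h.D_sum, Finset.mul_sum]
  exact Finset.sum_congr rfl fun b _ => by rw [h.mul]; ring

theorem dv_bW (f : R) : S.dv (bW S f) = ∑ a, ∑ b, S.hess f a b ^ 2 - S.lap f ^ 2 +
    ∑ a, ∑ b, S.Ric a b * (S.D a f * S.D b f) := by
  have hA : S.SymT (S.hess f) := ⟨h.tan_hess' f, h.hess f⟩
  have e1 : ∀ b, ∑ a, S.nab2 (S.hess f) a a b = S.D b (S.lap f) + ∑ e, S.Ric b e * S.D e f := by
    intro b
    have e : ∀ a, S.nab2 (S.hess f) a a b =
        S.nab2 (S.hess f) b a a + ∑ e, S.Rm a b e a * S.D e f := fun a => by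
      rw [h.T_symm hA a a b, ← h.ricci_hess]; ring
    simp only [e, Finset.sum_add_distrib]
    rw [h.tr_T hA, h.tr_hess, Finset.sum_comm]
    simp only [Pre.Ric, Finset.sum_mul]
  have e2 : ∑ b, (∑ a, S.sB (S.hess f) a b a) * S.D b f = 0 := by
    simp only [Finset.sum_mul]
    rw [Finset.sum_comm]
    exact Finset.sum_eq_zero fun a _ => h.B_nor _ a a (h.tan f)
  have e3 : ∑ a, ∑ b, S.D a (S.hess f a b) * S.D b f =
      ∑ b, S.D b (S.lap f) * S.D b f + ∑ a, ∑ b, S.Ric a b * (S.D a f * S.D b f) := by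
    rw [Finset.sum_comm]
    simp only [← Finset.sum_mul, h.dv_A hA, e1, add_mul, Finset.sum_add_distrib, e2, add_zero]
    congr 1
    exact Finset.sum_congr rfl fun a _ => by
      rw [Finset.sum_mul]; exact Finset.sum_congr rfl fun b _ => by ring
  have e4 : ∀ a, ∑ b, S.hess f a b * S.D a (S.D b f) = ∑ b, S.hess f a b ^ 2 := fun a => by
    rw [h.tan_DD (h.tan_hess f a)]; simp only [sq]
  simp only [Pre.dv, bW, h.D_sub, h.D_sum, h.mul, Finset.sum_sub_distrib, Finset.sum_add_distrib,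
    e3, e4, ← Finset.mul_sum]
  change _ - (S.lap f * S.lap f + _) = _
  ring

end Alg

/-! ### pointwise identities on a surface -/

variable {X : Type} [TopologicalSpace X] {M : Imm 2 (Fin 3) X} {f : X → ℝ}

theorem ric_alg (T : Fin 3 → Fin 3 → Fin 3 → ℝ) (hs : ∀ a b k, T a b k = T b a k)
    (V : Fin 3 → ℝ) :
    ∑ b, ∑ c, (∑ a, ∑ k, (T a a k * T b c k - T a c k * T b a k)) * (V b * V c) =
      ∑ k, ((∑ a, T a a k) * (∑ a, ∑ b, T a b k * (V a * V b)) - ∑ a, (∑ b, T a b k * V b) ^ 2) := by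
  simp only [Fin.sum_univ_three, hs 1 0, hs 2 0, hs 2 1]
  ring

theorem scal_alg (T : Fin 3 → Fin 3 → Fin 3 → ℝ) (hs : ∀ a b k, T a b k = T b a k) :
    ∑ b, ∑ a, ∑ k, (T a a k * T b b k - T a b k * T b a k) =
      ∑ k, ((∑ a, T a a k) ^ 2 - ∑ a, ∑ b, T a b k ^ 2) := by
  simp only [Fin.sum_univ_three, hs 1 0, hs 2 0, hs 2 1]
  ring

/-- on a surface `Ric = scal / 2` -/
theorem two_ric (M : Imm 2 (Fin 3) X) (p : X) {V : Fin 3 → ℝ}
    (hV : ∀ a, ∑ b, M.pre.P a b p * V b = V a) :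
    2 * ∑ a, ∑ b, M.pre.Ric a b p * (V a * V b) = M.pre.scal p * ∑ a, V a ^ 2 := by
  obtain ⟨u, v, h⟩ := exists_frm M p
  have hs : ∀ a b k, M.pre.II a b k p = M.pre.II b a k p := fun a b k =>
    congrFun (Imm.hess_symm (M.sm_coord k) a b) p
  simp only [Pre.scal, Pre.Ric, Pre.Rm, Finset.sum_apply, Pi.sub_apply, Pi.mul_apply]
  rw [ric_alg (fun a b k => M.pre.II a b k p) hs, scal_alg (fun a b k => M.pre.II a b k p) hs,
    Finset.mul_sum, Finset.sum_mul]
  exact Finset.sum_congr rfl fun k _ =>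
    h.ch (T := fun a b => M.pre.II a b k p) (fun a b => hs a b k) (fun a b => P_hess a b p) hV

theorem bW_apply (a : Fin 3) (p : X) : bW M.pre f a p =
    ∑ b, M.pre.hess f a b p * M.pre.D b f p - M.pre.lap f p * M.pre.D a f p := by
  simp [bW]

theorem sm_bW (hf : M.Sm f) (a : Fin 3) : M.Sm (bW M.pre f a) :=
  (hom_bW M.hom ⟨f, hf⟩ a ▸ Imm.sm_val _ : M.Sm (bW M.pre (M.val ⟨f, hf⟩) a))

theorem P_bW (hf : M.Sm f) (a : Fin 3) (p : X) :
    ∑ b, M.pre.P a b p * bW M.pre f b p = bW M.pre f a p := by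
  have := congrArg M.val (tan_bW M.isDS ⟨f, hf⟩ a)
  simp only [map_sum, map_mul, M.hom.P, hom_bW M.hom] at this
  simpa using congrFun this p

theorem dv_bW_apply (hf : M.Sm f) (p : X) :
    2 * M.pre.dv (bW M.pre f) p = M.pre.scal p * ‖M.grad f p‖ ^ 2 - 2 * dS M f p := by
  have := congrArg M.val (dv_bW M.isDS ⟨f, hf⟩)
  simp only [map_add, map_sub, map_sum, map_mul, map_pow, M.hom.dv, M.hom.hess, M.hom.lap,
    M.hom.Ric, M.hom.D, hom_bW M.hom] at this
  have h1 := congrFun this p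
  simp only [Imm.val_apply, Finset.sum_apply, Pi.add_apply, Pi.sub_apply, Pi.mul_apply,
    Pi.pow_apply] at h1
  have h2 := two_ric M p (V := fun a => M.pre.D a f p) fun a => P_D f a p
  rw [norm_grad_sq, ← h2, dS]
  linear_combination 2 * h1

theorem D_normSq_grad (hf : M.Sm f) (a : Fin 3) (p : X) :
    M.pre.D a (fun q => ‖M.grad f q‖ ^ 2) p = 2 * ∑ b, M.pre.hess f a b p * M.pre.D b f p := by
  have := congrArg M.val (D_gam M.isDS ⟨f, hf⟩ a)
  simp only [map_sum, map_mul, M.hom.gam, M.hom.hess, M.hom.D, map_ofNat] at this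
  simp only [← Imm.gam_self_eq]
  simpa using congrFun this p

theorem sm_normSq_grad (hf : M.Sm f) : M.Sm fun q => ‖M.grad f q‖ ^ 2 := by
  simp only [← Imm.gam_self_eq]
  exact hf.gam hf

/-- the field of the Bochner identity -/
def bZ (M : Imm 2 (Fin 3) X) (f : X → ℝ) (ε : ℝ) (a : Fin 3) (p : X) : ℝ :=
  (‖M.grad f p‖ ^ 2 + ε ^ 2)⁻¹ * bW M.pre f a p

theorem sm_den (hf : M.Sm f) {ε : ℝ} (hε : 0 < ε) :
    M.Sm fun p => (‖M.grad f p‖ ^ 2 + ε ^ 2)⁻¹ :=
  ((sm_normSq_grad hf).add (Imm.sm_const _)).inv fun p => by positivity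

theorem dv_bZ (hf : M.Sm f) {ε : ℝ} (hε : 0 < ε) (p : X) : 2 * M.pre.dv (bZ M f ε) p =
    M.pre.scal p * (‖M.grad f p‖ ^ 2 / (‖M.grad f p‖ ^ 2 + ε ^ 2)) -
      2 * (dS M f p * (ε ^ 2 / (‖M.grad f p‖ ^ 2 + ε ^ 2) ^ 2)) := by
  have h0 : ‖M.grad f p‖ ^ 2 + ε ^ 2 ≠ 0 := by positivity
  have h1 := Imm.dv_mul (sm_den hf hε) (sm_bW hf) p
  have h2 : ∀ a, M.pre.D a (fun p => (‖M.grad f p‖ ^ 2 + ε ^ 2)⁻¹) p =
      -((‖M.grad f p‖ ^ 2 + ε ^ 2) ^ 2)⁻¹ * (2 * ∑ b, M.pre.hess f a b p * M.pre.D b f p) := by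
    intro a
    have hd : HasDerivAt (fun s : ℝ => (s + ε ^ 2)⁻¹) (-((‖M.grad f p‖ ^ 2 + ε ^ 2) ^ 2)⁻¹)
        (‖M.grad f p‖ ^ 2) := by
      have := (hasDerivAt_inv h0).comp_add_const (‖M.grad f p‖ ^ 2) (ε ^ 2)
      exact this
    rw [← D_normSq_grad hf]
    exact Imm.D_comp ((sm_normSq_grad hf).diffAt p) hd a
  obtain ⟨u, v, h⟩ := exists_frm M p
  have h3 := h.ch (T := fun a b => M.pre.hess f a b p) (V := fun a => M.pre.D a f p)
    (fun a b => congrFun (Imm.hess_symm hf a b) p) (fun a b => P_hess a b p) fun a => P_D f a p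
  rw [Imm.tr_hess hf, ← norm_grad_sq, ← dS] at h3
  have h4 : ∑ a, bW M.pre f a p * (2 * ∑ b, M.pre.hess f a b p * M.pre.D b f p) =
      -(dS M f p * ‖M.grad f p‖ ^ 2) := by
    rw [← h3]
    simp only [bW_apply, Fin.sum_univ_three]
    ring
  have h5 : M.pre.dir (bW M.pre f) (fun p => (‖M.grad f p‖ ^ 2 + ε ^ 2)⁻¹) p =
      ((‖M.grad f p‖ ^ 2 + ε ^ 2) ^ 2)⁻¹ * (dS M f p * ‖M.grad f p‖ ^ 2) := by
    rw [Imm.dir_apply, ← neg_mul_neg, ← h4, Finset.mul_sum]
    exact Finset.sum_congr rfl fun a _ => by rw [h2]; ring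
  have h6 := dv_bW_apply hf p
  rw [show M.pre.dv (bZ M f ε) p = _ from h1, h5, mul_add, mul_left_comm, h6]
  field_simp
  ring

theorem abs_bZ_le (hf : M.Sm f) {ε : ℝ} (hε : 0 < ε) (p : X) :
    |∑ a, bZ M f ε a p * M.pre.D a f p| ≤ nS M f p := by
  have h0 : 0 < ‖M.grad f p‖ ^ 2 + ε ^ 2 := by positivity
  obtain ⟨u, v, h⟩ := exists_frm M p
  have h3 := h.abs_le (T := fun a b => M.pre.hess f a b p) (V := fun a => M.pre.D a f p)
    (fun a b => congrFun (Imm.hess_symm hf a b) p) (fun a b => P_hess a b p) fun a => P_D f a p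
  rw [Imm.tr_hess hf, ← nS] at h3
  have h4 : ∑ a, bZ M f ε a p * M.pre.D a f p = (‖M.grad f p‖ ^ 2 + ε ^ 2)⁻¹ *
      (∑ a, ∑ b, M.pre.hess f a b p * (M.pre.D a f p * M.pre.D b f p) -
        M.pre.lap f p * ∑ a, M.pre.D a f p ^ 2) := by
    simp only [bZ, bW_apply, Fin.sum_univ_three]
    ring
  rw [h4, abs_mul, abs_of_pos (inv_pos.2 h0), inv_mul_le_iff₀ h0]
  refine h3.trans ?_
  rw [← norm_grad_sq]
  have : 0 ≤ nS M f p := Real.sqrt_nonneg _
  nlinarith [sq_nonneg ε]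

theorem continuous_nS (hf : M.Sm f) : Continuous (nS M f) :=
  (continuous_finsetSum _ fun a _ => continuous_finsetSum _ fun b _ =>
    (hf.hess a b).continuous.pow 2).sqrt

theorem sm_dS (hf : M.Sm f) : M.Sm (dS M f) :=
  (hf.lap.pow 2).sub (Imm.sm_sum _ fun a _ => Imm.sm_sum _ fun b _ => (hf.hess a b).pow 2)

/-- **G1** -/
theorem boS : BoS := by
  intro X _ _ _ _ _ _ M f hf ψ hψ ε hε
  have hi : ∀ {g : X → ℝ}, Continuous g → Integrable g M.mu := fun hg =>
    hg.integrable_of_hasCompactSupport (HasCompactSupport.of_compactSpace _)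
  have hZ : ∀ a, M.Sm (bZ M f ε a) := fun a => (sm_den hf hε).mul (sm_bW hf a)
  have ht : M.pre.Tan (bZ M f ε) := fun a => funext fun p => by
    simp only [Finset.sum_apply, Pi.mul_apply, bZ, mul_left_comm (M.pre.P _ _ p),
      ← Finset.mul_sum, P_bW hf]
  have hψf : M.Sm fun p => ψ (f p) := hf.comp hψ
  have h1 := Imm.integral_mul_dv hψf.c1 (HasCompactSupport.of_compactSpace _)
    (fun a => (hZ a).c1) ht
  have hn := (sm_normSq_grad hf).continuous
  have h0 : ∀ p, ‖M.grad f p‖ ^ 2 + ε ^ 2 ≠ 0 := fun p => by positivity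
  have c1 : Continuous fun p =>
      ψ (f p) * M.pre.scal p * (‖M.grad f p‖ ^ 2 / (‖M.grad f p‖ ^ 2 + ε ^ 2)) :=
    (hψf.continuous.mul M.sm_scal.continuous).mul (hn.div (hn.add continuous_const) h0)
  have c2 : Continuous fun p =>
      ψ (f p) * dS M f p * (ε ^ 2 / (‖M.grad f p‖ ^ 2 + ε ^ 2) ^ 2) :=
    (hψf.continuous.mul (sm_dS hf).continuous).mul
      (continuous_const.div ((hn.add continuous_const).pow 2) fun p => pow_ne_zero 2 (h0 p))
  have c3 : Continuous fun p => |deriv ψ (f p)| * nS M f p :=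
    ((hψ.continuous_deriv (by simp)).comp hf.continuous).abs.mul (continuous_nS hf)
  have h2 : (∫ p, ψ (f p) * M.pre.scal p * (‖M.grad f p‖ ^ 2 / (‖M.grad f p‖ ^ 2 + ε ^ 2)) ∂M.mu) -
      2 * ∫ p, ψ (f p) * dS M f p * (ε ^ 2 / (‖M.grad f p‖ ^ 2 + ε ^ 2) ^ 2) ∂M.mu =
      2 * ∫ p, ψ (f p) * M.pre.dv (bZ M f ε) p ∂M.mu := by
    rw [← integral_const_mul, ← integral_const_mul, ← integral_sub (hi c1) ((hi c2).const_mul 2)]
    refine integral_congr_ae (Eventually.of_forall fun p => ?_)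
    linear_combination (-ψ (f p)) * dv_bZ hf hε p
  have h3 : ∀ p, ‖M.pre.dir (bZ M f ε) (fun p => ψ (f p)) p‖ ≤ |deriv ψ (f p)| * nS M f p := by
    intro p
    have hd := (hψ.differentiable (by simp) (f p)).hasDerivAt
    simp only [Imm.dir_apply, Imm.D_comp (hf.diffAt p) hd, mul_left_comm _ (deriv ψ _),
      ← Finset.mul_sum]
    rw [Real.norm_eq_abs, abs_mul]
    exact mul_le_mul_of_nonneg_left (abs_bZ_le hf hε p) (abs_nonneg _)
  have h4 := norm_integral_le_of_norm_le (hi c3) (Eventually.of_forall h3)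
  rw [h2, h1, abs_mul, abs_neg, abs_two]
  rw [Real.norm_eq_abs] at h4
  linarith [abs_nonneg (∫ p, M.pre.dir (bZ M f ε) (fun p => ψ (f p)) p ∂M.mu)]

end Crest.Agent.N250.GB

end
end

-- ▼ part N250/GB/Sard

/-!
# Row 250 (helper83): `SardS`, generic distance functions are Morse
-/

set_option autoImplicit false

open Topology Filter Set MeasureTheory Function
open scoped ContDiff RealInnerProductSpace

noncomputable section

namespace Crest.Agent.N250.GB

open Crest.Agent.N222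

section

variable {X : Type} [TopologicalSpace X] {M : Imm 2 (Fin 3) X} {f : X → ℝ} {p : X}
  {e : OpenPartialHomeomorph X (E (Fin 2))}

theorem sard_two : (2 : WithTop ℕ∞) ≤ ∞ := WithTop.coe_le_coe.2 (le_top (a := (2 : ℕ∞)))

theorem sard_dec (v : E (Fin 2)) : v = v 0 • ee 0 + v 1 • ee 1 := by
  ext i; fin_cases i <;> simp [ee]

/-- a symmetric form on the plane has a kernel iff its determinant vanishes -/
theorem sard_ker (H : E (Fin 2) →L[ℝ] E (Fin 2) →L[ℝ] ℝ) (hs : ∀ u w, H u w = H w u) :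
    H (ee 0) (ee 0) * H (ee 1) (ee 1) - H (ee 0) (ee 1) ^ 2 = 0 ↔ ∃ v, v ≠ 0 ∧ ∀ w, H v w = 0 := by
  have ex : ∀ (x y x' y' : ℝ), H (x • ee 0 + y • ee 1) (x' • ee 0 + y' • ee 1) =
      x * x' * H (ee 0) (ee 0) + (x * y' + y * x') * H (ee 0) (ee 1) + y * y' * H (ee 1) (ee 1) := by
    intro x y x' y'
    simp only [map_add, map_smul, add_apply, smul_apply, smul_eq_mul, hs (ee 1) (ee 0)]
    ring
  have ne : ∀ x y : ℝ, x • ee 0 + y • (ee 1 : E (Fin 2)) = 0 → x = 0 ∧ y = 0 := fun x y h =>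
    ⟨by simpa [ee] using congrArg (fun v : E (Fin 2) => v 0) h,
      by simpa [ee] using congrArg (fun v : E (Fin 2) => v 1) h⟩
  refine ⟨fun h => ?_, fun ⟨v, v0, hv⟩ => ?_⟩
  · by_cases a : H (ee 0) (ee 0) = 0
    · have b : H (ee 0) (ee 1) = 0 := by rw [a] at h; simpa using h
      refine ⟨(1 : ℝ) • ee 0 + (0 : ℝ) • ee 1, fun k => one_ne_zero (ne _ _ k).1, fun w => ?_⟩
      rw [sard_dec w, ex, a, b]; ring
    · refine ⟨(-H (ee 0) (ee 1)) • ee 0 + H (ee 0) (ee 0) • ee 1, fun k => a (ne _ _ k).2, fun w => ?_⟩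
      rw [sard_dec w, ex]; linear_combination w 1 * h
  · by_contra D0
    have a := hv ((1 : ℝ) • ee 0 + (0 : ℝ) • ee 1)
    have b := hv ((0 : ℝ) • ee 0 + (1 : ℝ) • ee 1)
    rw [sard_dec v, ex] at a b
    have c : v 0 * (H (ee 0) (ee 0) * H (ee 1) (ee 1) - H (ee 0) (ee 1) ^ 2) = 0 := by
      linear_combination H (ee 1) (ee 1) * a - H (ee 0) (ee 1) * b
    have d : v 1 * (H (ee 0) (ee 0) * H (ee 1) (ee 1) - H (ee 0) (ee 1) ^ 2) = 0 := by
      linear_combination H (ee 0) (ee 0) * b - H (ee 0) (ee 1) * a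
    apply v0
    rw [sard_dec v, (mul_eq_zero.1 c).resolve_right D0, (mul_eq_zero.1 d).resolve_right D0]
    simp

theorem sard_td (h : M.grad f p = 0) : M.td f p = 0 := by
  ext w; rw [Imm.td_eq_inner, h]; simp

theorem sard_at {F : Type} [NormedAddCommGroup F] [NormedSpace ℝ F] {g : X → F} (hg : M.Sm g) (he : IsChart M.x e)
    {z : E (Fin 2)} (hz : z ∈ e.target) : ContDiffAt ℝ ∞ (g ∘ e.symm) z :=
  (hg.chart he).contDiffAt (e.open_target.mem_nhds hz)

/-- degeneracy of the Hessian does not depend on the chart -/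
theorem sard_move (hf : M.Sm f) (h : M.grad f p = 0) (he : IsChart M.x e) (hp : p ∈ e.source)
    {e' : OpenPartialHomeomorph X (E (Fin 2))} (he' : IsChart M.x e') (hp' : p ∈ e'.source)
    (hv : ∃ v, v ≠ 0 ∧ ∀ w, fderiv ℝ (fderiv ℝ (f ∘ e.symm)) (e p) v w = 0) :
    ∃ v, v ≠ 0 ∧ ∀ w, fderiv ℝ (fderiv ℝ (f ∘ e'.symm)) (e' p) v w = 0 := by
  obtain ⟨v, v0, hv⟩ := hv
  obtain ⟨v', hv'⟩ := Imm.PL_mem_range he' hp' (fderiv ℝ (M.x ∘ e.symm) (e p) v)
  rw [Imm.PL_chart he hp] at hv'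
  refine ⟨v', fun k => v0 (he.inj _ (e.map_source hp) (by rw [← hv', k, map_zero, map_zero])), fun w' => ?_⟩
  obtain ⟨w, hw⟩ := Imm.PL_mem_range he hp (fderiv ℝ (M.x ∘ e'.symm) (e' p) w')
  rw [Imm.PL_chart he' hp'] at hw
  have := hv w
  rw [Imm.hess_chart hf he hp, sard_td h] at this
  rw [Imm.hess_chart hf he' hp', sard_td h, hv', ← hw]
  simpa using this

/-- the normal space is a line -/
theorem sard_line (M : Imm 2 (Fin 3) X) (p : X) {n w : E (Fin 3)} (hn : M.PL p n = 0) (n0 : n ≠ 0)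
    (hw : M.PL p w = 0) : ∃ t : ℝ, w = t • n := by
  have r : LinearMap.range (M.PL p : E (Fin 3) →ₗ[ℝ] E (Fin 3)) =
      LinearMap.range (M.J p : E (Fin 2) →ₗ[ℝ] E (Fin 3)) := by
    ext u
    exact ⟨fun ⟨a, ha⟩ => ha ▸ Imm.PL_mem_range (M.isChart p) (M.mem p) a,
      fun ⟨a, ha⟩ => ⟨u, ha ▸ Imm.PL_chart (M.isChart p) (M.mem p) a⟩⟩
  have k := LinearMap.finrank_range_add_finrank_ker (M.PL p : E (Fin 3) →ₗ[ℝ] E (Fin 3))
  rw [r, LinearMap.finrank_range_of_inj (M.J_inj p)] at k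
  simp only [finrank_euclideanSpace, Fintype.card_fin] at k
  have k1 : Module.finrank ℝ (LinearMap.ker (M.PL p : E (Fin 3) →ₗ[ℝ] E (Fin 3))) = 1 := by omega
  obtain ⟨t, ht⟩ := (finrank_eq_one_iff_of_nonzero' (⟨n, hn⟩ : LinearMap.ker (M.PL p : E (Fin 3) →ₗ[ℝ] E (Fin 3)))
    (fun k => n0 (congrArg Subtype.val k))).1 k1 ⟨w, hw⟩
  exact ⟨t, (congrArg Subtype.val ht).symm⟩

theorem sard_perp (he : IsChart M.x e) (hp : p ∈ e.source) {u : E (Fin 3)} :
    M.PL p u = 0 ↔ ∀ w, ⟪u, fderiv ℝ (M.x ∘ e.symm) (e p) w⟫ = 0 := by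
  refine ⟨fun h w => by rw [← Imm.PL_chart he hp, ← Imm.PL_symm, h, inner_zero_left], fun h => ?_⟩
  obtain ⟨w, hw⟩ := Imm.PL_mem_range he hp u
  rw [← inner_self_eq_zero (𝕜 := ℝ), Imm.PL_symm, Imm.PL_PL, ← hw, h]

/-- the normal part of a fixed vector -/
def sardN (M : Imm 2 (Fin 3) X) (a : Fin 3) (q : X) : E (Fin 3) := ee a - M.PL q (ee a)

theorem sardN_sm (M : Imm 2 (Fin 3) X) (a : Fin 3) : M.Sm (sardN M a) :=
  (Imm.sm_const _).sub (M.sm_PL.comp (g := fun T => T (ee a)) (by fun_prop))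

theorem sardN_PL (M : Imm 2 (Fin 3) X) (a : Fin 3) (q : X) : M.PL q (sardN M a q) = 0 := by
  simp [sardN, Imm.PL_PL]

theorem sardN_ne (M : Imm 2 (Fin 3) X) (q : X) : ∃ a, sardN M a q ≠ 0 := by
  by_contra h
  push Not at h
  have : ∀ a, M.pre.P a a q = 1 := fun a => by
    rw [Imm.P_apply, ← sub_eq_zero.1 (h a)]; simp [ee]
  have t := M.tr_P q
  simp only [this] at t
  norm_num at t

/-- the normal exponential map in a chart -/
def sardΨ (M : Imm 2 (Fin 3) X) (e : OpenPartialHomeomorph X (E (Fin 2))) (a : Fin 3) (k : E (Fin 2) × ℝ) :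
    E (Fin 3) := (M.x ∘ e.symm) k.1 + k.2 • (sardN M a ∘ e.symm) k.1

theorem sardΨ_der (he : IsChart M.x e) (a : Fin 3) {k : E (Fin 2) × ℝ} (hk : k.1 ∈ e.target) :
    ∃ T : (E (Fin 2) × ℝ) →L[ℝ] E (Fin 3), HasFDerivAt (sardΨ M e a) T k ∧ ∀ v τ, T (v, τ) = fderiv ℝ (M.x ∘ e.symm) k.1 v +
      k.2 • fderiv ℝ (sardN M a ∘ e.symm) k.1 v + τ • (sardN M a ∘ e.symm) k.1 := by
  have h1 := ((sard_at M.sm_x he hk).differentiableAt (by simp)).hasFDerivAt.comp k hasFDerivAt_fst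
  have h2 := ((sard_at (sardN_sm M a) he hk).differentiableAt (by simp)).hasFDerivAt.comp k hasFDerivAt_fst
  refine ⟨_, h1.add (hasFDerivAt_snd.smul h2), fun v τ => ?_⟩
  simp [add_assoc]

/-- the critical values are null -/
theorem sard_null (he : IsChart M.x e) (a : Fin 3) :
    volume (sardΨ M e a '' {k | k.1 ∈ e.target ∧ ¬ Injective (fderiv ℝ (sardΨ M e a) k)}) = 0 := by
  let A : E (Fin 3) ≃L[ℝ] (E (Fin 2) × ℝ) := ContinuousLinearEquiv.ofFinrankEq (by simp)
  have := addHaar_image_eq_zero_of_det_fderivWithin_eq_zero (volume : Measure (E (Fin 3)))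
    (f := sardΨ M e a ∘ A) (s := A ⁻¹' {k | k.1 ∈ e.target ∧ ¬ Injective (fderiv ℝ (sardΨ M e a) k)})
    (f' := fun w => fderiv ℝ (sardΨ M e a) (A w) ∘L (A : E (Fin 3) →L[ℝ] (E (Fin 2) × ℝ)))
    (fun w hw => by
      obtain ⟨T, hT, -⟩ := sardΨ_der he a hw.1
      exact (hT.differentiableAt.hasFDerivAt.comp w A.hasFDerivAt).hasFDerivWithinAt)
    (fun w hw => by
      refine LinearMap.det_eq_zero_iff_ker_ne_bot.2 fun k => hw.2 ?_
      have := LinearMap.ker_eq_bot.1 k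
      exact (Injective.of_comp_iff' _ A.bijective).1 this)
  rwa [image_comp, A.surjective.image_preimage] at this

theorem sard_sm (M : Imm 2 (Fin 3) X) (y : E (Fin 3)) : M.Sm fun p => ‖M.x p - y‖ ^ 2 :=
  (M.sm_x.sub (Imm.sm_const y)).comp (contDiff_norm_sq ℝ)

/-- a degenerate critical point of the squared distance gives a critical value -/
theorem sard_crit (he : IsChart M.x e) (hp : p ∈ e.source) {y : E (Fin 3)}
    (h : M.grad (fun p => ‖M.x p - y‖ ^ 2) p = 0)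
    (hv : ∃ v, v ≠ 0 ∧ ∀ w, fderiv ℝ (fderiv ℝ ((fun p => ‖M.x p - y‖ ^ 2) ∘ e.symm)) (e p) v w = 0) :
    ∃ a, y ∈ sardΨ M e a '' {k | k.1 ∈ e.target ∧ ¬ Injective (fderiv ℝ (sardΨ M e a) k)} := by
  obtain ⟨v, v0, hv⟩ := hv
  obtain ⟨a, ha⟩ := sardN_ne M p
  have hz := e.map_source hp
  have h1 : M.PL p (M.x p - y) = 0 := by
    ext b
    have := congrArg (fun u : E (Fin 3) => u b) h
    simpa [Imm.grad, Imm.D_normSq] using this
  obtain ⟨s, hs⟩ := sard_line M p (sardN_PL M a p) ha h1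
  have hy : sardΨ M e a (e p, -s) = y := by
    simp only [sardΨ, comp, e.left_inv hp, neg_smul, ← hs]; abel
  refine ⟨a, (e p, -s), ⟨hz, fun inj => ?_⟩, hy⟩
  obtain ⟨T, hT, hT'⟩ := sardΨ_der he a (k := (e p, -s)) hz
  rw [hT.fderiv] at inj
  obtain ⟨x, hx⟩ : ∃ x, x = M.x ∘ e.symm := ⟨_, rfl⟩
  obtain ⟨n, hn⟩ : ∃ n, n = sardN M a ∘ e.symm := ⟨_, rfl⟩
  have cx : ContDiffAt ℝ ∞ x (e p) := hx ▸ sard_at M.sm_x he hz
  have dx := (cx.differentiableAt (by simp)).hasFDerivAt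
  have dn : HasFDerivAt n (fderiv ℝ n (e p)) (e p) :=
    hn ▸ ((sard_at (sardN_sm M a) he hz).differentiableAt (by simp)).hasFDerivAt
  have dd : DifferentiableAt ℝ (fderiv ℝ x) (e p) :=
    (cx.fderiv_right (m := 1) (by exact sard_two)).differentiableAt (by simp)
  have dg : DifferentiableAt ℝ (fderiv ℝ ((fun p => ‖M.x p - y‖ ^ 2) ∘ e.symm)) (e p) :=
    ((sard_at (sard_sm M y) he hz).fderiv_right (m := 1) (by exact sard_two)).differentiableAt (by simp)
  have key : M.PL p (fderiv ℝ x (e p) v + (-s) • fderiv ℝ n (e p) v) = 0 := by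
    rw [sard_perp he hp, ← hx]
    intro w
    have a1 := ((dx.add (dn.const_smul (-s))).sub_const y).inner ℝ (Imm.hasFDerivAt_apply_const dd w)
    have a2 := (Imm.hasFDerivAt_apply_const dg w).const_mul (1 / 2 : ℝ)
    have ev : (fun z => ⟪(x + (-s) • n) z - y, fderiv ℝ x z w⟫) =ᶠ[𝓝 (e p)]
        fun z => 1 / 2 * fderiv ℝ ((fun p => ‖M.x p - y‖ ^ 2) ∘ e.symm) z w := by
      filter_upwards [e.open_target.mem_nhds hz] with z hz'
      have b1 : HasFDerivAt x (fderiv ℝ x z) z :=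
        hx ▸ ((sard_at M.sm_x he hz').differentiableAt (by simp)).hasFDerivAt
      have b2 := (b1.sub_const y).norm_sq
      have b3 : ((fun p => ‖M.x p - y‖ ^ 2) ∘ e.symm) = fun z => ‖x z - y‖ ^ 2 := by rw [hx]; rfl
      have b4 := (sard_perp he (e.map_target hz')).1 (sardN_PL M a _) w
      rw [e.right_inv hz', ← hx] at b4
      have b5 : ⟪n z, fderiv ℝ x z w⟫ = 0 := by rw [hn]; exact b4
      rw [b3, b2.fderiv]
      have : (x + (-s) • n) z - y = (x z - y) + (-s) • n z := by simp only [Pi.add_apply, Pi.smul_apply]; abel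
      rw [this, inner_add_left, inner_smul_left, b5]
      simp [inner_sub_left]
    have a3 := congrArg (fun L : E (Fin 2) →L[ℝ] ℝ => L v) ((a1.congr_of_eventuallyEq ev.symm).unique a2)
    have z0 : (x + (-s) • n) (e p) - y = 0 := by rw [hx, hn, ← hy]; simp [sardΨ]
    simp only [ContinuousLinearMap.comp_apply, fderivInnerCLM_apply, ContinuousLinearMap.prod_apply, z0,
      inner_zero_left, zero_add, smul_apply, ContinuousLinearMap.flip_apply, hv w, smul_zero] at a3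
    simpa using a3
  obtain ⟨t, ht⟩ := sard_line M p (sardN_PL M a p) ha key
  have : T (v, -t) = T 0 := by
    rw [hT', map_zero, ← hx, ← hn]
    simp only []
    rw [ht, hn]
    simp [e.left_inv hp]
  exact v0 (congrArg Prod.fst (inj this))

/-- nondegenerate critical points are isolated -/
theorem sard_iso (hf : M.Sm f)
    (hn : ¬ ∃ v, v ≠ 0 ∧ ∀ w, fderiv ℝ (fderiv ℝ (f ∘ (M.ch p).symm)) (M.ch p p) v w = 0) :
    ∀ᶠ q in 𝓝 p, M.grad f q = 0 → q = p := by
  have he := M.isChart p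
  have hp := M.mem p
  have dg : DifferentiableAt ℝ (fderiv ℝ (f ∘ (M.ch p).symm)) (M.ch p p) :=
    ((sard_at hf he ((M.ch p).map_source hp)).fderiv_right (m := 1) (by exact sard_two)).differentiableAt (by simp)
  have al : ∃ C, AntilipschitzWith C (fderiv ℝ (fderiv ℝ (f ∘ (M.ch p).symm)) (M.ch p p)) := by
    obtain ⟨C, -, hC⟩ := LinearMap.exists_antilipschitzWith
      (fderiv ℝ (fderiv ℝ (f ∘ (M.ch p).symm)) (M.ch p p) : E (Fin 2) →ₗ[ℝ] (E (Fin 2) →L[ℝ] ℝ))
      (LinearMap.ker_eq_bot'.2 fun v hv => by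
        by_contra v0
        exact hn ⟨v, v0, fun w => congrArg (fun L : E (Fin 2) →L[ℝ] ℝ => L w) hv⟩)
    exact ⟨C, hC⟩
  have := eventually_nhdsWithin_iff.1 (dg.hasFDerivAt.eventually_ne (c := 0) al)
  filter_upwards [((M.ch p).continuousAt hp).eventually this, (M.ch p).open_source.mem_nhds hp] with q h1 h2 h3
  by_contra ne
  refine h1 (fun k => ne ((M.ch p).injOn h2 hp k)) ?_
  rw [Imm.fderiv_chart f he h2, sard_td h3, ContinuousLinearMap.zero_comp]

end

theorem sardS_of (hF : FrS) : SardS := by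
  intro X _ _ _ _ _ _ M y η η0
  obtain ⟨t, -, ht⟩ := isCompact_univ.elim_nhds_subcover (fun p : X => (M.ch p).source)
    fun p _ => (M.ch p).open_source.mem_nhds (M.mem p)
  have null : volume (⋃ p ∈ t, ⋃ a : Fin 3, sardΨ M (M.ch p) a ''
      {k | k.1 ∈ (M.ch p).target ∧ ¬ Injective (fderiv ℝ (sardΨ M (M.ch p) a) k)}) = 0 :=
    (measure_biUnion_null_iff t.countable_toSet).2 fun p _ => measure_iUnion_null fun a => sard_null (M.isChart p) a
  obtain ⟨y', hy, hy'⟩ : ∃ y' ∈ Metric.ball y η, y' ∉ ⋃ p ∈ t, ⋃ a : Fin 3, sardΨ M (M.ch p) a ''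
      {k | k.1 ∈ (M.ch p).target ∧ ¬ Injective (fderiv ℝ (sardΨ M (M.ch p) a) k)} := by
    by_contra h
    push Not at h
    exact (Metric.measure_ball_pos volume y η0).ne' (measure_mono_null h null)
  have hf := sard_sm M y'
  obtain ⟨f, hfd⟩ : ∃ f, f = fun p => ‖M.x p - y'‖ ^ 2 := ⟨_, rfl⟩
  have nd : ∀ p, M.grad f p = 0 →
      ¬ ∃ v, v ≠ 0 ∧ ∀ w, fderiv ℝ (fderiv ℝ (f ∘ (M.ch p).symm)) (M.ch p p) v w = 0 := by
    intro p hp hv
    obtain ⟨q, hq, hpq⟩ := mem_iUnion₂.1 (ht (mem_univ p))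
    rw [hfd] at hp hv
    obtain ⟨a, ha⟩ := sard_crit (M.isChart q) hpq hp (sard_move hf hp (M.isChart p) (M.mem p) (M.isChart q) hpq hv)
    exact hy' (mem_iUnion₂.2 ⟨q, hq, mem_iUnion.2 ⟨a, ha⟩⟩)
  rw [← hfd] at hf
  have fin : {p | M.grad f p = 0}.Finite := by
    refine (isClosed_eq hf.grad.continuous continuous_const).isCompact.finite ?_
    rw [isDiscrete_iff_nhdsNE]
    intro p hp
    rw [inf_principal_eq_bot]
    refine mem_nhdsWithin_iff_eventually.2 ((sard_iso hf (nd p hp)).mono fun q hq ne k => ne (hq k))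
  refine ⟨y', fin.toFinset, mem_ball_iff_norm.1 hy, hfd ▸ ⟨hf, fun p => by simp, fun p hp h => ?_⟩⟩
  have hp' : M.grad f p = 0 := by simpa using hp
  have := (hF X M p).2 f hf hp' _ rfl _ rfl
  rw [h, zero_mul, mul_eq_zero, or_iff_right two_ne_zero] at this
  refine nd p hp' ((sard_ker _ ?_).1 this)
  exact ((sard_at hf (M.isChart p) ((M.ch p).map_source (M.mem p))).isSymmSndFDerivAt
    (by simpa using sard_two)).eq

theorem sardS : SardS := sardS_of frS

end Crest.Agent.N250.GB
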