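import Crest.Agent.N250.GB.Top4
import Crest.Agent.N250.GB.Asm
import Crest.Agent.N250.GB.Sard_Mg
import Crest.Agent.N250.Gr.Sheet_Mg
import Crest.Agent.N250.FV.Main
import Crest.Agent.N250.FV.Hu1

/-!
# Row 250, local Gauss-Bonnet (helper74): the leaves combined
-/

namespace Crest.Agent.N250.GB

theorem idxS : IdxS := idxS_of boS blS

theorem ixS : IxS := ixS_of topS morS frS (pcS_of frS lvS)

theorem intS : IntS := intS_of idxS sardS

/-- **local Gauss-Bonnet** -/
theorem lgbS : LgbS := lgbS_of idxS ixS sardS sepS

theorem lgbFlowS : Br.LgbFlowS := lgbFlowS_of lgbS intS muContS_holds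

/-- the block statement `Init` of the master file -/
theorem initStmt : InitStmt :=
  Br.init_of Or.orS_holds muFinS_holds (wMonoS_of muFinS_holds divS_holds transS_holds) lgbFlowS

end Crest.Agent.N250.GB
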