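import Mathlib
import Crest.Agent.N250.GB.Defs

-- ▼ part N250/GB/Top1
section

/-!
# Row 250, local Gauss-Bonnet (helper74): a compact curve cannot have exactly one end
-/

set_option autoImplicit false
open Set Filter Topology Function

namespace Crest.Agent.N250.GB

variable {X : Type} [TopologicalSpace X]

/-- an interval chart of the set `Γ` -/
structure Ch (Γ N : Set X) (κ : X → ℝ) (γ : ℝ → X) (I : Set ℝ) : Prop where
  op : IsOpen N
  cκ : ContinuousOn κ N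
  oc : I.OrdConnected
  cγ : ContinuousOn γ I
  mem : ∀ x ∈ I, γ x ∈ Γ ∧ γ x ∈ N
  κγ : ∀ x ∈ I, κ (γ x) = x
  γκ : ∀ y ∈ Γ, y ∈ N → κ y ∈ I ∧ γ (κ y) = y

theorem Ch.neg {Γ N : Set X} {κ : X → ℝ} {γ : ℝ → X} {I : Set ℝ} (h : Ch Γ N κ γ I) :
    Ch Γ N (fun y => -κ y) (fun x => γ (-x)) {x | -x ∈ I} where
  op := h.op
  cκ := h.cκ.neg
  oc := ⟨fun x hx y hy z hz => h.oc.out hy hx ⟨neg_le_neg hz.2, neg_le_neg hz.1⟩⟩
  cγ := h.cγ.comp continuous_neg.continuousOn fun x hx => hx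
  mem x hx := h.mem _ hx
  κγ x hx := by rw [h.κγ _ hx, neg_neg]
  γκ y hy hN := by simpa using h.γκ y hy hN

/-- injective paths from `p` inside `Γ` -/
structure Gd (Γ : Set X) (p : X) (α : ℝ → X) (L : ℝ) : Prop where
  pos : 0 < L
  ct : ContinuousOn α (Icc 0 L)
  inj : InjOn α (Icc 0 L)
  st : α 0 = p
  mem : ∀ s ∈ Icc 0 L, α s ∈ Γ

variable {Γ : Set X} {p : X}

/-- near a parameter the path stays in the chart and the coordinate is strictly monotone -/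
theorem Gd.loc {α : ℝ → X} {L : ℝ} (h : Gd Γ p α L) {N : Set X} {κ : X → ℝ} {γ : ℝ → X}
    {I : Set ℝ} (c : Ch Γ N κ γ I) {s : ℝ} (hs : s ∈ Icc 0 L) (hN : α s ∈ N) :
    ∃ η > 0, ∀ a b, 0 ≤ a → s - η ≤ a → a ≤ b → b ≤ L → b ≤ s + η →
      (∀ u ∈ Icc a b, α u ∈ N) ∧ ContinuousOn (fun u => κ (α u)) (Icc a b) ∧
      (StrictMonoOn (fun u => κ (α u)) (Icc a b) ∨ StrictAntiOn (fun u => κ (α u)) (Icc a b)) := by
  have h1 : α ⁻¹' N ∈ 𝓝[Icc 0 L] s := h.ct s hs (c.op.mem_nhds hN)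
  obtain ⟨ε, hε, h2⟩ := Metric.mem_nhdsWithin_iff.1 h1
  refine ⟨ε / 2, by positivity, fun a b ha hsa hab hb hbs => ?_⟩
  have sub : Icc a b ⊆ Icc 0 L := Icc_subset_Icc ha hb
  have hN' : ∀ u ∈ Icc a b, α u ∈ N := fun u hu => h2 ⟨by
    rw [Metric.mem_ball, Real.dist_eq, abs_lt]; constructor <;> linarith [hu.1, hu.2], sub hu⟩
  have hc : ContinuousOn (fun u => κ (α u)) (Icc a b) := c.cκ.comp (h.ct.mono sub) hN'
  refine ⟨hN', hc, hc.strictMonoOn_of_injOn_Icc' hab fun u hu v hv huv => ?_⟩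
  apply h.inj (sub hu) (sub hv)
  rw [← (c.γκ _ (h.mem u (sub hu)) (hN' u hu)).2, ← (c.γκ _ (h.mem v (sub hv)) (hN' v hv)).2]
  exact congrArg γ huv

/-- the hypotheses: one end `p`, all other points are interior points -/
structure OneEnd (Γ : Set X) (p : X) : Prop where
  cpt : IsCompact Γ
  mem : p ∈ Γ
  ed : ∃ N κ γ r, 0 < r ∧ Ch Γ N κ γ (Ico 0 r) ∧ p ∈ N ∧ κ p = 0
  int : ∀ q ∈ Γ, q ≠ p → ∃ N κ γ r, 0 < r ∧ Ch Γ N κ γ (Ioo (-r) r) ∧ q ∈ N ∧ κ q = 0

theorem cover_of_ivt {α : ℝ → X} {L : ℝ} (h : Gd Γ p α L) {N : Set X} {κ : X → ℝ} {γ : ℝ → X}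
    {I : Set ℝ} (c : Ch Γ N κ γ I) {a b : ℝ} (ha : 0 ≤ a) (hab : a ≤ b) (hb : b < L)
    (hN : ∀ u ∈ Icc a b, α u ∈ N) (hc : ContinuousOn (fun u => κ (α u)) (Icc a b))
    {y : X} (hy : y ∈ Γ) (hyN : y ∈ N) (hk : κ y ∈ uIcc (κ (α a)) (κ (α b))) :
    y ∈ α '' Ico 0 L := by
  have h1 := intermediate_value_uIcc (f := fun u => κ (α u)) (a := a) (b := b)
    (by rwa [uIcc_of_le hab])
  obtain ⟨u, hu, h2⟩ := h1 hk
  rw [uIcc_of_le hab] at hu
  refine ⟨u, ⟨ha.trans hu.1, hu.2.trans_lt hb⟩, ?_⟩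
  rw [← (c.γκ _ hy hyN).2,
    ← (c.γκ _ (h.mem u ⟨ha.trans hu.1, hu.2.trans hb.le⟩) (hN u hu)).2]
  exact congrArg γ h2

/-- open mapping -/
theorem OneEnd.om (E : OneEnd Γ p) {α : ℝ → X} {L : ℝ} (h : Gd Γ p α L) {s : ℝ}
    (hs : s ∈ Ico 0 L) : ∃ V, IsOpen V ∧ α s ∈ V ∧ ∀ y ∈ Γ, y ∈ V → y ∈ α '' Ico 0 L := by
  have hs' : s ∈ Icc 0 L := Ico_subset_Icc_self hs
  rcases hs.1.eq_or_lt with rfl | h0
  · obtain ⟨N, κ, γ, r, -, c, hN, hk⟩ := E.ed
    obtain ⟨η, hη, h1⟩ := h.loc c hs' (h.st ▸ hN)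
    have hb : 0 < min η (L / 2) := lt_min hη (by linarith [h.pos])
    have hbL : min η (L / 2) < L := (min_le_right _ _).trans_lt (by linarith [h.pos])
    obtain ⟨h2, h3, h4⟩ := h1 0 (min η (L / 2)) le_rfl (by linarith) hb.le hbL.le
      (by simp)
    have h5 : 0 < κ (α (min η (L / 2))) := by
      have h6 := (c.γκ _ (h.mem _ ⟨hb.le, hbL.le⟩) (h2 _ ⟨hb.le, le_rfl⟩)).1.1
      rcases h4 with h4 | h4
      · have := h4 ⟨le_rfl, hb.le⟩ ⟨hb.le, le_rfl⟩ hb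
        simp only [h.st, hk] at this
        exact this
      · have := h4 ⟨le_rfl, hb.le⟩ ⟨hb.le, le_rfl⟩ hb
        simp only [h.st, hk] at this
        linarith
    refine ⟨N ∩ κ ⁻¹' Iio (κ (α (min η (L / 2)))), c.cκ.isOpen_inter_preimage c.op isOpen_Iio,
      ⟨h.st ▸ hN, by simpa [h.st, hk] using h5⟩, fun y hy hV => ?_⟩
    refine cover_of_ivt h c le_rfl hb.le hbL h2 h3 hy hV.1 ?_
    rw [h.st, hk, uIcc_of_le h5.le]
    exact ⟨(c.γκ _ hy hV.1).1.1, le_of_lt hV.2⟩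
  · have hne : α s ≠ p := fun e => h0.ne' (h.inj hs' ⟨le_rfl, h.pos.le⟩ (e.trans h.st.symm))
    obtain ⟨N, κ, γ, r, -, c, hN, hk⟩ := E.int _ (h.mem s hs') hne
    obtain ⟨η, hη, h1⟩ := h.loc c hs' hN
    set ρ := min η (min s ((L - s) / 2)) with hρ
    have hρ0 : 0 < ρ := lt_min hη (lt_min h0 (by linarith [hs.2]))
    have r1 : ρ ≤ η := min_le_left _ _
    have r2 : ρ ≤ s := (min_le_right _ _).trans (min_le_left _ _)
    have r3 : ρ ≤ (L - s) / 2 := (min_le_right _ _).trans (min_le_right _ _)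
    obtain ⟨h2, h3, h4⟩ := h1 (s - ρ) (s + ρ) (by linarith) (by linarith) (by linarith)
      (by linarith [hs.2]) (by linarith)
    have m1 : s - ρ ∈ Icc (s - ρ) (s + ρ) := ⟨le_rfl, by linarith⟩
    have m2 : s ∈ Icc (s - ρ) (s + ρ) := ⟨by linarith, by linarith⟩
    have m3 : s + ρ ∈ Icc (s - ρ) (s + ρ) := ⟨by linarith, le_rfl⟩
    refine ⟨N ∩ κ ⁻¹' uIoo (κ (α (s - ρ))) (κ (α (s + ρ))),
      c.cκ.isOpen_inter_preimage c.op isOpen_Ioo, ⟨hN, ?_⟩, fun y hy hV => ?_⟩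
    · rcases h4 with h4 | h4
      · exact mem_uIoo_of_lt (h4 m1 m2 (by linarith)) (h4 m2 m3 (by linarith))
      · exact mem_uIoo_of_gt (h4 m2 m3 (by linarith)) (h4 m1 m2 (by linarith))
    · exact cover_of_ivt h c (by linarith) (by linarith) (by linarith [hs.2]) h2 h3 hy hV.1
        (uIoo_subset_uIcc_self hV.2)

variable [T2Space X]

/-- each side of the end point of a path is covered or missed -/
theorem OneEnd.side (E : OneEnd Γ p) {α : ℝ → X} {L : ℝ} (h : Gd Γ p α L) {N : Set X}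
    {κ : X → ℝ} {γ : ℝ → X} {I : Set ℝ} (c : Ch Γ N κ γ I) (hN : α L ∈ N) {S : Set ℝ}
    (hS : S.OrdConnected) (hSI : S ⊆ I) (hx : κ (α L) ∉ S) :
    (∀ x ∈ S, γ x ∈ α '' Icc 0 L) ∨ ∀ x ∈ S, γ x ∉ α '' Icc 0 L := by
  by_contra hc
  push Not at hc
  obtain ⟨⟨x, hxS, hx1⟩, y, hyS, hy1⟩ := hc
  choose! V hV1 hV2 hV3 using fun s (hs : s ∈ Ico 0 L) => E.om h hs
  have key : ∀ z ∈ S, γ z ∈ α '' Icc 0 L → γ z ∈ ⋃ s ∈ Ico 0 L, V s := by
    rintro z hz ⟨s, hs, e⟩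
    have hsL : s < L := by
      refine hs.2.lt_of_ne ?_
      rintro rfl
      exact hx (by rw [e, c.κγ z (hSI hz)]; exact hz)
    exact mem_biUnion (⟨hs.1, hsL⟩ : s ∈ Ico 0 L) (e ▸ hV2 s ⟨hs.1, hsL⟩)
  have hcl : IsClosed (α '' Icc 0 L) := (isCompact_Icc.image_of_continuousOn h.ct).isClosed
  obtain ⟨w, ⟨z, hz, rfl⟩, h1, h2⟩ := (hS.isPreconnected.image γ (c.cγ.mono hSI))
    (⋃ s ∈ Ico 0 L, V s) (α '' Icc 0 L)ᶜ (isOpen_biUnion hV1) hcl.isOpen_compl
    (by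
      rintro _ ⟨z, hz, rfl⟩
      by_cases h3 : γ z ∈ α '' Icc 0 L
      · exact Or.inl (key z hz h3)
      · exact Or.inr h3)
    ⟨γ y, mem_image_of_mem _ hyS, key y hyS hy1⟩ ⟨γ x, mem_image_of_mem _ hxS, hx1⟩
  obtain ⟨s, hs, h3⟩ := mem_iUnion₂.1 h1
  exact h2 (image_mono Ico_subset_Icc_self (hV3 s hs _ (c.mem z (hSI hz)).1 h3))

/-- a path that arrives from the left can be extended to the right -/
theorem OneEnd.ext (E : OneEnd Γ p) {α : ℝ → X} {L : ℝ} (h : Gd Γ p α L) {N : Set X}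
    {κ : X → ℝ} {γ : ℝ → X} {I : Set ℝ} (c : Ch Γ N κ γ I) (hN : α L ∈ N) {a : ℝ} (ha : 0 ≤ a)
    (haL : a < L) (h2 : ∀ u ∈ Icc a L, α u ∈ N)
    (hm : StrictMonoOn (fun u => κ (α u)) (Icc a L)) :
    (∀ x ∈ I, x ≤ κ (α L) → γ x ∈ α '' Icc 0 L) ∧
    (∀ x ∈ I, κ (α L) < x → γ x ∉ α '' Icc 0 L) ∧
    ∀ x₁ ∈ I, κ (α L) < x₁ → ∃ β, Gd Γ p β (L + 1) ∧ α '' Icc 0 L ⊆ β '' Icc 0 (L + 1) ∧
      ∀ x ∈ I, x ≤ x₁ → γ x ∈ β '' Icc 0 (L + 1) := by
  set x₀ := κ (α L) with hx₀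
  have hL : L ∈ Icc 0 L := ⟨h.pos.le, le_rfl⟩
  obtain ⟨hx₀I, hγ₀⟩ := c.γκ _ (h.mem L hL) hN
  have A : ∀ x ∈ I, x ≤ x₀ → γ x ∈ α '' Icc 0 L := by
    intro x hx hle
    rcases hle.eq_or_lt with rfl | hlt
    · exact ⟨L, hL, hγ₀.symm⟩
    rcases E.side h c hN (S := I ∩ Iio x₀) (c.oc.inter ordConnected_Iio) inter_subset_left
      (fun e => lt_irrefl x₀ e.2) with h3 | h3
    · exact h3 x ⟨hx, hlt⟩
    · have ha' : a ∈ Icc 0 L := ⟨ha, haL.le⟩
      obtain ⟨h4, h5⟩ := c.γκ _ (h.mem a ha') (h2 a ⟨le_rfl, haL.le⟩)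
      exact absurd ⟨a, ha', h5.symm⟩
        (h3 _ ⟨h4, hm ⟨le_rfl, haL.le⟩ ⟨haL.le, le_rfl⟩ haL⟩)
  have B : ∀ x ∈ I, x₀ < x → γ x ∉ α '' Icc 0 L := by
    intro x hx hlt
    rcases E.side h c hN (S := I ∩ Ioi x₀) (c.oc.inter ordConnected_Ioi) inter_subset_left
      (fun e => lt_irrefl x₀ e.2) with h3 | h3
    · exfalso
      have hcl : IsClosed (α '' Icc 0 a) :=
        (isCompact_Icc.image_of_continuousOn (h.ct.mono (Icc_subset_Icc le_rfl haL.le))).isClosed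
      have hn : γ x₀ ∈ (α '' Icc 0 a)ᶜ := by
        rintro ⟨s, hs, e⟩
        have := h.inj ⟨hs.1, hs.2.trans haL.le⟩ hL (e.trans hγ₀)
        linarith [hs.2]
      have h4 : γ ⁻¹' (α '' Icc 0 a)ᶜ ∈ 𝓝[I] x₀ := c.cγ x₀ hx₀I (hcl.isOpen_compl.mem_nhds hn)
      obtain ⟨ε, hε, h5⟩ := Metric.mem_nhdsWithin_iff.1 h4
      set z := min x (x₀ + ε / 2) with hz
      have z1 : x₀ < z := lt_min hlt (by linarith)
      have z2 : z ∈ I := c.oc.out hx₀I hx ⟨z1.le, min_le_left _ _⟩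
      have z3 : z ≤ x₀ + ε / 2 := min_le_right _ _
      obtain ⟨s, hs, e⟩ := h3 z ⟨z2, z1⟩
      have h6 := h5 ⟨by rw [Metric.mem_ball, Real.dist_eq, abs_lt]; constructor <;> linarith, z2⟩
      rcases le_total s a with h7 | h7
      · exact h6 ⟨s, ⟨hs.1, h7⟩, e⟩
      · have h8 := hm.monotoneOn ⟨h7, hs.2⟩ ⟨haL.le, le_rfl⟩ hs.2
        simp only [e, c.κγ z z2] at h8
        linarith
    · exact h3 x ⟨hx, hlt⟩
  refine ⟨A, B, fun x₁ hx₁ hlt => ?_⟩
  set l : ℝ → ℝ := fun s => x₀ + (s - L) * (x₁ - x₀) with hl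
  have lI : ∀ s ∈ Icc L (L + 1), l s ∈ I := fun s hs => c.oc.out hx₀I hx₁
    ⟨by simp only [hl]; nlinarith [hs.1], by simp only [hl]; nlinarith [hs.2]⟩
  have lgt : ∀ s, L < s → x₀ < l s := fun s hs => by simp only [hl]; nlinarith
  set β : ℝ → X := fun s => if s ≤ L then α s else γ (l s) with hβ
  have b1 : ∀ s, s ≤ L → β s = α s := fun s hs => if_pos hs
  have b2 : ∀ s, L ≤ s → β s = γ (l s) := by
    intro s hs
    rcases hs.eq_or_lt with rfl | hs
    · rw [b1 _ le_rfl]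
      simp only [hl, sub_self, zero_mul, add_zero]
      exact hγ₀.symm
    · exact if_neg (not_le.2 hs)
  refine ⟨β, ⟨by linarith [h.pos], ?_, ?_, (b1 0 h.pos.le).trans h.st, ?_⟩, ?_, ?_⟩
  · rw [← Icc_union_Icc_eq_Icc h.pos.le (by linarith : L ≤ L + 1)]
    refine ContinuousOn.union_of_isClosed (h.ct.congr fun s hs => b1 s hs.2)
      ((c.cγ.comp (by fun_prop) lI).congr fun s hs => b2 s hs.1) isClosed_Icc isClosed_Icc
  · intro u hu v hv e
    rcases le_or_gt u L with h3 | h3 <;> rcases le_or_gt v L with h4 | h4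
    · rw [b1 u h3, b1 v h4] at e
      exact h.inj ⟨hu.1, h3⟩ ⟨hv.1, h4⟩ e
    · rw [b1 u h3, b2 v h4.le] at e
      exact absurd ⟨u, ⟨hu.1, h3⟩, e⟩ (B _ (lI v ⟨h4.le, hv.2⟩) (lgt v h4))
    · rw [b2 u h3.le, b1 v h4] at e
      exact absurd ⟨v, ⟨hv.1, h4⟩, e.symm⟩ (B _ (lI u ⟨h3.le, hu.2⟩) (lgt u h3))
    · rw [b2 u h3.le, b2 v h4.le] at e
      have h5 := congrArg κ e
      rw [c.κγ _ (lI u ⟨h3.le, hu.2⟩), c.κγ _ (lI v ⟨h4.le, hv.2⟩)] at h5
      simp only [hl] at h5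
      have h6 : (u - v) * (x₁ - x₀) = 0 := by linarith
      rcases mul_eq_zero.1 h6 with h7 | h7 <;> linarith
  · intro s hs
    rcases le_total s L with h3 | h3
    · rw [b1 s h3]; exact h.mem s ⟨hs.1, h3⟩
    · rw [b2 s h3]; exact (c.mem _ (lI s ⟨h3, hs.2⟩)).1
  · rintro _ ⟨s, hs, rfl⟩
    exact ⟨s, ⟨hs.1, by linarith [hs.2]⟩, b1 s hs.2⟩
  · intro x hx hle
    rcases le_or_gt x x₀ with h3 | h3
    · obtain ⟨s, hs, e⟩ := A x hx h3
      exact ⟨s, ⟨hs.1, by linarith [hs.2]⟩, (b1 s hs.2).trans e⟩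
    · have d0 : 0 < x₁ - x₀ := by linarith
      have q0 : 0 ≤ (x - x₀) / (x₁ - x₀) := div_nonneg (by linarith) d0.le
      have q1 : (x - x₀) / (x₁ - x₀) ≤ 1 := (div_le_one d0).2 (by linarith)
      refine ⟨L + (x - x₀) / (x₁ - x₀), ⟨by linarith [h.pos], by linarith⟩, ?_⟩
      rw [b2 _ (by linarith)]
      congr 1
      simp only [hl]
      field_simp
      ring

/-- the property of the cores of the charts -/
def Core (Γ : Set X) (p : X) (Z : Set X) : Prop := ∀ α L, Gd Γ p α L → α L ∈ Z →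
  ∃ β L', Gd Γ p β L' ∧ α '' Icc 0 L ⊆ β '' Icc 0 L' ∧ Γ ∩ Z ⊆ β '' Icc 0 L' ∧
    ¬ Γ ∩ Z ⊆ α '' Icc 0 L

theorem OneEnd.core_aux (E : OneEnd Γ p) {α : ℝ → X} {L : ℝ} (h : Gd Γ p α L) {N : Set X}
    {κ : X → ℝ} {γ : ℝ → X} {I : Set ℝ} (c : Ch Γ N κ γ I) {r : ℝ} (hr : r ∈ I)
    (hZ : α L ∈ N ∩ κ ⁻¹' Ioo (-r) r) {a : ℝ} (ha : 0 ≤ a)
    (haL : a < L) (h2 : ∀ u ∈ Icc a L, α u ∈ N)
    (hm : StrictMonoOn (fun u => κ (α u)) (Icc a L)) :
    ∃ β L', Gd Γ p β L' ∧ α '' Icc 0 L ⊆ β '' Icc 0 L' ∧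
      Γ ∩ (N ∩ κ ⁻¹' Ioo (-r) r) ⊆ β '' Icc 0 L' ∧
      ¬ Γ ∩ (N ∩ κ ⁻¹' Ioo (-r) r) ⊆ α '' Icc 0 L := by
  obtain ⟨-, B, C⟩ := E.ext h c hZ.1 ha haL h2 hm
  obtain ⟨β, b1, b2, b3⟩ := C r hr hZ.2.2
  refine ⟨β, L + 1, b1, b2, fun y hy => ?_, fun hc => ?_⟩
  · obtain ⟨h3, h4⟩ := c.γκ y hy.1 hy.2.1
    rw [← h4]
    exact b3 _ h3 hy.2.2.2.le
  · have h0 := (c.γκ _ (h.mem L ⟨h.pos.le, le_rfl⟩) hZ.1).1
    have h3 := hZ.2.1
    have h4 := hZ.2.2
    have h5 : (κ (α L) + r) / 2 ∈ I := c.oc.out h0 hr ⟨by linarith, by linarith⟩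
    refine B _ h5 (by linarith) (hc ⟨(c.mem _ h5).1, (c.mem _ h5).2, ?_⟩)
    rw [mem_preimage, c.κγ _ h5]
    exact ⟨by linarith, by linarith⟩

theorem OneEnd.exists_core (E : OneEnd Γ p) {q : X} (hq : q ∈ Γ) :
    ∃ Z, IsOpen Z ∧ q ∈ Z ∧ Core Γ p Z := by
  have pre : ∀ {N : Set X} {κ : X → ℝ} {γ : ℝ → X} {I : Set ℝ}, Ch Γ N κ γ I →
      ∀ α L, Gd Γ p α L → α L ∈ N → ∃ a, 0 ≤ a ∧ a < L ∧ (∀ u ∈ Icc a L, α u ∈ N) ∧
      (StrictMonoOn (fun u => κ (α u)) (Icc a L) ∨ StrictAntiOn (fun u => κ (α u)) (Icc a L)) := by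
    intro N κ γ I c α L h hN
    obtain ⟨η, hη, h1⟩ := h.loc c ⟨h.pos.le, le_rfl⟩ hN
    have h2 : max 0 (L - η) < L := max_lt h.pos (by linarith)
    obtain ⟨h3, -, h4⟩ := h1 (max 0 (L - η)) L (le_max_left _ _) (le_max_right _ _) h2.le le_rfl
      (by linarith)
    exact ⟨_, le_max_left _ _, h2, h3, h4⟩
  by_cases hp : q = p
  · subst hp
    obtain ⟨N, κ, γ, r, hr, c, hN, hk⟩ := E.ed
    refine ⟨N ∩ κ ⁻¹' Ioo (-(r / 2)) (r / 2), c.cκ.isOpen_inter_preimage c.op isOpen_Ioo,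
      ⟨hN, by rw [mem_preimage, hk]; exact ⟨by linarith, by linarith⟩⟩, fun α L h hZ => ?_⟩
    obtain ⟨a, ha, haL, h2, hm | hm⟩ := pre c α L h hZ.1
    · exact E.core_aux h c ⟨by linarith, by linarith⟩ hZ ha haL h2 hm
    · exfalso
      obtain ⟨-, B, -⟩ := E.ext h c.neg hZ.1 ha haL h2 hm.neg
      obtain ⟨h3, h4⟩ := c.γκ _ (h.mem L ⟨h.pos.le, le_rfl⟩) hZ.1
      have h5 := (c.γκ _ hq hN).2
      rw [hk] at h5
      have h6 : κ (α L) ≠ 0 := by
        intro e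
        rw [e, h5] at h4
        exact h.pos.ne (h.inj ⟨le_rfl, h.pos.le⟩ ⟨h.pos.le, le_rfl⟩ (h.st.trans h4))
      refine B 0 (by simpa using hr) (by have := h3.1.lt_of_ne' h6; linarith) ?_
      exact ⟨0, ⟨le_rfl, h.pos.le⟩, by simp [h.st, h5]⟩
  · obtain ⟨N, κ, γ, r, hr, c, hN, hk⟩ := E.int q hq hp
    refine ⟨N ∩ κ ⁻¹' Ioo (-(r / 2)) (r / 2), c.cκ.isOpen_inter_preimage c.op isOpen_Ioo,
      ⟨hN, by rw [mem_preimage, hk]; exact ⟨by linarith, by linarith⟩⟩, fun α L h hZ => ?_⟩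
    obtain ⟨a, ha, haL, h2, hm | hm⟩ := pre c α L h hZ.1
    · exact E.core_aux h c ⟨by linarith, by linarith⟩ hZ ha haL h2 hm
    · have e : (fun y => -κ y) ⁻¹' Ioo (-(r / 2)) (r / 2) = κ ⁻¹' Ioo (-(r / 2)) (r / 2) := by
        ext y
        simp only [mem_preimage, mem_Ioo]
        constructor <;> rintro ⟨h3, h4⟩ <;> constructor <;> linarith
      have := E.core_aux h c.neg (r := r / 2) ⟨by linarith, by linarith⟩ (by rw [e]; exact hZ)
        ha haL h2 hm.neg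
      rwa [e] at this

/-- **a compact curve does not have exactly one end** -/
theorem OneEnd.false (E : OneEnd Γ p) : False := by
  classical
  choose! Z hZ1 hZ2 hZ3 using fun q (hq : q ∈ Γ) => E.exists_core hq
  obtain ⟨T, hT, hcov⟩ := E.cpt.elim_nhds_subcover Z fun q hq => (hZ1 q hq).mem_nhds (hZ2 q hq)
  have step : ∀ n : ℕ, ∃ α L, Gd Γ p α L ∧
      n ≤ (T.filter fun q => Γ ∩ Z q ⊆ α '' Icc 0 L).card := by
    intro n
    induction n with
    | zero =>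
      obtain ⟨N, κ, γ, r, hr, c, hN, hk⟩ := E.ed
      have sub : Icc 0 (r / 2) ⊆ Ico 0 r := fun x hx => ⟨hx.1, by linarith [hx.2]⟩
      refine ⟨γ, r / 2, ⟨by linarith, c.cγ.mono sub, fun u hu v hv e => ?_, ?_,
        fun s hs => (c.mem s (sub hs)).1⟩, Nat.zero_le _⟩
      · rw [← c.κγ u (sub hu), e, c.κγ v (sub hv)]
      · rw [← hk]; exact (c.γκ _ E.mem hN).2
    | succ n ih =>
      obtain ⟨α, L, h, hn⟩ := ih
      obtain ⟨q, hq, h1⟩ := mem_iUnion₂.1 (hcov (h.mem L ⟨h.pos.le, le_rfl⟩))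
      obtain ⟨β, L', b1, b2, b3, b4⟩ := hZ3 q (hT q hq) α L h h1
      refine ⟨β, L', b1, Nat.succ_le_of_lt (hn.trans_lt (Finset.card_lt_card ⟨fun x hx => ?_,
        fun hc => ?_⟩))⟩
      · rw [Finset.mem_filter] at hx ⊢
        exact ⟨hx.1, hx.2.trans b2⟩
      · exact b4 (Finset.mem_filter.1 (hc (Finset.mem_filter.2 ⟨hq, b3⟩))).2
  obtain ⟨α, L, -, h⟩ := step (T.card + 1)
  exact absurd (h.trans (Finset.card_filter_le _ _)) (by omega)

end Crest.Agent.N250.GB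
end

-- ▼ part N250/GB/Top2
section

/-!
# Row 250, local Gauss-Bonnet (helper74): counting components of superlevel sets
-/

set_option autoImplicit false
open Set Filter Topology Function

namespace Crest.Agent.N250.GB

theorem antitone_of_local {Φ : ℝ → ℤ} (hr : ∀ s₀, ∀ᶠ s in 𝓝[>] s₀, Φ s ≤ Φ s₀)
    (hl : ∀ s₀, ∀ᶠ s in 𝓝[<] s₀, Φ s₀ ≤ Φ s) : Antitone Φ := by
  intro a b hab
  set S := {x ∈ Icc a b | ∀ y ∈ Icc a x, Φ y ≤ Φ a} with hS
  have haS : a ∈ S := ⟨⟨le_rfl, hab⟩, fun y hy => by rw [le_antisymm hy.2 hy.1]⟩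
  have hb : BddAbove S := ⟨b, fun x hx => hx.1.2⟩
  set c := sSup S with hc
  have ac : a ≤ c := le_csSup hb haS
  have cb : c ≤ b := csSup_le ⟨a, haS⟩ fun x hx => hx.1.2
  have lt : ∀ y, a ≤ y → y < c → Φ y ≤ Φ a := fun y h1 h2 => by
    obtain ⟨x, hx, h3⟩ := exists_lt_of_lt_csSup ⟨a, haS⟩ h2
    exact hx.2 y ⟨h1, h3.le⟩
  have cS : ∀ y ∈ Icc a c, Φ y ≤ Φ a := by
    intro y hy
    rcases hy.2.lt_or_eq with h | rfl
    · exact lt y hy.1 h
    rcases ac.eq_or_lt with h | h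
    · rw [← h]
    · obtain ⟨z, h1, h2⟩ := ((hl c).and (Ioo_mem_nhdsLT h)).exists
      exact h1.trans (lt z h2.1.le h2.2)
  rcases cb.eq_or_lt with h | h
  · exact cS b ⟨hab, h.ge⟩
  · exfalso
    obtain ⟨u, hu, h1⟩ := mem_nhdsGT_iff_exists_Ioo_subset.1 ((hr c).and (Ioo_mem_nhdsGT h))
    have hu' : c < u := hu
    have h2 := h1 (⟨by linarith, by linarith⟩ : (c + u) / 2 ∈ Ioo c u)
    have h3 : (c + u) / 2 ∈ S := by
      refine ⟨⟨by linarith, h2.2.2.le⟩, fun y hy => ?_⟩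
      rcases le_or_gt y c with h4 | h4
      · exact cS y ⟨hy.1, h4⟩
      · exact (h1 ⟨h4, by linarith [hy.2]⟩).1.trans (cS c ⟨ac, le_rfl⟩)
    linarith [le_csSup hb h3]

theorem card_image_le_of {α β γ : Type*} [DecidableEq β] [DecidableEq γ] (A : Finset α)
    (g : α → β) (h : α → γ) (H : ∀ a ∈ A, ∀ b ∈ A, g a = g b → h a = h b) :
    (A.image h).card ≤ (A.image g).card := by
  classical
  rcases A.eq_empty_or_nonempty with rfl | ⟨a₀, -⟩
  · simp
  let k : β → γ := fun y => if e : ∃ a ∈ A, g a = y then h e.choose else h a₀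
  have : A.image h ⊆ (A.image g).image k := by
    intro z hz
    obtain ⟨a, ha, rfl⟩ := Finset.mem_image.1 hz
    have e : ∃ a' ∈ A, g a' = g a := ⟨a, ha, rfl⟩
    refine Finset.mem_image.2 ⟨g a, Finset.mem_image_of_mem _ ha, ?_⟩
    simp only [k, dif_pos e]
    exact H _ e.choose_spec.1 _ ha e.choose_spec.2
  exact (Finset.card_le_card this).trans Finset.card_image_le

variable {X : Type} [TopologicalSpace X]

/-- superlevel set -/
def Sp (f : X → ℝ) (s : ℝ) : Set X := {x | s < f x}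

/-- component -/
abbrev cc (O : Set X) (a : X) : Set X := connectedComponentIn O a

/-- `U` is a component of `O` that touches `q` -/
def Tc (O : Set X) (q : X) (U : Set X) : Prop := (∃ a ∈ O, U = cc O a) ∧ q ∈ closure U

/-- two components of the superlevel set merge at `q` -/
def Up (f : X → ℝ) (q : X) : Prop :=
  ∃ U U', Tc (Sp f (f q)) q U ∧ Tc (Sp f (f q)) q U' ∧ U ≠ U'

/-- the local hypotheses -/
structure Lc (f : X → ℝ) (C : Finset X) : Prop where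
  ct : Continuous f
  mx : ∀ m, IsLocalMax f m → m ∈ C
  up : ∀ q, Up f q → q ∈ C
  three : ∀ q U₁ U₂ U₃, Tc (Sp f (f q)) q U₁ → Tc (Sp f (f q)) q U₂ → Tc (Sp f (f q)) q U₃ →
    U₁ = U₂ ∨ U₁ = U₃ ∨ U₂ = U₃
  inj : InjOn f C

open Classical in
/-- maxima above `s` -/
noncomputable def Mx (f : X → ℝ) (C : Finset X) (s : ℝ) : Finset X :=
  C.filter fun m => IsLocalMax f m ∧ s < f m

open Classical in
/-- components above `s` -/
noncomputable def Cp (f : X → ℝ) (C : Finset X) (s : ℝ) : Finset (Set X) :=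
  (Mx f C s).image (cc (Sp f s))

open Classical in
/-- merging points above `s` -/
noncomputable def Ud (f : X → ℝ) (C : Finset X) (s : ℝ) : Finset X :=
  C.filter fun q => Up f q ∧ s < f q

/-- the monotone quantity -/
noncomputable def Ph (f : X → ℝ) (C : Finset X) (s : ℝ) : ℤ :=
  (Cp f C s).card + (Ud f C s).card - (Mx f C s).card

variable {f : X → ℝ} {C : Finset X}

theorem mem_Mx {s : ℝ} {m : X} : m ∈ Mx f C s ↔ m ∈ C ∧ IsLocalMax f m ∧ s < f m := by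
  simp [Mx]

theorem mem_Ud {s : ℝ} {m : X} : m ∈ Ud f C s ↔ m ∈ C ∧ Up f m ∧ s < f m := by
  simp [Ud]

theorem mem_Cp {s : ℝ} {U : Set X} : U ∈ Cp f C s ↔ ∃ m ∈ Mx f C s, cc (Sp f s) m = U := by
  simp [Cp]

theorem isOpen_Sp (h : Continuous f) (s : ℝ) : IsOpen (Sp f s) := isOpen_lt continuous_const h

theorem cc_eq {O : Set X} {a b z : X} (ha : z ∈ cc O a) (hb : z ∈ cc O b) : cc O a = cc O b :=
  (connectedComponentIn_eq ha).trans (connectedComponentIn_eq hb).symm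

theorem le_of_closure (h : Continuous f) {s : ℝ} {a x : X} (hx : x ∈ closure (cc (Sp f s) a)) :
    s ≤ f x :=
  closure_minimal (fun _ hy => le_of_lt (connectedComponentIn_subset (Sp f s) a hy))
    (isClosed_le continuous_const h) hx

variable [LocallyConnectedSpace X]

theorem cc_of_closure {O : Set X} (hO : IsOpen O) {a q : X} (hq : q ∈ O)
    (h : q ∈ closure (cc O a)) : cc O q = cc O a := by
  obtain ⟨z, h1, h2⟩ := mem_closure_iff.1 h _ hO.connectedComponentIn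
    (mem_connectedComponentIn hq)
  exact cc_eq h1 h2

theorem same_cc (h : Continuous f) {s₀ : ℝ} {m m' : X} (hm : s₀ < f m)
    (h' : m' ∈ cc (Sp f s₀) m) : ∀ᶠ s in 𝓝[>] s₀, m' ∈ cc (Sp f s) m := by
  have mono : ∀ {s s' : ℝ} (x : X), s ≤ s' → cc (Sp f s') x ⊆ cc (Sp f s) x :=
    fun x hs => connectedComponentIn_mono x fun y hy => hs.trans_lt hy
  set W := ⋃ s ∈ Ioi s₀, cc (Sp f s) m with hW
  have key : cc (Sp f s₀) m ⊆ W := by
    refine isPreconnected_connectedComponentIn.subset_left_of_subset_union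
      (v := ⋃ s ∈ Ioi s₀, ⋃ x ∈ Sp f s \ W, cc (Sp f s) x)
      (isOpen_biUnion fun s _ => (isOpen_Sp h s).connectedComponentIn)
      (isOpen_biUnion fun s _ => isOpen_biUnion fun x _ => (isOpen_Sp h s).connectedComponentIn)
      ?_ ?_ ?_
    · rw [Set.disjoint_left]
      intro z hz hz'
      obtain ⟨s₁, h1, h2⟩ := mem_iUnion₂.1 hz
      obtain ⟨s₂, h3, h4⟩ := mem_iUnion₂.1 hz'
      obtain ⟨x, h5, h6⟩ := mem_iUnion₂.1 h4
      refine h5.2 (mem_biUnion (mem_Ioi.2 (lt_min (mem_Ioi.1 h1) (mem_Ioi.1 h3))) ?_)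
      rw [cc_eq (mono m (min_le_left _ _) h2) (mono x (min_le_right _ _) h6)]
      exact mem_connectedComponentIn
        (show min s₁ s₂ < f x from (min_le_right _ _).trans_lt (show s₂ < f x from h5.1))
    · intro z hz
      by_cases h1 : z ∈ W
      · exact Or.inl h1
      · have h2 : s₀ < f z := connectedComponentIn_subset (Sp f s₀) m hz
        have h3 : z ∈ Sp f ((s₀ + f z) / 2) := show (s₀ + f z) / 2 < f z by linarith
        exact Or.inr (mem_biUnion (show (s₀ + f z) / 2 ∈ Ioi s₀ from mem_Ioi.2 (by linarith))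
          (mem_biUnion (⟨h3, h1⟩ : z ∈ Sp f _ \ W) (mem_connectedComponentIn h3)))
    · exact ⟨m, mem_connectedComponentIn hm,
        mem_biUnion (show (s₀ + f m) / 2 ∈ Ioi s₀ from mem_Ioi.2 (by linarith))
          (mem_connectedComponentIn (show (s₀ + f m) / 2 < f m by linarith))⟩
  obtain ⟨s₁, h1, h2⟩ := mem_iUnion₂.1 (key h')
  filter_upwards [Ioo_mem_nhdsGT h1] with s hs using mono m hs.2.le h2

theorem Lc.right (h : Lc f C) (s₀ : ℝ) : ∀ᶠ s in 𝓝[>] s₀, Ph f C s ≤ Ph f C s₀ := by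
  classical
  have gap : ∀ᶠ s in 𝓝[>] s₀, ∀ q ∈ C, (s < f q ↔ s₀ < f q) := by
    refine (Finset.eventually_all C).2 fun q _ => ?_
    rcases lt_or_ge s₀ (f q) with h1 | h1
    · filter_upwards [Ioo_mem_nhdsGT h1] with s hs using iff_of_true hs.2 h1
    · filter_upwards [self_mem_nhdsWithin] with s hs using
        iff_of_false (not_lt.2 (h1.trans (le_of_lt hs))) (not_lt.2 h1)
  have same : ∀ᶠ s in 𝓝[>] s₀, ∀ m ∈ Mx f C s₀, ∀ m' ∈ Mx f C s₀,
      cc (Sp f s₀) m = cc (Sp f s₀) m' → m' ∈ cc (Sp f s) m := by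
    refine (Finset.eventually_all _).2 fun m hm => (Finset.eventually_all _).2 fun m' hm' => ?_
    by_cases e : cc (Sp f s₀) m = cc (Sp f s₀) m'
    · filter_upwards [same_cc h.ct (mem_Mx.1 hm).2.2
        (by rw [e]; exact mem_connectedComponentIn (F := Sp f s₀) (mem_Mx.1 hm').2.2 :
          m' ∈ cc (Sp f s₀) m)] with s hs _ using hs
    · exact Eventually.of_forall fun s e' => absurd e' e
  filter_upwards [gap, same] with s h1 h2
  have e1 : Mx f C s = Mx f C s₀ := by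
    ext q; simp only [mem_Mx]
    exact and_congr_right fun hq => by rw [h1 q hq]
  have e2 : Ud f C s = Ud f C s₀ := by
    ext q; simp only [mem_Ud]
    exact and_congr_right fun hq => by rw [h1 q hq]
  have e3 : (Cp f C s).card ≤ (Cp f C s₀).card := by
    unfold Cp
    rw [e1]
    exact card_image_le_of _ _ _ fun m hm m' hm' e => connectedComponentIn_eq (h2 m hm m' hm' e)
  unfold Ph
  rw [e1, e2]
  omega

variable [CompactSpace X]

theorem Lc.exists_max (h : Lc f C) {s : ℝ} {a : X} (ha : s < f a) :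
    ∃ m ∈ Mx f C s, cc (Sp f s) m = cc (Sp f s) a ∧ IsMaxOn f (cc (Sp f s) a) m := by
  have h0 : a ∈ closure (cc (Sp f s) a) := subset_closure (mem_connectedComponentIn ha)
  obtain ⟨m, h1, h2⟩ := isClosed_closure.isCompact.exists_isMaxOn ⟨a, h0⟩ h.ct.continuousOn
  have h3 : s < f m := ha.trans_le (h2 h0)
  have h4 := cc_of_closure (isOpen_Sp h.ct s) h3 h1
  have h5 : IsLocalMax f m := (h2.on_subset subset_closure).isLocalMax
    (h4 ▸ (isOpen_Sp h.ct s).connectedComponentIn.mem_nhds (mem_connectedComponentIn h3))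
  exact ⟨m, mem_Mx.2 ⟨h.mx m h5, h5, h3⟩, h4, h2.on_subset subset_closure⟩

variable [T2Space X]

theorem Lc.left (h : Lc f C) (s₀ : ℝ) : ∀ᶠ s in 𝓝[<] s₀, Ph f C s₀ ≤ Ph f C s := by
  classical
  set O := Sp f s₀ with hO
  have hOo : IsOpen O := isOpen_Sp h.ct s₀
  set M' := C.filter fun m => IsLocalMax f m ∧ s₀ ≤ f m with hM'
  set cl : X → Set X := fun m => if s₀ < f m then closure (cc O m) else {m} with hcl
  set lab : X → Option (Set X) :=
    fun m => if ∃ q ∈ cl m, q ∈ C ∧ f q = s₀ then none else some (cc O m) with hlab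
  have mM : ∀ {m}, m ∈ M' ↔ m ∈ C ∧ IsLocalMax f m ∧ s₀ ≤ f m := by simp [hM']
  have sub : Mx f C s₀ ⊆ M' := fun m hm =>
    mM.2 ⟨(mem_Mx.1 hm).1, (mem_Mx.1 hm).2.1, (mem_Mx.1 hm).2.2.le⟩
  have cl1 : ∀ m, s₀ < f m → cl m = closure (cc O m) := fun m hm => if_pos hm
  have cl2 : ∀ m, ¬ s₀ < f m → cl m = {m} := fun m hm => if_neg hm
  have clc : ∀ m, IsClosed (cl m) := fun m => by
    by_cases e : s₀ < f m
    · rw [cl1 m e]; exact isClosed_closure
    · rw [cl2 m e]; exact isClosed_singleton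
  have self : ∀ m, m ∈ cl m := fun m => by
    by_cases e : s₀ < f m
    · rw [cl1 m e]; exact subset_closure (mem_connectedComponentIn e)
    · rw [cl2 m e]; rfl
  have cov0 : ∀ x ∈ O, ∃ m ∈ M', x ∈ cl m := fun x hx => by
    obtain ⟨m, h1, h2, -⟩ := h.exists_max hx
    refine ⟨m, sub h1, ?_⟩
    rw [cl1 m (mem_Mx.1 h1).2.2, h2]
    exact subset_closure (mem_connectedComponentIn hx)
  have cov : ∀ x, s₀ ≤ f x → ∃ m ∈ M', x ∈ cl m := by
    intro x hx
    by_cases e : IsLocalMax f x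
    · exact ⟨x, mM.2 ⟨h.mx x e, e, hx⟩, self x⟩
    · have h1 : x ∈ closure O := by
        rw [mem_closure_iff_frequently]
        exact (not_eventually.1 e).mono fun y hy => hx.trans_lt (not_le.1 hy)
      have h2 := closure_minimal (fun y hy => by
        obtain ⟨m, h3, h4⟩ := cov0 y hy
        exact mem_biUnion (Finset.mem_coe.2 h3) h4)
        (M'.finite_toSet.isClosed_biUnion fun m _ => clc m) h1
      obtain ⟨m, h3, h4⟩ := mem_iUnion₂.1 h2
      exact ⟨m, h3, h4⟩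
  have disj : ∀ m ∈ M', ∀ m' ∈ M', ∀ x, x ∈ cl m → x ∈ cl m' → lab m = lab m' := by
    intro m hm m' hm' x hx hx'
    by_cases e : x ∈ C ∧ f x = s₀
    · simp only [hlab]
      rw [if_pos ⟨x, hx, e⟩, if_pos ⟨x, hx', e⟩]
    have big : ∀ n ∈ M', x ∈ cl n → s₀ < f n := fun n hn hx => by
      by_contra e'
      rw [cl2 n e', mem_singleton_iff] at hx
      exact e ⟨hx ▸ (mM.1 hn).1, hx ▸ le_antisymm (not_lt.1 e') (mM.1 hn).2.2⟩
    have b1 := big m hm hx
    have b2 := big m' hm' hx'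
    rw [cl1 _ b1] at hx
    rw [cl1 _ b2] at hx'
    have e1 : cc O m = cc O m' := by
      rcases (le_of_closure h.ct hx).lt_or_eq with h1 | h1
      · exact (cc_of_closure hOo h1 hx).symm.trans (cc_of_closure hOo h1 hx')
      · by_contra e'
        refine e ⟨h.up x ⟨cc O m, cc O m', ?_, ?_, e'⟩, h1.symm⟩
        · rw [← h1]; exact ⟨⟨m, b1, rfl⟩, hx⟩
        · rw [← h1]; exact ⟨⟨m', b2, rfl⟩, hx'⟩
    simp only [hlab]
    rw [cl1 _ b1, cl1 _ b2, e1]
  have sep : ∀ m ∈ M', ∀ᶠ s in 𝓝[<] s₀, ∀ m' ∈ M', m' ∈ cc (Sp f s) m → lab m' = lab m := by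
    intro m hm
    set A := ⋃ n ∈ M'.filter (fun n => lab n = lab m), cl n with hA
    set B := ⋃ n ∈ M'.filter (fun n => lab n ≠ lab m), cl n with hB
    have cA : IsClosed A := (Finset.finite_toSet _).isClosed_biUnion fun n _ => clc n
    have cB : IsClosed B := (Finset.finite_toSet _).isClosed_biUnion fun n _ => clc n
    have dAB : Disjoint A B := by
      rw [Set.disjoint_left]
      intro x h1 h2
      obtain ⟨n, h3, h4⟩ := mem_iUnion₂.1 h1
      obtain ⟨n', h5, h6⟩ := mem_iUnion₂.1 h2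
      rw [Finset.mem_filter] at h3 h5
      exact h5.2 ((disj n h3.1 n' h5.1 x h4 h6).symm.trans h3.2)
    obtain ⟨U, V, hU, hV, h1, h2, h3⟩ := normal_separation cA cB dAB
    have hK : ∀ᶠ s in 𝓝[<] s₀, Sp f s ⊆ U ∪ V := by
      rcases (U ∪ V)ᶜ.eq_empty_or_nonempty with e | e
      · exact Eventually.of_forall fun s x _ => by
          by_contra h4
          exact (e ▸ h4 : x ∈ (∅ : Set X))
      · obtain ⟨z, h4, h5⟩ := (hU.union hV).isClosed_compl.isCompact.exists_isMaxOn e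
          h.ct.continuousOn
        have h6 : f z < s₀ := by
          by_contra h7
          obtain ⟨n, h8, h9⟩ := cov z (not_lt.1 h7)
          by_cases e' : lab n = lab m
          · exact h4 (Or.inl (h1 (mem_biUnion (Finset.mem_filter.2 ⟨h8, e'⟩) h9)))
          · exact h4 (Or.inr (h2 (mem_biUnion (Finset.mem_filter.2 ⟨h8, e'⟩) h9)))
        filter_upwards [Ioo_mem_nhdsLT h6] with s hs x hx
        by_contra h7
        exact absurd (hs.1.trans hx) (not_lt.2 (h5 h7))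
    filter_upwards [hK, self_mem_nhdsWithin] with s hs hs' m' hm' h4
    by_contra e
    have h5 := isPreconnected_connectedComponentIn.subset_left_of_subset_union hU hV h3
      ((connectedComponentIn_subset _ m).trans hs)
      ⟨m, mem_connectedComponentIn (lt_of_lt_of_le hs' (mM.1 hm).2.2),
        h1 (mem_biUnion (Finset.mem_filter.2 ⟨hm, rfl⟩) (self m))⟩
    exact Set.disjoint_left.1 h3 (h5 h4)
      (h2 (mem_biUnion (Finset.mem_filter.2 ⟨hm', e⟩) (self m')))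
  have gap : ∀ᶠ s in 𝓝[<] s₀, ∀ q ∈ C, (s < f q ↔ s₀ ≤ f q) := by
    refine (Finset.eventually_all C).2 fun q _ => ?_
    rcases lt_or_ge (f q) s₀ with h1 | h1
    · filter_upwards [Ioo_mem_nhdsLT h1] with s hs using
        iff_of_false (not_lt.2 hs.1.le) (not_le.2 h1)
    · filter_upwards [self_mem_nhdsWithin] with s hs using iff_of_true (lt_of_lt_of_le hs h1) h1
  filter_upwards [(Finset.eventually_all M').2 sep, gap] with s h1 h2
  have e1 : Mx f C s = M' := by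
    ext q; simp only [mem_Mx, mM]
    exact and_congr_right fun hq => by rw [h2 q hq]
  have e2 : Ud f C s₀ ⊆ Ud f C s := fun q hq => by
    rw [mem_Ud] at hq ⊢
    exact ⟨hq.1, hq.2.1, (h2 q hq.1).2 hq.2.2.le⟩
  have e3 : (M'.image lab).card ≤ (Cp f C s).card := by
    unfold Cp
    rw [e1]
    refine card_image_le_of _ _ _ fun m hm m' hm' e => (h1 m hm m' hm' ?_).symm
    rw [e]
    exact mem_connectedComponentIn ((h2 m' (mM.1 hm').1).2 (mM.1 hm').2.2)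
  set T : Set X → Prop := fun U => ∃ q ∈ closure U, q ∈ C ∧ f q = s₀ with hT
  have e4 := Finset.card_filter_add_card_filter_not (s := Cp f C s₀) T
  have e5 : ((Cp f C s₀).filter fun U => ¬ T U).card ≤ ((M'.image lab).erase none).card := by
    rw [← Finset.card_image_of_injective _ (Option.some_injective _)]
    refine Finset.card_le_card fun z hz => ?_
    obtain ⟨U, hU, rfl⟩ := Finset.mem_image.1 hz
    obtain ⟨h3, h4⟩ := Finset.mem_filter.1 hU
    obtain ⟨m, h5, rfl⟩ := mem_Cp.1 h3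
    refine Finset.mem_erase.2 ⟨by simp, Finset.mem_image.2 ⟨m, sub h5, ?_⟩⟩
    simp only [hlab]
    rw [cl1 m (mem_Mx.1 h5).2.2]
    exact if_neg h4
  have e6 := Finset.card_le_card e2
  have tc : ∀ p, p ∈ C → f p = s₀ → ∀ U ∈ (Cp f C s₀).filter T, Tc (Sp f (f p)) p U := by
    intro p hp e U hU
    obtain ⟨h3, q, h4, h5, h6⟩ := Finset.mem_filter.1 hU
    obtain ⟨m, h7, rfl⟩ := mem_Cp.1 h3
    rw [e, h.inj hp h5 (e.trans h6.symm)]
    exact ⟨⟨m, (mem_Mx.1 h7).2.2, rfl⟩, h4⟩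
  have mx : ∀ p, p ∈ C → f p = s₀ → M' ⊆ insert p (Mx f C s₀) := by
    intro p hp e m hm
    rcases (mM.1 hm).2.2.lt_or_eq with h3 | h3
    · exact Finset.mem_insert_of_mem (mem_Mx.2 ⟨(mM.1 hm).1, (mM.1 hm).2.1, h3⟩)
    · rw [h.inj (mM.1 hm).1 hp (h3.symm.trans e.symm)]
      exact Finset.mem_insert_self _ _
  unfold Ph
  rw [e1]
  by_cases hn : none ∈ M'.image lab
  · have e7 := Finset.card_erase_add_one hn
    obtain ⟨m, -, h3⟩ := Finset.mem_image.1 hn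
    obtain ⟨p, -, hp, e⟩ : ∃ q ∈ cl m, q ∈ C ∧ f q = s₀ := by
      by_contra h4
      simp only [hlab, if_neg h4] at h3
      exact absurd h3 (by simp)
    by_cases hm : IsLocalMax f p
    · have e8 : ((Cp f C s₀).filter T).card = 0 := by
        rw [Finset.card_eq_zero, Finset.eq_empty_iff_forall_notMem]
        intro U hU
        obtain ⟨⟨a, -, rfl⟩, h4⟩ := tc p hp e U hU
        obtain ⟨y, h5, h6⟩ := ((mem_closure_iff_frequently.1 h4).and_eventually hm).exists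
        exact absurd (connectedComponentIn_subset _ _ h5) (not_lt.2 h6)
      have e9 := (Finset.card_le_card (mx p hp e)).trans (Finset.card_insert_le _ _)
      omega
    · have e9 : M'.card ≤ (Mx f C s₀).card := Finset.card_le_card fun n hn' => by
        rcases Finset.mem_insert.1 (mx p hp e hn') with rfl | h4
        · exact absurd (mM.1 hn').2.1 hm
        · exact h4
      by_cases hu : Up f p
      · have e8 : ((Cp f C s₀).filter T).card ≤ 2 := by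
          by_contra h4
          obtain ⟨a, b, c, ha, hb, hc, h5, h6, h7⟩ := Finset.two_lt_card_iff.1 (not_le.1 h4)
          rcases h.three p a b c (tc p hp e a ha) (tc p hp e b hb) (tc p hp e c hc) with
            h8 | h8 | h8
          exacts [h5 h8, h6 h8, h7 h8]
        have e10 : (Ud f C s₀).card < (Ud f C s).card :=
          Finset.card_lt_card ⟨e2, fun h4 => (mem_Ud.1 (h4
            (mem_Ud.2 ⟨hp, hu, (h2 p hp).2 e.ge⟩))).2.2.ne' e⟩
        omega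
      · have e8 : ((Cp f C s₀).filter T).card ≤ 1 := Finset.card_le_one.2 fun a ha b hb => by
          by_contra h4
          exact hu ⟨a, b, tc p hp e a ha, tc p hp e b hb, h4⟩
        omega
  · have nt : ∀ m ∈ M', ¬ ∃ q ∈ cl m, q ∈ C ∧ f q = s₀ := fun m hm h3 =>
      hn (Finset.mem_image.2 ⟨m, hm, by simp only [hlab, if_pos h3]⟩)
    have e8 : ((Cp f C s₀).filter T).card = 0 := by
      rw [Finset.card_eq_zero, Finset.eq_empty_iff_forall_notMem]
      intro U hU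
      obtain ⟨h3, h4⟩ := Finset.mem_filter.1 hU
      obtain ⟨m, h5, rfl⟩ := mem_Cp.1 h3
      exact nt m (sub h5) (by rw [cl1 m (mem_Mx.1 h5).2.2]; exact h4)
    have e9 : M'.card ≤ (Mx f C s₀).card := Finset.card_le_card fun n hn' => by
      rcases (mM.1 hn').2.2.lt_or_eq with h3 | h3
      · exact mem_Mx.2 ⟨(mM.1 hn').1, (mM.1 hn').2.1, h3⟩
      · exact absurd ⟨n, self n, (mM.1 hn').1, h3.symm⟩ (nt n hn')
    have e10 := Finset.card_erase_le (s := M'.image lab) (a := none)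
    omega

theorem Lc.antitone (h : Lc f C) : Antitone (Ph f C) := antitone_of_local h.right h.left

end Crest.Agent.N250.GB
end

-- ▼ part N250/GB/Top3
section

/-!
# Row 250, local Gauss-Bonnet (helper74): local structure of the normal forms
-/

set_option autoImplicit false
open Set Filter Topology Function Metric

namespace Crest.Agent.N250.GB

variable {X : Type} [TopologicalSpace X]

/-- a square chart -/
structure Bx (f : X → ℝ) (p : X) (k : Fin 4) (e : OpenPartialHomeomorph X (ℝ × ℝ)) (r : ℝ) :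
    Prop where
  src : p ∈ e.source
  zero : e p = 0
  pos : 0 < r
  sub : ball 0 r ⊆ e.target
  val : ∀ q ∈ e.source, f q = f p + model k (e q)

theorem NF.bx {f : X → ℝ} {p : X} {k : Fin 4} (h : NF f p k) : ∃ e r, Bx f p k e r := by
  obtain ⟨e, h1, h2, h3⟩ := h
  obtain ⟨r, hr, h4⟩ := Metric.isOpen_iff.1 e.open_target 0 (h2 ▸ e.map_source h1)
  exact ⟨e, r, h1, h2, hr, h4, h3⟩

/-- the domain of a square chart -/
def dom (e : OpenPartialHomeomorph X (ℝ × ℝ)) (r : ℝ) : Set X := e.source ∩ e ⁻¹' ball 0 r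

/-- quadrants -/
def Qd (r a b : ℝ) : Set (ℝ × ℝ) := ball 0 r ∩ ({z | 0 < a * z.1} ∩ {z | 0 < b * z.2})

/-- half squares -/
def Hf (r a b : ℝ) : Set (ℝ × ℝ) := ball 0 r ∩ {z | 0 < a * z.1 + b * z.2}

theorem convex_half (a b : ℝ) : Convex ℝ {z : ℝ × ℝ | 0 < a * z.1 + b * z.2} :=
  convex_halfSpace_gt (f := fun z : ℝ × ℝ => a * z.1 + b * z.2)
    ⟨fun x y => by simp; ring, fun c x => by simp; ring⟩ 0

theorem pc_Hf (r a b : ℝ) : IsPreconnected (Hf r a b) :=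
  ((convex_ball _ _).inter (convex_half a b)).isPreconnected

theorem pc_Qd (r a b : ℝ) : IsPreconnected (Qd r a b) := by
  refine ((convex_ball _ _).inter (Convex.inter ?_ ?_)).isPreconnected
  · simpa using convex_half a 0
  · simpa using convex_half 0 b

theorem mem_ball_iff {r : ℝ} {z : ℝ × ℝ} : z ∈ ball (0 : ℝ × ℝ) r ↔ |z.1| < r ∧ |z.2| < r := by
  simp [Prod.norm_def]

theorem pc_punct {r : ℝ} (hr : 0 < r) :
    IsPreconnected (ball (0 : ℝ × ℝ) r ∩ {z | 0 < z.1 ^ 2 + z.2 ^ 2}) := by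
  have b : ∀ a c : ℝ, |a| = 1 → |c| = 1 → ((a * (r / 2), c * (r / 2)) : ℝ × ℝ) ∈ ball 0 r :=
    fun a c ha hc => by
      rw [mem_ball_iff]
      simp only [abs_mul, ha, hc, abs_of_pos (half_pos hr)]
      constructor <;> linarith
  have m : ∀ a c u v : ℝ, |a| = 1 → |c| = 1 → u * a + v * c = 1 →
      ((a * (r / 2), c * (r / 2)) : ℝ × ℝ) ∈ Hf r u v := fun a c u v ha hc h =>
    ⟨b a c ha hc, show 0 < u * (a * (r / 2)) + v * (c * (r / 2)) by
      have : u * (a * (r / 2)) + v * (c * (r / 2)) = (u * a + v * c) * (r / 2) := by ring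
      rw [this, h]; linarith⟩
  have h1 := IsPreconnected.union _ (m 1 1 1 0 (by simp) (by simp) (by simp))
    (m 1 1 0 1 (by simp) (by simp) (by simp)) (pc_Hf r 1 0) (pc_Hf r 0 1)
  have h2 := IsPreconnected.union _ (mem_union_right _ (m (-1) 1 0 1 (by simp) (by simp) (by simp)))
    (m (-1) 1 (-1) 0 (by simp) (by simp) (by simp)) h1 (pc_Hf r (-1) 0)
  have h3 := IsPreconnected.union _
    (mem_union_right _ (m (-1) (-1) (-1) 0 (by simp) (by simp) (by simp)))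
    (m (-1) (-1) 0 (-1) (by simp) (by simp) (by simp)) h2 (pc_Hf r 0 (-1))
  convert h3 using 1
  ext z
  simp only [Hf, mem_inter_iff, mem_union, mem_ofPred_eq]
  constructor
  · rintro ⟨h4, h5⟩
    by_contra hc
    simp only [h4, true_and, not_or, not_lt] at hc
    obtain ⟨⟨⟨c1, c2⟩, c3⟩, c4⟩ := hc
    have e1 : z.1 = 0 := by linarith
    have e2 : z.2 = 0 := by linarith
    simp [e1, e2] at h5
  · rintro (((h | h) | h) | h) <;> exact ⟨h.1, by nlinarith [h.2, sq_nonneg z.1, sq_nonneg z.2]⟩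

namespace Bx

variable {f : X → ℝ} {p : X} {k : Fin 4} {e : OpenPartialHomeomorph X (ℝ × ℝ)} {r : ℝ}
  (h : Bx f p k e r)
include h

omit h in
theorem op : IsOpen (dom e r) := e.isOpen_inter_preimage isOpen_ball

theorem mem : p ∈ dom e r := ⟨h.src, by rw [mem_preimage, h.zero]; exact mem_ball_self h.pos⟩

theorem symm_mem {z : ℝ × ℝ} (hz : z ∈ ball (0 : ℝ × ℝ) r) : e.symm z ∈ dom e r :=
  ⟨e.map_target (h.sub hz), by rw [mem_preimage, e.right_inv (h.sub hz)]; exact hz⟩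

theorem val' {z : ℝ × ℝ} (hz : z ∈ ball (0 : ℝ × ℝ) r) : f (e.symm z) = f p + model k z := by
  rw [h.val _ (e.map_target (h.sub hz)), e.right_inv (h.sub hz)]

theorem pc {A : Set (ℝ × ℝ)} (hA : IsPreconnected A) (hs : A ⊆ ball 0 r) :
    IsPreconnected (e.symm '' A) := hA.image _ (e.continuousOn_symm.mono (hs.trans h.sub))

theorem mem_cl {z w : ℝ × ℝ} (hz : z ∈ ball (0 : ℝ × ℝ) r) {A : Set (ℝ × ℝ)}
    (hA : ∀ ε : ℝ, 0 < ε → z + ε • w ∈ ball (0 : ℝ × ℝ) r → z + ε • w ∈ A) :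
    e.symm z ∈ closure (e.symm '' A) := by
  have t1 : Tendsto (fun ε : ℝ => z + ε • w) (𝓝[>] 0) (𝓝 z) := by
    have : Continuous fun ε : ℝ => z + ε • w := by fun_prop
    exact (this.tendsto' 0 z (by simp)).mono_left nhdsWithin_le_nhds
  refine mem_closure_of_tendsto ((e.continuousAt_symm (h.sub hz)).tendsto.comp t1) ?_
  filter_upwards [t1.eventually (isOpen_ball.mem_nhds hz), self_mem_nhdsWithin] with ε h1 h2
  exact mem_image_of_mem _ (hA ε h2 h1)

theorem symm_zero : e.symm 0 = p := by rw [← h.zero, e.left_inv h.src]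

theorem sp (τ : ℝ) {A : Set (ℝ × ℝ)} (hA : ∀ z ∈ A, z ∈ ball (0 : ℝ × ℝ) r ∧ 0 < τ * model k z) :
    e.symm '' A ⊆ Sp (fun x => τ * f x) (τ * f p) := by
  rintro _ ⟨z, hz, rfl⟩
  show τ * f p < τ * f (e.symm z)
  rw [h.val' (hA z hz).1]
  linarith [(hA z hz).2]

theorem sp' (τ : ℝ) {A : Set (ℝ × ℝ)}
    (hA : ∀ z ∈ ball (0 : ℝ × ℝ) r, 0 < τ * model k z → z ∈ A) :
    dom e r ∩ Sp (fun x => τ * f x) (τ * f p) ⊆ e.symm '' A := by
  rintro q ⟨h1, h2⟩
  refine ⟨e q, hA _ h1.2 ?_, e.left_inv h1.1⟩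
  have h3 : τ * f p < τ * f q := h2
  rw [h.val q h1.1] at h3
  linarith

theorem not_max (τ : ℝ) (w : ℝ × ℝ) (hw : ∀ ε : ℝ, 0 < ε → 0 < τ * model k (ε • w)) :
    ¬ IsLocalMax (fun x => τ * f x) p := by
  intro hm
  have h1 := h.mem_cl (w := w) (mem_ball_self h.pos)
    (A := {z | z ∈ ball (0 : ℝ × ℝ) r ∧ 0 < τ * model k z})
    fun ε hε hb => ⟨hb, by rw [zero_add]; exact hw ε hε⟩
  rw [h.symm_zero] at h1
  obtain ⟨y, h2, h3⟩ := ((mem_closure_iff_frequently.1 h1).and_eventually hm).exists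
  exact absurd (h.sp τ (fun z hz => hz) h2) (not_lt.2 h3)

theorem is_max (τ : ℝ) (hw : ∀ z, τ * model k z ≤ 0) : IsLocalMax (fun x => τ * f x) p := by
  filter_upwards [e.open_source.mem_nhds h.src] with q hq
  rw [h.val q hq]
  linarith [hw (e q)]

theorem loc_conn : ∀ U ∈ 𝓝 p, ∃ V ∈ 𝓝 p, IsPreconnected V ∧ V ⊆ U := by
  intro U hU
  have h1 : e.symm ⁻¹' U ∈ 𝓝 (0 : ℝ × ℝ) :=
    e.continuousAt_symm (h.sub (mem_ball_self h.pos)) (h.symm_zero.symm ▸ hU)
  obtain ⟨ρ, hρ, h2⟩ := Metric.mem_nhds_iff.1 (inter_mem h1 (ball_mem_nhds _ h.pos))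
  refine ⟨e.symm '' ball 0 ρ, ?_, h.pc (convex_ball _ _).isPreconnected fun z hz => (h2 hz).2, ?_⟩
  · rw [← h.symm_zero]
    exact e.symm.image_mem_nhds (h.sub (mem_ball_self h.pos)) (ball_mem_nhds _ hρ)
  · rintro _ ⟨z, hz, rfl⟩
    exact (h2 hz).1

end Bx

theorem tc_two {O N A B U : Set X} {q : X} (hN : IsOpen N) (hq : q ∈ N) (hA : IsPreconnected A)
    (hB : IsPreconnected B) (hAO : A ⊆ O) (hBO : B ⊆ O) (hc : N ∩ O ⊆ A ∪ B) (h : Tc O q U) :
    (A.Nonempty ∧ A ⊆ U) ∨ (B.Nonempty ∧ B ⊆ U) := by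
  obtain ⟨⟨a, -, rfl⟩, h1⟩ := h
  obtain ⟨z, h2, h3⟩ := _root_.mem_closure_iff.1 h1 N hN hq
  rcases hc ⟨h2, connectedComponentIn_subset _ _ h3⟩ with h4 | h4
  · exact Or.inl ⟨⟨z, h4⟩, (hA.subset_connectedComponentIn h4 hAO).trans
      (connectedComponentIn_eq h3).ge⟩
  · exact Or.inr ⟨⟨z, h4⟩, (hB.subset_connectedComponentIn h4 hBO).trans
      (connectedComponentIn_eq h3).ge⟩

theorem tc_eq {O A U U' : Set X} {q q' : X} (h : Tc O q U) (h' : Tc O q' U') (hA : A.Nonempty)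
    (h1 : A ⊆ U) (h2 : A ⊆ U') : U = U' := by
  obtain ⟨⟨a, -, rfl⟩, -⟩ := h
  obtain ⟨⟨b, -, rfl⟩, -⟩ := h'
  obtain ⟨z, hz⟩ := hA
  exact cc_eq (h1 hz) (h2 hz)

theorem model0 (z : ℝ × ℝ) : model 0 z = z.2 := rfl
theorem model3 (z : ℝ × ℝ) : model 3 z = z.1 * z.2 := rfl

theorem qd1 {r τ : ℝ} (a : ℝ) (ha : a = 1 ∨ a = -1) :
    ∀ z ∈ Qd r a (τ * a), z ∈ ball (0 : ℝ × ℝ) r ∧ 0 < τ * model 3 z := by
  rintro z ⟨h1, h2, h3⟩
  refine ⟨h1, ?_⟩
  have := mul_pos (show 0 < a * z.1 from h2) (show 0 < τ * a * z.2 from h3)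
  rw [model3]
  rcases ha with rfl | rfl <;> nlinarith

theorem qd2 {r τ : ℝ} : ∀ z ∈ ball (0 : ℝ × ℝ) r, 0 < τ * model 3 z →
    z ∈ Qd r 1 (τ * 1) ∪ Qd r (-1) (τ * -1) := by
  intro z h1 h2
  rw [model3] at h2
  have h3 : 0 < z.1 * (τ * z.2) := by linarith
  rcases pos_and_pos_or_neg_and_neg_of_mul_pos h3 with h4 | h4
  · exact Or.inl ⟨h1, show 0 < 1 * z.1 by linarith [h4.1], show 0 < τ * 1 * z.2 by linarith [h4.2]⟩
  · exact Or.inr ⟨h1, show 0 < -1 * z.1 by linarith [h4.1],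
      show 0 < τ * -1 * z.2 by linarith [h4.2]⟩

/-- the positive part of a model has at most two pieces, one unless it is a saddle -/
theorem pieces {r τ : ℝ} (hr : 0 < r) (hτ : τ = 1 ∨ τ = -1) (k : Fin 4) :
    ∃ A B : Set (ℝ × ℝ), IsPreconnected A ∧ IsPreconnected B ∧
      (∀ z ∈ A, z ∈ ball (0 : ℝ × ℝ) r ∧ 0 < τ * model k z) ∧
      (∀ z ∈ B, z ∈ ball (0 : ℝ × ℝ) r ∧ 0 < τ * model k z) ∧
      (∀ z ∈ ball (0 : ℝ × ℝ) r, 0 < τ * model k z → z ∈ A ∪ B) ∧ (k ≠ 3 → B = A) := by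
  have one : IsPreconnected {z | z ∈ ball (0 : ℝ × ℝ) r ∧ 0 < τ * model k z} → ∃ A B,
      IsPreconnected A ∧ IsPreconnected B ∧
      (∀ z ∈ A, z ∈ ball (0 : ℝ × ℝ) r ∧ 0 < τ * model k z) ∧
      (∀ z ∈ B, z ∈ ball (0 : ℝ × ℝ) r ∧ 0 < τ * model k z) ∧
      (∀ z ∈ ball (0 : ℝ × ℝ) r, 0 < τ * model k z → z ∈ A ∪ B) ∧ (k ≠ 3 → B = A) :=
    fun h => ⟨_, _, h, h, fun _ hz => hz, fun _ hz => hz, fun _ h1 h2 => Or.inl ⟨h1, h2⟩,
      fun _ => rfl⟩
  have emp : (∀ z, τ * model k z ≤ 0) →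
      IsPreconnected {z | z ∈ ball (0 : ℝ × ℝ) r ∧ 0 < τ * model k z} := fun h => by
    convert isPreconnected_empty
    exact eq_empty_of_forall_notMem fun z hz => absurd hz.2 (not_lt.2 (h z))
  have pun : (∀ z, τ * model k z = z.1 ^ 2 + z.2 ^ 2) →
      IsPreconnected {z | z ∈ ball (0 : ℝ × ℝ) r ∧ 0 < τ * model k z} := fun h => by
    simp only [h]
    exact pc_punct hr
  fin_cases k
  · refine one ?_
    convert pc_Hf r 0 τ using 1
    ext z
    simp [Hf, model]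
  · rcases hτ with rfl | rfl
    · exact one (emp fun z => by simp only [model]; simp; nlinarith)
    · exact one (pun fun z => by simp [model])
  · rcases hτ with rfl | rfl
    · exact one (pun fun z => by simp [model])
    · exact one (emp fun z => by simp only [model]; simp; nlinarith)
  · exact ⟨_, _, pc_Qd r 1 (τ * 1), pc_Qd r (-1) (τ * -1), qd1 1 (Or.inl rfl),
      qd1 (-1) (Or.inr rfl), qd2, fun h => absurd rfl h⟩

variable {f : X → ℝ} {p : X} {k : Fin 4} {τ : ℝ}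

theorem NF.three (h : NF f p k) (hτ : τ = 1 ∨ τ = -1) :
    (Up (fun x => τ * f x) p → k = 3) ∧ ∀ U₁ U₂ U₃, Tc (Sp (fun x => τ * f x) (τ * f p)) p U₁ →
      Tc (Sp (fun x => τ * f x) (τ * f p)) p U₂ → Tc (Sp (fun x => τ * f x) (τ * f p)) p U₃ →
      U₁ = U₂ ∨ U₁ = U₃ ∨ U₂ = U₃ := by
  obtain ⟨e, r, b⟩ := h.bx
  obtain ⟨A, B, h1, h2, h3, h4, h5, h6⟩ := pieces b.pos hτ k
  have key := fun U => tc_two (U := U) Bx.op b.mem (b.pc h1 fun z hz => (h3 z hz).1)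
    (b.pc h2 fun z hz => (h4 z hz).1) (b.sp τ h3) (b.sp τ h4)
    (by rw [← image_union]; exact b.sp' τ h5)
  refine ⟨?_, fun U₁ U₂ U₃ t1 t2 t3 => ?_⟩
  · rintro ⟨U, U', t1, t2, hne⟩
    by_contra hk
    rw [h6 hk] at key
    exact hne (tc_eq t1 t2 (or_self_iff.1 (key U t1)).1 (or_self_iff.1 (key U t1)).2
      (or_self_iff.1 (key U' t2)).2)
  · rcases key _ t1 with a | a <;> rcases key _ t2 with b | b <;> rcases key _ t3 with c | c
    all_goals first
      | exact Or.inl (tc_eq t1 t2 a.1 a.2 b.2)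
      | exact Or.inr (Or.inl (tc_eq t1 t3 a.1 a.2 c.2))
      | exact Or.inr (Or.inr (tc_eq t2 t3 b.1 b.2 c.2))

theorem NF.max_iff (h : NF f p k) :
    (IsLocalMax (fun x => 1 * f x) p ↔ k = 1) ∧ (IsLocalMax (fun x => -1 * f x) p ↔ k = 2) := by
  obtain ⟨e, r, b⟩ := h.bx
  fin_cases k
  · exact ⟨iff_of_false (b.not_max 1 (1, 1) fun ε hε => by simpa [model] using hε) (by simp),
      iff_of_false (b.not_max (-1) (1, -1) fun ε hε => by simpa [model] using hε) (by simp)⟩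
  · exact ⟨iff_of_true (b.is_max 1 fun z => by simp only [model]; simp; nlinarith) rfl,
      iff_of_false (b.not_max (-1) (1, 1) fun ε hε => by simp [model]; nlinarith) (by simp)⟩
  · exact ⟨iff_of_false (b.not_max 1 (1, 1) fun ε hε => by simp [model]; nlinarith) (by simp),
      iff_of_true (b.is_max (-1) fun z => by simp only [model]; simp; nlinarith) rfl⟩
  · exact ⟨iff_of_false (b.not_max 1 (1, 1) fun ε hε => by simp [model]; nlinarith) (by simp),
      iff_of_false (b.not_max (-1) (1, -1) fun ε hε => by simp [model]; nlinarith) (by simp)⟩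

end Crest.Agent.N250.GB
end

-- ▼ part N250/GB/Top4

/-!
# Row 250, local Gauss-Bonnet (helper74): the Morse inequality `TopS`
-/

set_option autoImplicit false
open Set Filter Topology Function Metric

namespace Crest.Agent.N250.GB

variable {X : Type} [TopologicalSpace X] {f : X → ℝ} {p : X}
  {e : OpenPartialHomeomorph X (ℝ × ℝ)} {r τ : ℝ}

theorem ax_mem {r x : ℝ} (hx : x ∈ Ioo (-r) r) : ((x, 0) : ℝ × ℝ) ∈ ball (0 : ℝ × ℝ) r := by
  rw [mem_ball_iff]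
  exact ⟨abs_lt.2 hx, by simp; linarith [hx.1, hx.2]⟩

theorem Bx.ch {k : Fin 4} (h : Bx f p k e r) {Γ : Set X} {I : Set ℝ} (hI : I.OrdConnected)
    (hs : I ⊆ Ioo (-r) r) (h1 : ∀ x ∈ I, e.symm (x, 0) ∈ Γ)
    (h2 : ∀ y ∈ Γ, y ∈ dom e r → (e y).1 ∈ I ∧ (e y).2 = 0) :
    Ch Γ (dom e r) (fun y => (e y).1) (fun x => e.symm (x, 0)) I where
  op := Bx.op
  cκ := (e.continuousOn.mono inter_subset_left).fst
  oc := hI
  cγ := e.continuousOn_symm.comp (by fun_prop) fun x hx => h.sub (ax_mem (hs hx))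
  mem x hx := ⟨h1 x hx, h.symm_mem (ax_mem (hs hx))⟩
  κγ x hx := by rw [e.right_inv (h.sub (ax_mem (hs hx)))]
  γκ y hy hN := ⟨(h2 y hy hN).1, by
    rw [← (h2 y hy hN).2]
    exact e.left_inv hN.1⟩

/-- the component that contains the right quadrant at a merging saddle -/
theorem Bx.side (h : Bx f p 3 e r) (hτ : τ = 1 ∨ τ = -1) (hu : Up (fun x => τ * f x) p) :
    ∃ U, (∃ a ∈ Sp (fun x => τ * f x) (τ * f p), U = cc (Sp (fun x => τ * f x) (τ * f p)) a) ∧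
      (∀ x ∈ Ico 0 r, e.symm (x, 0) ∈ closure U) ∧
      ∀ y ∈ closure U, y ∈ dom e r → 0 ≤ (e y).1 ∧ 0 ≤ τ * (e y).2 := by
  have q1 := qd1 (r := r) (τ := τ) 1 (Or.inl rfl)
  have q2 := qd1 (r := r) (τ := τ) (-1) (Or.inr rfl)
  have cov : dom e r ∩ Sp (fun x => τ * f x) (τ * f p) ⊆
      e.symm '' Qd r 1 (τ * 1) ∪ e.symm '' Qd r (-1) (τ * -1) := by
    rw [← image_union]; exact h.sp' τ qd2
  have key := fun U => tc_two (U := U) Bx.op h.mem (h.pc (pc_Qd _ _ _) fun z hz => (q1 z hz).1)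
    (h.pc (pc_Qd _ _ _) fun z hz => (q2 z hz).1) (h.sp τ q1) (h.sp τ q2) cov
  have main : ∀ U U', Tc (Sp (fun x => τ * f x) (τ * f p)) p U →
      Tc (Sp (fun x => τ * f x) (τ * f p)) p U' → U ≠ U' → e.symm '' Qd r 1 (τ * 1) ⊆ U →
      e.symm '' Qd r (-1) (τ * -1) ⊆ U' → (∀ x ∈ Ico 0 r, e.symm (x, 0) ∈ closure U) ∧
      ∀ y ∈ closure U, y ∈ dom e r → 0 ≤ (e y).1 ∧ 0 ≤ τ * (e y).2 := by
    intro U U' t1 t2 hne s1 s2
    refine ⟨fun x hx => closure_mono s1 (h.mem_cl (w := (1, τ))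
      (ax_mem ⟨by linarith [hx.1, h.pos], hx.2⟩) fun ε hε hb => ⟨hb, ?_, ?_⟩), fun y hy hN => ?_⟩
    · show 0 < 1 * (x + ε * 1)
      linarith [hx.1]
    · show 0 < τ * 1 * (0 + ε * τ)
      rcases hτ with rfl | rfl <;> linarith
    · have c1 : y ∈ closure (dom e r ∩ U) := Bx.op.inter_closure ⟨hN, hy⟩
      have c2 : IsClosed {z : ℝ × ℝ | 0 ≤ z.1 ∧ 0 ≤ τ * z.2} :=
        (isClosed_le continuous_const continuous_fst).inter
          (isClosed_le continuous_const (continuous_const.mul continuous_snd))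
      refine c2.closure_subset (((e.continuousAt hN.1).continuousWithinAt).mem_closure c1 ?_)
      rintro w ⟨w1, w2⟩
      have w3 : w ∈ Sp (fun x => τ * f x) (τ * f p) := by
        obtain ⟨⟨a, -, rfl⟩, -⟩ := t1
        exact connectedComponentIn_subset _ _ w2
      rcases cov ⟨w1, w3⟩ with h4 | h4
      · obtain ⟨z, hz, rfl⟩ := h4
        rw [e.right_inv (h.sub hz.1)]
        have a1 : 0 < 1 * z.1 := hz.2.1
        have a2 : 0 < τ * 1 * z.2 := hz.2.2
        exact ⟨by linarith, by linarith⟩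
      · exact absurd (tc_eq t1 t2 (singleton_nonempty w) (singleton_subset_iff.2 w2)
          (singleton_subset_iff.2 (s2 h4))) hne
  obtain ⟨U, U', t1, t2, hne⟩ := hu
  rcases key U t1 with a | a <;> rcases key U' t2 with b | b
  · exact absurd (tc_eq t1 t2 a.1 a.2 b.2) hne
  · exact ⟨U, t1.1, main U U' t1 t2 hne a.2 b.2⟩
  · exact ⟨U', t2.1, main U' U t2 t1 hne.symm b.2 a.2⟩
  · exact absurd (tc_eq t1 t2 a.1 a.2 b.2) hne

theorem Bx.reg (h : Bx f p 0 e r) (hτ : τ = 1 ∨ τ = -1) {U : Set X}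
    (t : Tc (Sp (fun x => τ * f x) (τ * f p)) p U) : ∀ x ∈ Ioo (-r) r,
    e.symm (x, 0) ∈ closure U := by
  have q1 : ∀ z ∈ Hf r 0 τ, z ∈ ball (0 : ℝ × ℝ) r ∧ 0 < τ * model 0 z := fun z hz =>
    ⟨hz.1, by have : 0 < 0 * z.1 + τ * z.2 := hz.2
              rw [model0]; linarith⟩
  have pc := h.pc (pc_Hf r 0 τ) fun z hz => hz.1
  have s1 := (or_self_iff.1 (tc_two Bx.op h.mem pc pc (h.sp τ q1) (h.sp τ q1)
    ((h.sp' τ (A := Hf r 0 τ) fun z h1 h2 => ⟨h1, show 0 < 0 * z.1 + τ * z.2 by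
      rw [model0] at h2; linarith⟩).trans subset_union_left) t)).2
  refine fun x hx => closure_mono s1 (h.mem_cl (w := (0, τ)) (ax_mem hx) fun ε hε hb => ⟨hb, ?_⟩)
  show 0 < 0 * (x + ε * 0) + τ * (0 + ε * τ)
  rcases hτ with rfl | rfl <;> linarith

variable [T2Space X] [CompactSpace X]

/-- a saddle does not merge both upwards and downwards -/
theorem not_both (hf : Continuous f) (hp : NF f p 3) (hq : ∀ q, q ≠ p → f q = f p → NF f q 0)
    (h1 : Up (fun x => 1 * f x) p) (h2 : Up (fun x => -1 * f x) p) : False := by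
  obtain ⟨e, r, b⟩ := hp.bx
  obtain ⟨U, u1, u2, u3⟩ := b.side (Or.inl rfl) h1
  obtain ⟨D, d1, d2, d3⟩ := b.side (Or.inr rfl) h2
  have lev : ∀ y ∈ closure U ∩ closure D, f y = f p := by
    rintro y ⟨y1, y2⟩
    obtain ⟨a, -, rfl⟩ := u1
    obtain ⟨c, -, rfl⟩ := d1
    have a1 := le_of_closure (f := fun x => 1 * f x) (by fun_prop) y1
    have a2 := le_of_closure (f := fun x => -1 * f x) (by fun_prop) y2
    linarith
  have m : ∀ x ∈ Ico 0 r, e.symm (x, 0) ∈ closure U ∩ closure D := fun x hx => ⟨u2 x hx, d2 x hx⟩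
  refine OneEnd.false (Γ := closure U ∩ closure D) (p := p)
    ⟨(isClosed_closure.inter isClosed_closure).isCompact, ?_, ⟨_, _, _, r, b.pos,
      b.ch ordConnected_Ico (fun x hx => ⟨by linarith [hx.1, b.pos], hx.2⟩) m fun y hy hN => ?_,
      b.mem, by simp [b.zero]⟩, fun q hΓ hne => ?_⟩
  · rw [← b.symm_zero]
    exact m 0 ⟨le_rfl, b.pos⟩
  · have a1 := u3 y hy.1 hN
    have a2 := d3 y hy.2 hN
    exact ⟨⟨a1.1, (abs_lt.1 (mem_ball_iff.1 hN.2).1).2⟩, by linarith [a1.2, a2.2]⟩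
  · have hl := lev q hΓ
    obtain ⟨e', r', b'⟩ := (hq q hne hl).bx
    refine ⟨_, _, _, r', b'.pos, b'.ch ordConnected_Ioo subset_rfl (fun x hx =>
      ⟨b'.reg (Or.inl rfl) ⟨hl ▸ u1, hΓ.1⟩ x hx, b'.reg (Or.inr rfl) ⟨hl ▸ d1, hΓ.2⟩ x hx⟩)
      fun y hy hN => ⟨abs_lt.1 (mem_ball_iff.1 hN.2).1, ?_⟩, b'.mem, by simp [b'.zero]⟩
    have := b'.val y hN.1
    rw [model0, lev y hy, hl] at this
    linarith

theorem card_eq_sum {α : Type*} [DecidableEq α] {F C : Finset α} (h : F ⊆ C) :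
    (F.card : ℝ) = ∑ p ∈ C, if p ∈ F then 1 else 0 := by
  rw [Finset.sum_boole, Finset.filter_mem_eq_inter, Finset.inter_eq_right.2 h]

omit [TopologicalSpace X] [T2Space X] [CompactSpace X] in
theorem exists_delta (C : Finset X) (t : ℝ) (h : ∀ p ∈ C, f p ≠ t) {a : ℝ} (ha : 0 < a) :
    ∃ δ, 0 < δ ∧ δ < a ∧ ∀ p ∈ C, δ < |f p - t| := by
  have h1 : ∀ᶠ δ in 𝓝[>] (0 : ℝ), ∀ p ∈ C, δ < |f p - t| := by
    rw [Filter.eventually_all_finset]
    exact fun p hp => nhdsWithin_le_nhds (Iio_mem_nhds (abs_pos.2 (sub_ne_zero.2 (h p hp))))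
  obtain ⟨δ, h2, h3⟩ := (h1.and (Ioo_mem_nhdsGT ha)).exists
  exact ⟨δ, h3.1, h3.2, h2⟩

theorem topS : TopS := by
  classical
  intro X _ _ _ _ f ty C hf hN hC hinj t ht ⟨p₀, hp₀⟩
  have : LocallyConnectedSpace X := by
    refine locallyConnectedSpace_iff_connected_subsets.2 fun x U hU => ?_
    obtain ⟨e, r, b⟩ := (hN x).bx
    exact b.loc_conn U hU
  have lc : ∀ τ : ℝ, τ = 1 ∨ τ = -1 → Lc (fun x => τ * f x) C := fun τ hτ =>
    ⟨by fun_prop, fun m hm => (hC m).2 fun h0 => by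
      have := (hN m).max_iff
      rw [h0] at this
      rcases hτ with rfl | rfl
      · exact absurd (this.1.1 hm) (by decide)
      · exact absurd (this.2.1 hm) (by decide),
    fun q hq => (hC q).2 (by rw [((hN q).three hτ).1 hq]; decide),
    fun q => ((hN q).three hτ).2, fun a ha c hc h => hinj ha hc (by
      rcases hτ with rfl | rfl <;> linarith [show _ * f a = _ * f c from h])⟩
  obtain ⟨δ, hδ, hδa, hδC⟩ := exists_delta C t ht (sub_pos.2 hp₀)
  obtain ⟨B, hB⟩ : ∃ B, ∀ x, f x < B := by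
    obtain ⟨B, hB⟩ := (isCompact_range hf).bddAbove
    exact ⟨B + 1, fun x => by linarith [hB (mem_range_self x)]⟩
  set g : X → ℝ := fun x => 1 * f x with hg
  set g' : X → ℝ := fun x => -1 * f x with hg'
  have l1 : Lc g C := lc 1 (Or.inl rfl)
  have l2 : Lc g' C := lc (-1) (Or.inr rfl)
  set K := Cp g C (t - δ) with hK
  refine ⟨δ, K.card, fun i => (K.equivFin.symm i).1, hδ, hδC, fun i => ?_, fun i j hij => ?_,
    fun x hx => ?_, fun i => ?_, ?_⟩
  all_goals beta_reduce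
  · obtain ⟨m, -, h⟩ := mem_Cp.1 (K.equivFin.symm i).2
    rw [← h]
    exact (isOpen_Sp l1.ct _).connectedComponentIn
  · obtain ⟨m, -, h⟩ := mem_Cp.1 (K.equivFin.symm i).2
    obtain ⟨m', -, h'⟩ := mem_Cp.1 (K.equivFin.symm j).2
    refine Set.disjoint_left.2 fun z h1 h2 => hij (K.equivFin.symm.injective (Subtype.ext ?_))
    beta_reduce at h1 h2
    rw [← h] at h1
    rw [← h'] at h2
    rw [← h, ← h']
    exact cc_eq h1 h2
  · have hx' : t - δ < g x := by simpa [hg] using hx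
    obtain ⟨m, h1, h2, -⟩ := l1.exists_max hx'
    refine ⟨K.equivFin ⟨_, mem_Cp.2 ⟨m, h1, rfl⟩⟩, ?_⟩
    rw [Equiv.symm_apply_apply]
    show x ∈ cc _ m
    rw [h2]
    exact mem_connectedComponentIn hx'
  · obtain ⟨m, hm, h⟩ := mem_Cp.1 (K.equivFin.symm i).2
    rw [← h]
    obtain ⟨m1, -, m2⟩ := mem_Mx.1 hm
    have m3 : t < f m := by
      have a1 := hδC m m1
      have a2 : t - δ < 1 * f m := m2
      rcases lt_abs.1 a1 with a3 | a3 <;> linarith
    have mm : m ∈ cc (Sp g (t - δ)) m := mem_connectedComponentIn m2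
    obtain ⟨y, hy, hyt⟩ : ∃ y ∈ cc (Sp g (t - δ)) m, f y < t := by
      by_contra hc
      push Not at hc
      have hcl : IsClosed (cc (Sp g (t - δ)) m) := by
        refine closure_subset_iff_isClosed.1 fun x hx => ?_
        have a1 : t ≤ f x := closure_minimal hc (isClosed_le continuous_const hf) hx
        have a2 : x ∈ Sp g (t - δ) := show t - δ < 1 * f x by linarith
        rw [← cc_of_closure (isOpen_Sp l1.ct _) a2 hx]
        exact mem_connectedComponentIn a2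
      have a3 := IsClopen.eq_univ ⟨hcl, (isOpen_Sp l1.ct _).connectedComponentIn⟩ ⟨m, mm⟩
      exact absurd (hc p₀ (a3 ▸ mem_univ _)) (not_le.2 hp₀)
    obtain ⟨q, h1, h2⟩ := isPreconnected_connectedComponentIn.intermediate_value hy mm
      hf.continuousOn ⟨hyt.le, m3.le⟩
    exact ⟨q, h1, h2⟩
  · have tB : t - δ ≤ max B t := by linarith [le_max_right B t]
    have a1 := l1.antitone tB
    have a2 := l2.antitone (show -max B t ≤ -t by linarith [le_max_right B t])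
    have e1 : Mx g C (max B t) = ∅ := Finset.eq_empty_of_forall_notMem fun m hm => by
      have a3 : max B t < 1 * f m := (mem_Mx.1 hm).2.2
      linarith [hB m, le_max_left B t]
    have e2 : (Cp g' C (-max B t)).card ≤ 1 := Finset.card_le_one.2 fun U hU V hV => by
      obtain ⟨m, -, rfl⟩ := mem_Cp.1 hU
      obtain ⟨m', -, rfl⟩ := mem_Cp.1 hV
      have : Sp g' (-max B t) = univ := eq_univ_of_forall fun x =>
        show -max B t < -1 * f x by linarith [hB x, le_max_left B t]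
      simp only [this, cc, connectedComponentIn_univ, PreconnectedSpace.connectedComponent_eq_univ]
    have e3 : 1 ≤ (Cp g' C (-t)).card := by
      obtain ⟨m, h1, -⟩ := l2.exists_max (show -t < -1 * f p₀ by linarith)
      exact Finset.card_pos.2 ⟨_, mem_Cp.2 ⟨m, h1, rfl⟩⟩
    have a4 : ((Mx g C (t - δ)).card : ℝ) - (Ud g C (t - δ)).card
        + ((Mx g' C (-max B t)).card - (Mx g' C (-t)).card)
        - ((Ud g' C (-max B t)).card - (Ud g' C (-t)).card) ≤ K.card := by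
      simp only [Ph, e1, Finset.card_empty, ← hK] at a1 a2
      have : ((Mx g C (t - δ)).card : ℤ) - (Ud g C (t - δ)).card
        + ((Mx g' C (-max B t)).card - (Mx g' C (-t)).card)
        - ((Ud g' C (-max B t)).card - (Ud g' C (-t)).card) ≤ K.card := by omega
      exact_mod_cast this
    refine le_trans ?_ a4
    have sM : ∀ (h : X → ℝ) s, Mx h C s ⊆ C := fun h s m hm => (mem_Mx.1 hm).1
    have sU : ∀ (h : X → ℝ) s, Ud h C s ⊆ C := fun h s m hm => (mem_Ud.1 hm).1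
    simp only [card_eq_sum (sM _ _), card_eq_sum (sU _ _), Finset.sum_filter,
      ← Finset.sum_sub_distrib, ← Finset.sum_add_distrib]
    refine Finset.sum_le_sum fun p hp => ?_
    have b1 : -max B t < g' p := show -max B t < -1 * f p by linarith [hB p, le_max_left B t]
    have b2 : t - δ < g p ↔ t < f p := by
      have a1 := hδC p hp
      refine ⟨fun a2 => ?_, fun a2 => show t - δ < 1 * f p by linarith⟩
      have a2 : t - δ < 1 * f p := a2
      rcases lt_abs.1 a1 with a3 | a3 <;> linarith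
    have b3 : -t < g' p ↔ ¬ t < f p := by
      refine ⟨fun a2 a3 => ?_, fun a2 => ?_⟩
      · have a2 : -t < -1 * f p := a2
        linarith
      · have := (not_lt.1 a2).lt_of_ne (ht p hp)
        show -t < -1 * f p
        linarith
    have b4 : (IsLocalMax g p ↔ ty p = 1) ∧ (IsLocalMax g' p ↔ ty p = 2) := (hN p).max_iff
    have b5 : Up g p → ty p = 3 := ((hN p).three (Or.inl rfl)).1
    have b6 : Up g' p → ty p = 3 := ((hN p).three (Or.inr rfl)).1
    have b7 : Up g p → Up g' p → False := fun u1 u2 =>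
      not_both hf (b5 u1 ▸ hN p) (fun q hq hl => by
        have : ty q = 0 := by
          by_contra h0
          exact hq (hinj ((hC q).2 h0) hp hl)
        exact this ▸ hN q) u1 u2
    have b8 := (hC p).1 hp
    simp only [mem_Mx, mem_Ud, hp, true_and, b1, b2, b3, and_true, b4.1, b4.2]
    by_cases c0 : t < f p
    · generalize ty p = k at b5 b6 b8
      by_cases c1 : Up g p <;> by_cases c2 : Up g' p
      · exact (b7 c1 c2).elim
      · obtain rfl := b5 c1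
        simp [ind, c0, c1, c2]
      · obtain rfl := b6 c2
        simp [ind, c0, c1, c2]
      · fin_cases k <;> simp [ind, c0, c1, c2] at b8 ⊢
    · simp [c0]

end Crest.Agent.N250.GB
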